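import Vale.Agent.P155.NO801.Def
import Vale.Agent.P155.S743.Bump
import Vale.Agent.P155.G45.Cut
import Vale.Agent.P155.K.Dir
import Vale.Agent.P155.H12.Cross
import Vale.Agent.P155.NT613.UnxC

/-!
# P155, necessity of the outer condition, block D1: a mean zero function of positive energy
-/

namespace Vale.Agent.P155.NT34

open Finset S743 H12 K

/-- the difference of two bumps -/
noncomputable def phx (z : Pt) (p : ℕ) (x : Pt) : ℝ :=
  bump p (z.1 - (p + 1), z.2) x - bump p (z.1 + (p + 1), z.2) x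

theorem phx_off {z : Pt} {p m : ℕ} (hp : 5 ≤ p) (hm : 2 * p + 1 ≤ m) {x : Pt}
    (hx : x ∉ box z m) : phx z p x = 0 := by
  have h1 : bump p (z.1 - (p + 1), z.2) x = 0 := by
    by_contra h
    apply hx
    have := bump_supp hp h
    rw [H12.mem_box] at *
    simp only at this
    omega
  have h2 : bump p (z.1 + (p + 1), z.2) x = 0 := by
    by_contra h
    apply hx
    have := bump_supp hp h
    rw [H12.mem_box] at *
    simp only at this
    omega
  unfold phx
  rw [h1, h2, sub_zero]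

theorem phx_sum {z : Pt} {p : ℕ} (hp : 5 ≤ p) : ∑ᶠ x, phx z p x = 0 := by
  unfold phx
  rw [finsum_sub_distrib (bump_fin hp _) (bump_fin hp _), bump_mass hp, bump_mass hp, sub_self]

theorem phx_diff {z : Pt} {p : ℕ} (hp : 5 ≤ p) (a b : ℕ) (hab : a + b ≤ 4) (x : Pt) :
    |(Dx^[a] (Dy^[b] (phx z p))) x| ≤ 32000000 / (p : ℝ) ^ 2 * ((p : ℝ)⁻¹) ^ (a + b) := by
  have e : phx z p = fun x => bump p (z.1 - (p + 1), z.2) x +
      (fun y => - bump p (z.1 + (p + 1), z.2) y) x := by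
    funext x
    unfold phx
    ring
  rw [e, G45.D_add, G45.D_neg]
  have h1 := bump_diff hp (z.1 - (p + 1), z.2) a b hab x
  have h2 := bump_diff hp (z.1 + (p + 1), z.2) a b hab x
  have h3 : |(Dx^[a] (Dy^[b] (bump p (z.1 - (p + 1), z.2)))) x +
      -(Dx^[a] (Dy^[b] (bump p (z.1 + (p + 1), z.2)))) x| ≤
      |(Dx^[a] (Dy^[b] (bump p (z.1 - (p + 1), z.2)))) x| +
      |(Dx^[a] (Dy^[b] (bump p (z.1 + (p + 1), z.2)))) x| := by
    refine (abs_add_le _ _).trans ?_
    rw [abs_neg]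
  refine h3.trans ((add_le_add h1 h2).trans (le_of_eq ?_))
  ring

theorem phx_bump {z : Pt} {p : ℕ} (hp : 5 ≤ p) {R : ℕ} {q : Pt} {κ : ℝ} (hκ : 0 < κ) (hκ1 : κ ≤ 1)
    (hR : 1 ≤ R) (hpR : κ * R ≤ p) (hz : ∀ x, x ∉ box q R → phx z p x = 0) :
    IsBump q R (32000000 / κ ^ 6 / (R : ℝ) ^ 2) (phx z p) := by
  have hR0 : (0 : ℝ) < R := by exact_mod_cast hR
  have hκR : 0 < κ * R := by positivity
  have hp0 : (0 : ℝ) < p := by linarith
  refine ⟨hz, fun a b hab x => (phx_diff hp a b hab x).trans ?_⟩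
  have h1 : (p : ℝ)⁻¹ ≤ κ⁻¹ * (R : ℝ)⁻¹ := by
    rw [← mul_inv]
    exact inv_anti₀ hκR hpR
  have h2 : 32000000 / (p : ℝ) ^ 2 = 32000000 * ((p : ℝ)⁻¹) ^ 2 := by
    rw [inv_pow, div_eq_mul_inv]
  have h3 : ((p : ℝ)⁻¹) ^ 2 ≤ (κ⁻¹ * (R : ℝ)⁻¹) ^ 2 := pow_le_pow_left₀ (by positivity) h1 _
  have h4 : ((p : ℝ)⁻¹) ^ (a + b) ≤ κ⁻¹ ^ 4 * ((R : ℝ)⁻¹) ^ (a + b) := by
    calc ((p : ℝ)⁻¹) ^ (a + b) ≤ (κ⁻¹ * (R : ℝ)⁻¹) ^ (a + b) :=
          pow_le_pow_left₀ (by positivity) h1 _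
      _ = κ⁻¹ ^ (a + b) * ((R : ℝ)⁻¹) ^ (a + b) := mul_pow _ _ _
      _ ≤ κ⁻¹ ^ 4 * ((R : ℝ)⁻¹) ^ (a + b) :=
          mul_le_mul_of_nonneg_right (pow_le_pow_right₀ ((one_le_inv₀ hκ).2 hκ1) hab)
            (by positivity)
  calc 32000000 / (p : ℝ) ^ 2 * ((p : ℝ)⁻¹) ^ (a + b)
      ≤ (32000000 * (κ⁻¹ * (R : ℝ)⁻¹) ^ 2) * (κ⁻¹ ^ 4 * ((R : ℝ)⁻¹) ^ (a + b)) := by
        rw [h2]
        exact mul_le_mul (mul_le_mul_of_nonneg_left h3 (by norm_num)) h4 (by positivity)
          (by positivity)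
    _ = 32000000 / κ ^ 6 / (R : ℝ) ^ 2 * ((R : ℝ)⁻¹) ^ (a + b) := by
        field_simp

/-- the square norm -/
theorem phx_sq {z : Pt} {p : ℕ} (hp : 5 ≤ p) :
    ((2 * (p : ℝ) + 1) ^ 2)⁻¹ ≤ pair (phx z p) (phx z p) := by
  obtain ⟨c, hc⟩ : ∃ c : Pt, c = (z.1 - (p + 1), z.2) := ⟨_, rfl⟩
  have hm : 2 * p + 1 ≤ 2 * p + 1 := le_refl _
  have hfin : Fin0 (fun x => phx z p x * phx z p x) :=
    (Finset.finite_toSet (box z (2 * p + 1))).subset fun x hx => by
      by_contra h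
      exact hx (by
        have := phx_off (z := z) hp hm (x := x) (by simpa using h)
        simp only [this, mul_zero])
  have h1 : ∑ x ∈ box c p, phx z p x * phx z p x ≤ pair (phx z p) (phx z p) := by
    unfold pair
    rw [finsum_eq_sum_of_support_subset (s := hfin.toFinset ∪ box c p) _ (by
      intro x hx
      rw [Finset.coe_union]
      exact Or.inl (by simpa using hx))]
    exact Finset.sum_le_sum_of_subset_of_nonneg Finset.subset_union_right
      fun x _ _ => mul_self_nonneg _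
  have h2 : ∑ x ∈ box c p, phx z p x = 1 := by
    rw [← bump_sum hp c (Finset.Subset.refl (box c p))]
    refine Finset.sum_congr rfl fun x hx => ?_
    unfold phx
    have : bump p (z.1 + (p + 1), z.2) x = 0 := by
      by_contra h
      have h3 := bump_supp hp h
      rw [hc] at hx
      rw [H12.mem_box] at *
      simp only at hx h3
      omega
    rw [this, sub_zero, hc]
  have h3 := sq_sum_le_card_mul_sum_sq (s := box c p) (f := fun x => phx z p x)
  have hcard : ((box c p).card : ℝ) = (2 * p + 1) ^ 2 := by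
    unfold box
    rw [Finset.card_product, Int.card_Icc, Int.card_Icc]
    have e1 : (c.1 + p + 1 - (c.1 - p)).toNat = 2 * p + 1 := by omega
    have e2 : (c.2 + p + 1 - (c.2 - p)).toNat = 2 * p + 1 := by omega
    rw [e1, e2]
    push_cast
    ring
  rw [h2, hcard, one_pow] at h3
  refine le_trans ?_ h1
  rw [inv_le_iff_one_le_mul₀ (by positivity)]
  simp only [sq] at h3 ⊢
  linarith

/-- the energy -/
theorem phx_energy {z : Pt} {p m : ℕ} (hp : 5 ≤ p) (hm : 2 * p + 1 ≤ m) :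
    energy (phx z p) ≤ (2 * m + 3) ^ 2 * (2 * (32000000 / (p : ℝ) ^ 3) ^ 2) := by
  have hp0 : (0 : ℝ) < p := by
    have : 0 < p := by omega
    exact_mod_cast this
  unfold energy
  rw [finsum_eq_sum_of_support_subset (s := box z (m + 1)) _ (by
    intro x hx
    by_contra h
    apply hx
    have h0 : x ∉ box z (m + 1) := by simpa using h
    rw [H12.mem_box] at h0
    push_cast at h0
    have e0 : phx z p x = 0 := phx_off hp hm (by rw [H12.mem_box]; omega)
    have e1 : phx z p (x.1 + 1, x.2) = 0 := phx_off hp hm (by rw [H12.mem_box]; simp only; omega)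
    have e2 : phx z p (x.1, x.2 + 1) = 0 := phx_off hp hm (by rw [H12.mem_box]; simp only; omega)
    simp only [e0, e1, e2]
    norm_num)]
  have hcard : ((box z (m + 1)).card : ℝ) = (2 * m + 3) ^ 2 := by
    unfold box
    rw [Finset.card_product, Int.card_Icc, Int.card_Icc]
    have e1 : (z.1 + ((m + 1 : ℕ) : ℤ) + 1 - (z.1 - ((m + 1 : ℕ) : ℤ))).toNat = 2 * m + 3 := by omega
    have e2 : (z.2 + ((m + 1 : ℕ) : ℤ) + 1 - (z.2 - ((m + 1 : ℕ) : ℤ))).toNat = 2 * m + 3 := by omega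
    rw [e1, e2]
    push_cast
    ring
  have hb : ∀ x ∈ box z (m + 1), (phx z p (x.1 + 1, x.2) - phx z p x) ^ 2 +
      (phx z p (x.1, x.2 + 1) - phx z p x) ^ 2 ≤ 2 * (32000000 / (p : ℝ) ^ 3) ^ 2 := by
    intro x _
    have h1 := phx_diff (z := z) hp 1 0 (by norm_num) x
    have h2 := phx_diff (z := z) hp 0 1 (by norm_num) x
    simp only [Function.iterate_one, Function.iterate_zero, id_eq, add_zero, zero_add,
      pow_one] at h1 h2
    have e : 32000000 / (p : ℝ) ^ 2 * (p : ℝ)⁻¹ = 32000000 / (p : ℝ) ^ 3 := by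
      field_simp
    rw [e] at h1 h2
    unfold Dx at h1
    unfold Dy at h2
    have h3 := sq_le_sq' (by linarith [abs_le.1 h1]) (abs_le.1 h1).2
    have h4 := sq_le_sq' (by linarith [abs_le.1 h2]) (abs_le.1 h2).2
    linarith
  refine (Finset.sum_le_sum hb).trans (le_of_eq ?_)
  rw [Finset.sum_const, nsmul_eq_mul, hcard]

theorem energy_smul (t : ℝ) (v : Pt → ℝ) : energy (fun x => t * v x) = t ^ 2 * energy v := by
  unfold energy
  rw [mul_finsum]
  refine finsum_congr fun x => ?_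
  ring

theorem d1 : NO801.D1 := by
  intro κ hκ hκ1
  refine ⟨32000000 / (κ / 4) ^ 6, by positivity, (81 * (162 * 32000000 ^ 2))⁻¹, by positivity,
    ⌈20 / κ⌉₊, ?_⟩
  intro R hR T hfit z m hm hd
  have hRκ : 20 ≤ κ * R := by
    have : 20 / κ ≤ R := (Nat.le_ceil _).trans (by exact_mod_cast hR)
    rwa [div_le_iff₀ hκ, mul_comm] at this
  have hm20 : 20 ≤ m := by
    have : (20 : ℝ) ≤ m := hRκ.trans hm
    exact_mod_cast this
  obtain ⟨p, hp⟩ : ∃ p : ℕ, p = (m - 1) / 2 := ⟨_, rfl⟩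
  have hp5 : 5 ≤ p := by omega
  have hpm : 2 * p + 1 ≤ m := by omega
  have hmp : m ≤ 4 * p := by omega
  have hmp3 : 2 * m + 3 ≤ 9 * p := by omega
  have hR1 : 1 ≤ R := by
    rcases Nat.eq_zero_or_pos R with h | h
    · rw [h] at hRκ
      norm_num at hRκ
    · exact h
  have hmpr : (m : ℝ) ≤ 4 * p := by exact_mod_cast hmp
  have hp0 : (0 : ℝ) < p := by
    have : 0 < p := by omega
    exact_mod_cast this
  have hin : ∀ x, x ∈ box z m → x ∈ T.faceSet := by
    intro x hx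
    apply BD.mem_of_lt_dF (z := z)
    have := dn_le_iff.2 hx
    have h1 := H904.dn_comm z x
    omega
  have hoff : ∀ x, x ∉ T.faceSet → phx z p x = 0 := fun x hx =>
    phx_off hp5 hpm fun h => hx (hin x h)
  refine ⟨phx z p, ?_, fun x hx => phx_off hp5 hpm hx, phx_sum hp5, ?_⟩
  · exact phx_bump hp5 (by positivity) (by linarith) hR1 (by linarith)
      fun x hx => hoff x fun h => hx (hfit h)
  · intro u hu
    have hO : T.faceSet.Finite := (Finset.finite_toSet _).subset hfit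
    obtain ⟨s, hs⟩ : ∃ s : ℝ, s = ((2 * (p : ℝ) + 1) ^ 2)⁻¹ := ⟨_, rfl⟩
    obtain ⟨e, he⟩ : ∃ e : ℝ, e = (2 * m + 3) ^ 2 * (2 * (32000000 / (p : ℝ) ^ 3) ^ 2) := ⟨_, rfl⟩
    have h1 := phx_sq (z := z) hp5
    have h2 := phx_energy (z := z) hp5 hpm
    rw [← hs] at h1
    rw [← he] at h2
    have hs0 : 0 < s := by rw [hs]; positivity
    have he0 : 0 < e := by rw [he]; positivity
    have h3 := K.dirichlet hO hu (v := fun x => s / e * phx z p x) (fun x hx => by
      rw [hoff x hx, mul_zero])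
    rw [energy_smul] at h3
    have h4 : pair (phx z p) (fun x => s / e * phx z p x) = s / e * pair (phx z p) (phx z p) := by
      unfold pair
      rw [mul_finsum]
      refine finsum_congr fun x => ?_
      ring
    rw [h4] at h3
    have h5 : s ^ 2 / e ≤ pair (phx z p) u := by
      have h6 : s / e * s ≤ s / e * pair (phx z p) (phx z p) :=
        mul_le_mul_of_nonneg_left h1 (by positivity)
      have h7 : (s / e) ^ 2 * energy (phx z p) ≤ (s / e) ^ 2 * e :=
        mul_le_mul_of_nonneg_left h2 (by positivity)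
      have h8 : (s / e) ^ 2 * e = s ^ 2 / e := by field_simp
      have h9 : s / e * s = s ^ 2 / e := by ring
      linarith
    refine le_trans ?_ h5
    have hs1 : (9 * (p : ℝ) ^ 2)⁻¹ ≤ s := by
      rw [hs]
      apply inv_anti₀ (by positivity)
      have : (2 * (p : ℝ) + 1) ≤ 3 * p := by
        have : 2 * p + 1 ≤ 3 * p := by omega
        exact_mod_cast this
      nlinarith
    have he1 : e ≤ 162 * 32000000 ^ 2 / (p : ℝ) ^ 4 := by
      rw [he]
      have h6 : (2 * (m : ℝ) + 3) ^ 2 ≤ (9 * p) ^ 2 := by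
        have : (2 * (m : ℝ) + 3) ≤ 9 * p := by exact_mod_cast hmp3
        exact pow_le_pow_left₀ (by positivity) this _
      refine (mul_le_mul_of_nonneg_right h6 (by positivity)).trans (le_of_eq ?_)
      field_simp
      norm_num
    rw [le_div_iff₀ he0]
    calc (81 * (162 * 32000000 ^ 2))⁻¹ * e
        ≤ (81 * (162 * 32000000 ^ 2))⁻¹ * (162 * 32000000 ^ 2 / (p : ℝ) ^ 4) :=
          mul_le_mul_of_nonneg_left he1 (by positivity)
      _ = ((9 * (p : ℝ) ^ 2)⁻¹) ^ 2 := by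
          field_simp
          norm_num
      _ ≤ s ^ 2 := pow_le_pow_left₀ (by positivity) hs1 _

end Vale.Agent.P155.NT34
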