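import Vale.Agent.P155.NT34.VBe
import Vale.Agent.P155.NT613.UnxA
import Vale.Agent.P155.NT878.ZoneFM

/-!
# P155, NT: the visit bound at macroscopic scales, without hypotheses
-/

namespace Vale.Agent.P155.NT34

theorem unxMac : UnxMac := NT613.unx_macro

theorem zoneD : ZoneD := fun _ he0 => NT878.zone_dom he0

/-- **the visit bound follows from the mesoscopic regime** -/
theorem vbp2_of_mes (h : ∀ (K : ℕ) (cv : ℝ), 17 ≤ K → 0 < cv → VisLe K cv → VBMes K) : VBP2 := by
  obtain ⟨K, hK, cv, hcv, hV⟩ := visLe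
  exact vbp2_of (by omega) (vb_mac unxMac zoneD hK hcv hV) (h K cv hK hcv hV)

end Vale.Agent.P155.NT34
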