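import Vale.Agent.P155.NT733.Close

/-!
# P155, NT, block D: the closed curve with a gap in a rectangle

Variant of `NT733.Closed`: the gap is a path inside the set `G`.
-/

namespace Vale.Agent.P155.NT34

open Vale.Agent.P155 T802 Finset NT733

/-- the rectangle spanned by `y` and `z` -/
def Rc (y z u : Pt) : Prop :=
  ((y.1 ≤ u.1 ∧ u.1 ≤ z.1) ∨ (z.1 ≤ u.1 ∧ u.1 ≤ y.1)) ∧
    ((y.2 ≤ u.2 ∧ u.2 ≤ z.2) ∨ (z.2 ≤ u.2 ∧ u.2 ≤ y.2))

theorem rc_right (y z : Pt) : Rc y z z := by
  unfold Rc; omega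

theorem gap_rc (y z : Pt) : ∀ (k : ℕ) (w : Pt), (w.1 - y.1).natAbs + (w.2 - y.2).natAbs = k →
    Rc y z w → Linked (fun u u' => Rc y z u ∧ Rc y z u') w y := by
  intro k
  induction k with
  | zero =>
    intro w hk _
    have h1 : w.1 = y.1 := by omega
    have h2 : w.2 = y.2 := by omega
    rw [Prod.ext h1 h2]
    exact Linked.refl _ _
  | succ k ih =>
    intro w hk hw
    have : ∃ w' : Pt, Adj w w' ∧ (w'.1 - y.1).natAbs + (w'.2 - y.2).natAbs = k ∧ Rc y z w' := by
      obtain ⟨w1, w2⟩ := w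
      unfold Rc at hw ⊢
      simp only at hk hw ⊢
      by_cases h1 : w1 < y.1
      · exact ⟨(w1 + 1, w2), by simp [Adj], by simp only; omega, by simp only; omega⟩
      · by_cases h2 : y.1 < w1
        · exact ⟨(w1 - 1, w2), by simp [Adj], by simp only; omega, by simp only; omega⟩
        · by_cases h3 : w2 < y.2
          · exact ⟨(w1, w2 + 1), by simp [Adj], by simp only; omega, by simp only; omega⟩
          · exact ⟨(w1, w2 - 1), by simp [Adj], by simp only; omega, by simp only; omega⟩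
    obtain ⟨w', h1, h2, h3⟩ := this
    exact (Linked.edge h1 ⟨hw, h3⟩ ⟨h3, hw⟩).trans (ih w' h2 h3)

variable {T : Temp} {E : Set Pt} {v : ℕ → Pt} {M : ℕ} {G : Pt → Prop}

/-- The edges of the closed curve. -/
structure ClosedG (T : Temp) (E : Set Pt) (v : ℕ → Pt) (M : ℕ) (G : Pt → Prop)
    (a b : Pt → ZMod 2) : Prop where
  even : EvenSet a b
  a1 : ∀ p : Pt, p ∉ SS T E ∨ (p.1, p.2 + 1) ∉ SS T E → ¬ G p ∨ ¬ G (p.1, p.2 + 1) →
    a p = ind (Step v M p (p.1, p.2 + 1))
  b1 : ∀ p : Pt, p ∉ SS T E ∨ (p.1 + 1, p.2) ∉ SS T E → ¬ G p ∨ ¬ G (p.1 + 1, p.2) →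
    b p = ind (Step v M p (p.1 + 1, p.2))

theorem exists_closedG {y : Pt} (hconn : Linked (fun u w => u ∈ SS T E ∧ w ∈ SS T E) y (v 0))
    (hgap : Linked (fun u w => G u ∧ G w) (v M) y)
    (hinj : ∀ i j, i ≤ M → j ≤ M → v i = v j → i = j)
    (hadj : ∀ i < M, Adj (v i) (v (i + 1))) : ∃ a b, ClosedG T E v M G a b := by
  obtain ⟨ca, cb, hc⟩ := hconn
  obtain ⟨ga, gb, hg⟩ := hgap
  have hp := path_chain hadj
  set P : Pt → Pt → Prop := fun _ _ => True with hP
  have hc' := hc.mono (Q := P) (fun _ _ _ => trivial)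
  have hg' := hg.mono (Q := P) (fun _ _ _ => trivial)
  have hp' := hp.mono (Q := P) (fun _ _ _ => trivial)
  refine ⟨_, _, ((hp'.add hg').add hc').even, ?_, ?_⟩
  · intro p h1 h2
    have e1 : ca p = 0 := by
      by_contra h
      have := hc.av p h
      exact h1.elim (fun h => h this.1) (fun h => h this.2)
    have e2 : ga p = 0 := by
      by_contra h
      have := hg.av p h
      exact h2.elim (fun h => h this.1) (fun h => h this.2)
    simp only [e1, e2, add_zero]
    exact pathA_eq hinj p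
  · intro p h1 h2
    have e1 : cb p = 0 := by
      by_contra h
      have := hc.bv p h
      exact h1.elim (fun h => h this.1) (fun h => h this.2)
    have e2 : gb p = 0 := by
      by_contra h
      have := hg.bv p h
      exact h2.elim (fun h => h this.1) (fun h => h this.2)
    simp only [e1, e2, add_zero]
    exact pathB_eq hinj p

variable {a b : Pt → ZMod 2}

theorem flipG_vert (hc : ClosedG T E v M G a b) (hadj : ∀ i < M, Adj (v i) (v (i + 1))) (x z : ℤ)
    (h1 : (x, z) ∈ OE T E) (h2 : ¬ G (x, z) ∨ ¬ G (x, z + 1)) :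
    par a (x, z) ≠ par a (x - 1, z) ↔ ∃ i < M, v i ∈ corners (x, z) ∧ v i ∈ corners (x - 1, z) ∧
      v (i + 1) ∈ corners (x, z) ∧ v (i + 1) ∈ corners (x - 1, z) := by
  rw [par_flip_iff (par_right hc.even x z), hc.a1 (x, z) (Or.inl ?_) h2, ind_one]
  · exact step_vert hadj x z
  · intro h
    exact notMem_OE_of (by rw [NT733.mem_corners]; simp) h h1

theorem flipG_hor (hc : ClosedG T E v M G a b) (hadj : ∀ i < M, Adj (v i) (v (i + 1))) (x z : ℤ)
    (h1 : (x, z) ∈ OE T E) (h2 : ¬ G (x, z) ∨ ¬ G (x + 1, z)) :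
    par a (x, z) ≠ par a (x, z - 1) ↔ ∃ i < M, v i ∈ corners (x, z) ∧ v i ∈ corners (x, z - 1) ∧
      v (i + 1) ∈ corners (x, z) ∧ v (i + 1) ∈ corners (x, z - 1) := by
  rw [par_flip_iff (par_up hc.even x z), hc.b1 (x, z) (Or.inl ?_) h2, ind_one]
  · exact step_hor hadj x z
  · intro h
    exact notMem_OE_of (by rw [NT733.mem_corners]; simp) h h1

/-- Off the gap the parity flips between free faces exactly across the new path. -/
theorem flipG (hc : ClosedG T E v M G a b) (hadj : ∀ i < M, Adj (v i) (v (i + 1))) {f f' : Pt}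
    (hff : f' ∈ nbrs f) (hf : f ∈ OE T E) (hf' : f' ∈ OE T E)
    (hfar : ∀ p, p ∈ corners f → p ∈ corners f' → ¬ G p) :
    par a f ≠ par a f' ↔ ∃ i < M, v i ∈ corners f ∧ v i ∈ corners f' ∧
      v (i + 1) ∈ corners f ∧ v (i + 1) ∈ corners f' := by
  obtain ⟨x, z⟩ := f
  simp only [nbrs, mem_insert, mem_singleton] at hff
  rcases hff with rfl | rfl | rfl | rfl
  · have k := flipG_vert hc hadj (x + 1) z hf' (Or.inl (hfar _ (by simp [NT733.mem_corners])
      (by simp [NT733.mem_corners])))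
    rw [add_sub_cancel_right] at k
    rw [ne_comm, k]
    exact ⟨fun ⟨i, hi, h1, h2, h3, h4⟩ => ⟨i, hi, h2, h1, h4, h3⟩,
      fun ⟨i, hi, h1, h2, h3, h4⟩ => ⟨i, hi, h2, h1, h4, h3⟩⟩
  · exact flipG_vert hc hadj x z hf (Or.inl (hfar _ (by simp [NT733.mem_corners])
      (by simp [NT733.mem_corners])))
  · have k := flipG_hor hc hadj x (z + 1) hf' (Or.inl (hfar _ (by simp [NT733.mem_corners])
      (by simp [NT733.mem_corners])))
    rw [add_sub_cancel_right] at k
    rw [ne_comm, k]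
    exact ⟨fun ⟨i, hi, h1, h2, h3, h4⟩ => ⟨i, hi, h2, h1, h4, h3⟩,
      fun ⟨i, hi, h1, h2, h3, h4⟩ => ⟨i, hi, h2, h1, h4, h3⟩⟩
  · exact flipG_hor hc hadj x z hf (Or.inl (hfar _ (by simp [NT733.mem_corners])
      (by simp [NT733.mem_corners])))

variable {V : Finset Pt} {ω : Conf} {A : Set Pt}

/-- type + parity is constant along the new path. -/
theorem type_constG (hc : ClosedG T E v M G a b) (hω : ω ∈ DD V) (hL : A ∈ Loops ω)
    (hinj : ∀ i j, i ≤ M → j ≤ M → v i = v j → i = j)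
    (hadj : ∀ i < M, Adj (v i) (v (i + 1)))
    (hvL : ∀ j, j + 1 < M → v (j + 1) ∈ A)
    (hpart : ∀ j, j + 1 < M → (ω.1 (v (j + 1)) = v (j + 2) ∧ ω.2 (v (j + 1)) = v j) ∨
      (ω.1 (v (j + 1)) = v j ∧ ω.2 (v (j + 1)) = v (j + 2)))
    (hvS : ∀ j, j + 1 < M → v (j + 1) ∉ SS T E)
    (hfirst : ∀ j, j + 1 < M → ¬ G (v (j + 1))) :
    ∃ c : ZMod 2, ∀ j, j + 1 < M → ∀ f, v (j + 1) ∈ corners f →
      par a f + ind (surr ω A f) = c := by
  have hE := EvenSet.add hc.even (loop_even hω hL)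
  obtain ⟨N1, hN1⟩ := hc.even.bd
  obtain ⟨N2, hN2⟩ := (loop_even hω hL).bd
  have hsum : ∀ f, par a f + ind (surr ω A f) = par (fun u => a u + eA ω A u) f := fun f => by
    rw [surr_par hω hL, NT733.par_add (fun u hu => (hN1 u hu).1) (fun u hu => (hN2 u hu).1)]
  -- at one vertex
  have h1 : ∀ j, j + 1 < M → ∀ f f', v (j + 1) ∈ corners f → v (j + 1) ∈ corners f' →
      par a f + ind (surr ω A f) = par a f' + ind (surr ω A f') := by
    intro j hj f f' hf hf'
    rw [hsum, hsum]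
    obtain ⟨l1, l2, l3, l4⟩ := loop_edges hω hL (hvL j hj)
    have hs := step_nb hinj hj (hpart j hj)
    have hS := hvS j hj
    have hF := hfirst j hj
    generalize hq : v (j + 1) = q at *
    refine par_around hE (q := q) ?_ ?_ ?_ ?_ (mem_facesAt.2 hf) (mem_facesAt.2 hf')
    · rw [l1, hc.a1 q (Or.inl hS) (Or.inl hF), ind_congr (hs _), z2]
    · rw [l2, hc.a1 (q.1, q.2 - 1) (Or.inr (by simp only [sub_add_cancel]; exact hS))
        (Or.inr (by simp only [sub_add_cancel]; exact hF))]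
      simp only [sub_add_cancel]
      rw [ind_congr (Step.comm.trans (hs _)), z2]
    · rw [l3, hc.b1 q (Or.inl hS) (Or.inl hF), ind_congr (hs _), z2]
    · rw [l4, hc.b1 (q.1 - 1, q.2) (Or.inr (by simp only [sub_add_cancel]; exact hS))
        (Or.inr (by simp only [sub_add_cancel]; exact hF))]
      simp only [sub_add_cancel]
      rw [ind_congr (Step.comm.trans (hs _)), z2]
  -- along the path
  by_cases hM : 1 < M
  swap
  · exact ⟨0, fun j hj => absurd hj (by omega)⟩
  refine ⟨par a (v 1) + ind (surr ω A (v 1)), ?_⟩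
  intro j
  induction j with
  | zero =>
    intro hj f hf
    exact h1 0 hj f (v 1) hf (by rw [NT733.mem_corners]; simp)
  | succ j ih =>
    intro hj f hf
    -- a common face
    have hA := mem_nbrs.2 (hadj (j + 1) (by omega))
    have : ∃ g, v (j + 1) ∈ corners g ∧ v (j + 2) ∈ corners g := by
      have e : v (j + 1 + 1) = v (j + 2) := rfl
      rw [e] at hA
      generalize v (j + 1) = p at *
      generalize v (j + 2) = q at *
      obtain ⟨x, z⟩ := p
      simp only [nbrs, mem_insert, mem_singleton] at hA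
      rcases hA with rfl | rfl | rfl | rfl
      · exact ⟨(x, z), by simp [NT733.mem_corners], by simp [NT733.mem_corners]⟩
      · exact ⟨(x - 1, z), by simp [NT733.mem_corners], by simp [NT733.mem_corners]⟩
      · exact ⟨(x, z), by simp [NT733.mem_corners], by simp [NT733.mem_corners]⟩
      · exact ⟨(x, z - 1), by simp [NT733.mem_corners], by simp [NT733.mem_corners]⟩
    obtain ⟨g, hg1, hg2⟩ := this
    rw [h1 (j + 1) hj f g hf hg2]
    exact ih (by omega) g hg1

end Vale.Agent.P155.NT34
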