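import Vale.Agent.P155.T802.Par

/-!
# P155, NT: edge sets modulo two; chains of lattice walks
-/

namespace Vale.Agent.P155.NT34

open Finset Vale.Agent.P155.T802

open Classical in
/-- value of the edge set `(a, b)` at the edge `{p, p'}` -/
noncomputable def ev (a b : Pt → ZMod 2) (p p' : Pt) : ZMod 2 :=
  if p' = (p.1 + 1, p.2) then b p
  else if p' = (p.1 - 1, p.2) then b p'
  else if p' = (p.1, p.2 + 1) then a p
  else if p' = (p.1, p.2 - 1) then a p'
  else 0

variable {a b c d : Pt → ZMod 2}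

theorem ev_right (x y : ℤ) : ev a b (x, y) (x + 1, y) = b (x, y) := by simp [ev]

theorem ev_left (x y : ℤ) : ev a b (x, y) (x - 1, y) = b (x - 1, y) := by
  unfold ev
  rw [if_neg (by simp only [Prod.mk.injEq]; omega), if_pos rfl]

theorem ev_up (x y : ℤ) : ev a b (x, y) (x, y + 1) = a (x, y) := by
  unfold ev
  rw [if_neg (by simp only [Prod.mk.injEq]; omega), if_neg (by simp only [Prod.mk.injEq]; omega),
    if_pos rfl]

theorem ev_down (x y : ℤ) : ev a b (x, y) (x, y - 1) = a (x, y - 1) := by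
  unfold ev
  rw [if_neg (by simp only [Prod.mk.injEq]; omega), if_neg (by simp only [Prod.mk.injEq]; omega),
    if_neg (by simp only [Prod.mk.injEq]; omega), if_pos rfl]

/-- `ev` is symmetric -/
theorem ev_symm {p p' : Pt} (h : Adj p p') : ev a b p p' = ev a b p' p := by
  obtain ⟨x, y⟩ := p
  have h' := mem_nbrs.2 h
  simp only [nbrs, mem_insert, mem_singleton] at h'
  rcases h' with rfl | rfl | rfl | rfl
  · rw [ev_right]
    have := ev_left (a := a) (b := b) (x + 1) y
    rw [add_sub_cancel_right] at this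
    exact this.symm
  · rw [ev_left]
    have := ev_right (a := a) (b := b) (x - 1) y
    rw [sub_add_cancel] at this
    exact this.symm
  · rw [ev_up]
    have := ev_down (a := a) (b := b) x (y + 1)
    rw [add_sub_cancel_right] at this
    exact this.symm
  · rw [ev_down]
    have := ev_up (a := a) (b := b) x (y - 1)
    rw [sub_add_cancel] at this
    exact this.symm

/-- the four parities round a vertex -/
theorem round (h : EvenSet a b) (x y : ℤ) :
    par a (x, y) = par a (x - 1, y) + a (x, y) ∧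
    par a (x - 1, y) = par a (x - 1, y - 1) + b (x - 1, y) ∧
    par a (x, y - 1) = par a (x - 1, y - 1) + a (x, y - 1) ∧
    par a (x, y) = par a (x, y - 1) + b (x, y) :=
  ⟨par_right h x y, par_up h (x - 1) y, par_right h x (y - 1), par_up h x y⟩

theorem zz (x : ZMod 2) : x = 0 ∨ x = 1 := by revert x; decide

/-- across an edge which is not in the set the parity does not change -/
theorem par_edge (h : EvenSet a b) {p p' : Pt} (hp : Adj p p') (h0 : ev a b p p' = 0) {f f' : Pt}
    (hf : f ∈ facesAt p) (hf' : f ∈ facesAt p') (hg : f' ∈ facesAt p) (hg' : f' ∈ facesAt p') :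
    par a f = par a f' := by
  obtain ⟨x, y⟩ := p
  obtain ⟨r1, r2, r3, r4⟩ := round h x y
  have h' := mem_nbrs.2 hp
  simp only [nbrs, mem_insert, mem_singleton] at h'
  obtain ⟨f1, f2⟩ := f
  obtain ⟨g1, g2⟩ := f'
  rcases h' with rfl | rfl | rfl | rfl
  · rw [ev_right] at h0
    rw [h0, add_zero] at r4
    simp only [facesAt, mem_insert, mem_singleton, Prod.mk.injEq] at hf hf' hg hg'
    have hf1 : f1 = x ∧ (f2 = y ∨ f2 = y - 1) := by omega
    have hg1 : g1 = x ∧ (g2 = y ∨ g2 = y - 1) := by omega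
    obtain ⟨rfl, rfl | rfl⟩ := hf1 <;> obtain ⟨rfl, rfl | rfl⟩ := hg1 <;> first | rfl | exact r4 |
      exact r4.symm
  · rw [ev_left] at h0
    rw [h0, add_zero] at r2
    simp only [facesAt, mem_insert, mem_singleton, Prod.mk.injEq] at hf hf' hg hg'
    have hf1 : f1 = x - 1 ∧ (f2 = y ∨ f2 = y - 1) := by omega
    have hg1 : g1 = x - 1 ∧ (g2 = y ∨ g2 = y - 1) := by omega
    obtain ⟨rfl, rfl | rfl⟩ := hf1 <;> obtain ⟨rfl, rfl | rfl⟩ := hg1 <;> first | rfl | exact r2 |
      exact r2.symm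
  · rw [ev_up] at h0
    rw [h0, add_zero] at r1
    simp only [facesAt, mem_insert, mem_singleton, Prod.mk.injEq] at hf hf' hg hg'
    have hf1 : f2 = y ∧ (f1 = x ∨ f1 = x - 1) := by omega
    have hg1 : g2 = y ∧ (g1 = x ∨ g1 = x - 1) := by omega
    obtain ⟨rfl, rfl | rfl⟩ := hf1 <;> obtain ⟨rfl, rfl | rfl⟩ := hg1 <;> first | rfl | exact r1 |
      exact r1.symm
  · rw [ev_down] at h0
    rw [h0, add_zero] at r3
    simp only [facesAt, mem_insert, mem_singleton, Prod.mk.injEq] at hf hf' hg hg'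
    have hf1 : f2 = y - 1 ∧ (f1 = x ∨ f1 = x - 1) := by omega
    have hg1 : g2 = y - 1 ∧ (g1 = x ∨ g1 = x - 1) := by omega
    obtain ⟨rfl, rfl | rfl⟩ := hf1 <;> obtain ⟨rfl, rfl | rfl⟩ := hg1 <;> first | rfl | exact r3 |
      exact r3.symm

/-- round a vertex without edges of the set the parity is constant -/
theorem par_vertex (h : EvenSet a b) {p : Pt} (h0 : ∀ n, Adj p n → ev a b p n = 0) {f f' : Pt}
    (hf : f ∈ facesAt p) (hf' : f' ∈ facesAt p) : par a f = par a f' := by
  obtain ⟨x, y⟩ := p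
  have k1 := h0 (x + 1, y) (by simp [Adj])
  have k2 := h0 (x - 1, y) (by simp [Adj])
  have k3 := h0 (x, y + 1) (by simp [Adj])
  have k4 := h0 (x, y - 1) (by simp [Adj])
  rw [ev_right] at k1
  rw [ev_left] at k2
  rw [ev_up] at k3
  rw [ev_down] at k4
  exact par_around h (q := (x, y)) k3 k4 k1 k2 hf hf'

theorem even_add (h : EvenSet a b) (h' : EvenSet c d) :
    EvenSet (fun v => a v + c v) (fun v => b v + d v) where
  bd := by
    obtain ⟨M, hM⟩ := h.bd
    obtain ⟨M', hM'⟩ := h'.bd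
    refine ⟨min M M', fun v hv => ?_⟩
    have h1 := hM v (lt_of_lt_of_le hv (min_le_left _ _))
    have h2 := hM' v (lt_of_lt_of_le hv (min_le_right _ _))
    constructor
    · rw [h1.1, h2.1, add_zero]
    · rw [h1.2, h2.2, add_zero]
  even := by
    intro v
    have h1 := h.even v
    have h2 := h'.even v
    have : a v + c v + (a (v.1, v.2 - 1) + c (v.1, v.2 - 1)) + (b v + d v) +
        (b (v.1 - 1, v.2) + d (v.1 - 1, v.2)) =
        (a v + a (v.1, v.2 - 1) + b v + b (v.1 - 1, v.2)) +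
        (c v + c (v.1, v.2 - 1) + d v + d (v.1 - 1, v.2)) := by ring
    rw [this, h1, h2, add_zero]

theorem ev_add (p p' : Pt) :
    ev (fun v => a v + c v) (fun v => b v + d v) p p' = ev a b p p' + ev c d p p' := by
  unfold ev
  split_ifs <;> simp

theorem par_add (h : EvenSet a b) (h' : EvenSet c d) (f : Pt) :
    par (fun v => a v + c v) f = par a f + par c f := by
  obtain ⟨M, hM⟩ := h.bd
  obtain ⟨M', hM'⟩ := h'.bd
  have e1 : ∀ v : Pt, v.1 < min M M' → a v = 0 :=
    fun v hv => (hM v (lt_of_lt_of_le hv (min_le_left _ _))).1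
  have e2 : ∀ v : Pt, v.1 < min M M' → c v = 0 :=
    fun v hv => (hM' v (lt_of_lt_of_le hv (min_le_right _ _))).1
  have e3 : ∀ v : Pt, v.1 < min M M' → (fun v => a v + c v) v = 0 := fun v hv => by
    simp only
    rw [e1 v hv, e2 v hv, add_zero]
  rw [par_eq e1, par_eq e2, par_eq e3, ← Finset.sum_add_distrib]

/-- the support of the edge set lies in a box (both ends of every edge) -/
structure InBox (z : Pt) (r : ℕ) (a b : Pt → ZMod 2) : Prop where
  ver : ∀ v, a v ≠ 0 → v ∈ box z r ∧ (v.1, v.2 + 1) ∈ box z r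
  hor : ∀ v, b v ≠ 0 → v ∈ box z r ∧ (v.1 + 1, v.2) ∈ box z r

theorem mem_box {z p : Pt} {r : ℕ} :
    p ∈ box z r ↔ (z.1 - r ≤ p.1 ∧ p.1 ≤ z.1 + r) ∧ z.2 - r ≤ p.2 ∧ p.2 ≤ z.2 + r := by
  simp [box]

/-- the parity is zero round a vertex off the box -/
theorem par_out (h : EvenSet a b) {z : Pt} {r : ℕ} (hb : InBox z r a b) {p f : Pt}
    (hp : p ∉ box z r) (hf : f ∈ facesAt p) : par a f = 0 := by
  obtain ⟨x, y⟩ := f
  obtain ⟨p1, p2⟩ := p
  simp only [facesAt, mem_insert, mem_singleton, Prod.mk.injEq] at hf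
  rw [mem_box] at hp
  simp only at hp
  have ha : ∀ j i : ℤ, ¬ ((z.1 - r ≤ j ∧ j ≤ z.1 + r) ∧ z.2 - r ≤ i ∧ i + 1 ≤ z.2 + r) →
      a (j, i) = 0 := by
    intro j i hn
    by_contra h0
    obtain ⟨h1, h2⟩ := hb.ver _ h0
    rw [mem_box] at h1 h2
    simp only at h1 h2
    omega
  have hbb : ∀ j i : ℤ, ¬ ((z.1 - r ≤ j ∧ j + 1 ≤ z.1 + r) ∧ z.2 - r ≤ i ∧ i ≤ z.2 + r) →
      b (j, i) = 0 := by
    intro j i hn
    by_contra h0
    obtain ⟨h1, h2⟩ := hb.hor _ h0
    rw [mem_box] at h1 h2
    simp only at h1 h2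
    omega
  by_cases c1 : y < z.2 - r ∨ z.2 + r ≤ y
  · exact par_zero_row (fun j => ha j y (by omega)) x
  · by_cases c2 : x < z.1 - r
    · exact par_zero_left (fun j hj => ha j y (by omega))
    · have c3 : z.1 + r ≤ x := by omega
      -- go down
      have key : ∀ n : ℕ, par a (x, y) = par a (x, y - n) := by
        intro n
        induction n with
        | zero => simp
        | succ n ih =>
          rw [ih, par_up h x (y - n), hbb x (y - n) (by omega), add_zero]
          push_cast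
          rw [sub_sub]
      rw [key (y - z.2 + r + 1).toNat]
      refine par_zero_row (fun j => ha j _ ?_) x
      omega

end Vale.Agent.P155.NT34
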