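import Vale.Agent.P155.NT276.Far
import Vale.Agent.P155.H904.PT2

/-!
# P155, NT: the far part of the layer function is small at mesoscopic scales
-/

namespace Vale.Agent.P155.NT34

open Finset Vale.Agent.P155 Vale.Agent.P155.G45 Vale.Agent.P155.J Vale.Agent.P155.H12

/-- the pairing of a bump next to the boundary with a bounded potential at a larger scale -/
theorem pair_v4 : ∃ γ : ℝ, 0 < γ ∧ ∃ D : ℝ, 0 < D ∧ ∀ (O : Set Pt) (hO : O.Finite), CPr O →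
    ∀ (p q : Pt) (κ ρ : ℕ) (B : ℝ) (φ v4 : Pt → ℝ), p ∉ O → 1 ≤ κ → κ ≤ ρ → 0 ≤ B →
    (∀ x, 0 ≤ φ x) → (∀ x, φ x ≤ B / (κ : ℝ) ^ 2) → (∀ x, φ x ≠ 0 → dn p x ≤ κ) →
    IsGreen O (fun y => if dn q y ≤ 4 * ρ then ((ρ : ℝ) ^ 2)⁻¹ else 0) v4 →
    ∑ y ∈ hO.toFinset, φ y * v4 y ≤ D * B * ((κ : ℝ) / ρ) ^ γ := by
  classical
  obtain ⟨β, hβ, hSD, hOut⟩ := G1.decay
  set γ := min β 1 with hγ
  have hγ0 : 0 < γ := lt_min hβ one_pos
  have hγ1 : γ ≤ 1 := min_le_right _ _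
  obtain ⟨D, hD, hpot⟩ := H904.bump_pot hβ (by norm_num) hSD hOut hγ0 (min_le_left _ _)
  refine ⟨γ / 2, by positivity, 1000 * D, by positivity, ?_⟩
  intro O hO hCP p q κ ρ B φ v4 hp hκ hκρ hB h0 h1 h2 hv4
  have hκ1 : (1 : ℝ) ≤ κ := by exact_mod_cast hκ
  have hκ0 : (0 : ℝ) < κ := by linarith
  have hκρ' : (κ : ℝ) ≤ ρ := by exact_mod_cast hκρ
  have hρ0 : (0 : ℝ) < ρ := by linarith
  have hρ1 : (1 : ℝ) ≤ ρ := by linarith
  obtain ⟨u, hu⟩ := exists_green hO φ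
  have hu0 := green_nonneg hO hu (fun y _ => h0 y)
  have hub := hpot O hO hCP p κ B φ u hp hκ hB h0 h1 h2 hu
  rw [green_symm' hO hu hv4]
  obtain ⟨m, hm⟩ : ∃ m : ℕ, m = Nat.sqrt (κ * ρ) := ⟨_, rfl⟩
  have hm1 : m * m ≤ κ * ρ := hm ▸ Nat.sqrt_le (κ * ρ)
  have hm2 : κ * ρ < (m + 1) * (m + 1) := hm ▸ Nat.lt_succ_sqrt (κ * ρ)
  have hm1' : (m : ℝ) * m ≤ κ * ρ := by exact_mod_cast hm1
  have hm2' : (κ : ℝ) * ρ ≤ ((m : ℝ) + 1) * (m + 1) := by exact_mod_cast hm2.le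
  have hm0 : 1 ≤ m := by
    by_contra hc
    have : m = 0 := by omega
    subst this
    have : 1 ≤ κ * ρ := Nat.one_le_iff_ne_zero.2 (by
      have : 1 ≤ ρ := by omega
      positivity)
    omega
  have hm0' : (1 : ℝ) ≤ m := by exact_mod_cast hm0
  have hr0 : (0 : ℝ) < (κ : ℝ) / ρ := by positivity
  have hr1 : (κ : ℝ) / ρ ≤ 1 := by rw [div_le_one hρ0]; exact hκρ'
  have hrγ : (κ : ℝ) / ρ ≤ ((κ : ℝ) / ρ) ^ (γ / 2) := by
    calc (κ : ℝ) / ρ = ((κ : ℝ) / ρ) ^ (1 : ℝ) := (Real.rpow_one _).symm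
      _ ≤ ((κ : ℝ) / ρ) ^ (γ / 2) :=
        Real.rpow_le_rpow_of_exponent_ge hr0 hr1 (by linarith)
  have hfar : ∀ z, m < dn p z → u z ≤ D * B * (4 * ((κ : ℝ) / ρ) ^ (γ / 2)) := by
    intro z hz
    refine (hub z).2.trans ?_
    apply mul_le_mul_of_nonneg_left _ (by positivity)
    have hz' : (m : ℝ) + 1 ≤ (dn p z : ℝ) + 1 := by
      have : m ≤ dn p z := hz.le
      have : (m : ℝ) ≤ dn p z := by exact_mod_cast this
      linarith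
    have e1 : ((κ : ℝ) + 1) / ((dn p z : ℝ) + 1) ≤ 2 * κ / (m + 1) := by
      apply div_le_div₀ (by positivity) (by linarith) (by positivity) hz'
    have e2 : (2 * (κ : ℝ) / (m + 1)) ^ 2 ≤ 4 * ((κ : ℝ) / ρ) := by
      rw [div_pow, ← mul_div_assoc, div_le_div_iff₀ (by positivity) hρ0]
      nlinarith [mul_le_mul_of_nonneg_left hm2' (by positivity : (0 : ℝ) ≤ 4 * κ)]
    calc (((κ : ℝ) + 1) / ((dn p z : ℝ) + 1)) ^ γ ≤ (2 * κ / ((m : ℝ) + 1)) ^ γ :=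
          Real.rpow_le_rpow (by positivity) e1 hγ0.le
      _ = ((2 * κ / ((m : ℝ) + 1)) ^ 2) ^ (γ / 2) := by
          rw [← Real.rpow_natCast, ← Real.rpow_mul (by positivity)]
          congr 1
          push_cast
          ring
      _ ≤ (4 * ((κ : ℝ) / ρ)) ^ (γ / 2) := Real.rpow_le_rpow (by positivity) e2 (by positivity)
      _ = 4 ^ (γ / 2) * ((κ : ℝ) / ρ) ^ (γ / 2) := Real.mul_rpow (by norm_num) hr0.le
      _ ≤ 4 * ((κ : ℝ) / ρ) ^ (γ / 2) := by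
          apply mul_le_mul_of_nonneg_right _ (by positivity)
          calc (4 : ℝ) ^ (γ / 2) ≤ 4 ^ (1 : ℝ) :=
                Real.rpow_le_rpow_of_exponent_le (by norm_num) (by linarith)
            _ = 4 := Real.rpow_one _
  have hterm : ∀ z ∈ hO.toFinset, u z * (if dn q z ≤ 4 * ρ then ((ρ : ℝ) ^ 2)⁻¹ else 0) ≤
      (if dn p z ≤ m then D * B * ((ρ : ℝ) ^ 2)⁻¹ else 0) +
      (if dn q z ≤ 4 * ρ then D * B * (4 * ((κ : ℝ) / ρ) ^ (γ / 2)) * ((ρ : ℝ) ^ 2)⁻¹ else 0) := by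
    intro z _
    by_cases hq : dn q z ≤ 4 * ρ
    · rw [if_pos hq, if_pos hq]
      by_cases hz : dn p z ≤ m
      · rw [if_pos hz]
        have := mul_le_mul_of_nonneg_right (hub z).1 (by positivity : (0 : ℝ) ≤ ((ρ : ℝ) ^ 2)⁻¹)
        have h5 : 0 ≤ D * B * (4 * ((κ : ℝ) / ρ) ^ (γ / 2)) * ((ρ : ℝ) ^ 2)⁻¹ := by positivity
        linarith
      · rw [if_neg hz, zero_add]
        exact mul_le_mul_of_nonneg_right (hfar z (by omega)) (by positivity)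
    · rw [if_neg hq, mul_zero, if_neg hq, add_zero]
      split_ifs
      · positivity
      · exact le_rfl
  refine (Finset.sum_le_sum hterm).trans ?_
  rw [Finset.sum_add_distrib]
  have hc1 : ∑ z ∈ hO.toFinset, (if dn p z ≤ m then D * B * ((ρ : ℝ) ^ 2)⁻¹ else 0) ≤
      9 * D * B * ((κ : ℝ) / ρ) ^ (γ / 2) := by
    calc ∑ z ∈ hO.toFinset, (if dn p z ≤ m then D * B * ((ρ : ℝ) ^ 2)⁻¹ else 0)
        ≤ ∑ _z ∈ box p m, D * B * ((ρ : ℝ) ^ 2)⁻¹ := by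
          rw [← Finset.sum_filter]
          apply Finset.sum_le_sum_of_subset_of_nonneg
          · intro z hz
            exact G45.mem_box.2 (Finset.mem_filter.1 hz).2
          · intro _ _ _
            positivity
      _ = (2 * (m : ℝ) + 1) ^ 2 * (D * B * ((ρ : ℝ) ^ 2)⁻¹) := by
          rw [Finset.sum_const, card_box, nsmul_eq_mul]
          push_cast
          ring
      _ ≤ (9 * ((κ : ℝ) * ρ)) * (D * B * ((ρ : ℝ) ^ 2)⁻¹) := by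
          apply mul_le_mul_of_nonneg_right _ (by positivity)
          nlinarith
      _ = 9 * D * B * ((κ : ℝ) / ρ) := by
          field_simp
      _ ≤ _ := mul_le_mul_of_nonneg_left hrγ (by positivity)
  have hc2 : ∑ z ∈ hO.toFinset, (if dn q z ≤ 4 * ρ then
      D * B * (4 * ((κ : ℝ) / ρ) ^ (γ / 2)) * ((ρ : ℝ) ^ 2)⁻¹ else 0) ≤
      81 * (D * B * (4 * ((κ : ℝ) / ρ) ^ (γ / 2))) := by
    calc ∑ z ∈ hO.toFinset, (if dn q z ≤ 4 * ρ then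
        D * B * (4 * ((κ : ℝ) / ρ) ^ (γ / 2)) * ((ρ : ℝ) ^ 2)⁻¹ else 0)
        ≤ ∑ _z ∈ box q (4 * ρ), D * B * (4 * ((κ : ℝ) / ρ) ^ (γ / 2)) * ((ρ : ℝ) ^ 2)⁻¹ := by
          rw [← Finset.sum_filter]
          apply Finset.sum_le_sum_of_subset_of_nonneg
          · intro z hz
            exact G45.mem_box.2 (Finset.mem_filter.1 hz).2
          · intro _ _ _
            positivity
      _ = (2 * (4 * (ρ : ℝ)) + 1) ^ 2 *
          (D * B * (4 * ((κ : ℝ) / ρ) ^ (γ / 2)) * ((ρ : ℝ) ^ 2)⁻¹) := by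
          rw [Finset.sum_const, card_box, nsmul_eq_mul]
          push_cast
          ring
      _ ≤ (81 * (ρ : ℝ) ^ 2) * (D * B * (4 * ((κ : ℝ) / ρ) ^ (γ / 2)) * ((ρ : ℝ) ^ 2)⁻¹) := by
          apply mul_le_mul_of_nonneg_right _ (by positivity)
          nlinarith
      _ = _ := by field_simp
  have h5 : 0 ≤ D * B * ((κ : ℝ) / ρ) ^ (γ / 2) := by positivity
  calc _ ≤ 9 * D * B * ((κ : ℝ) / ρ) ^ (γ / 2) +
        81 * (D * B * (4 * ((κ : ℝ) / ρ) ^ (γ / 2))) := add_le_add hc1 hc2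
    _ = 333 * (D * B * ((κ : ℝ) / ρ) ^ (γ / 2)) := by ring
    _ ≤ 1000 * (D * B * ((κ : ℝ) / ρ) ^ (γ / 2)) := by linarith
    _ = _ := by ring

open Classical in
/-- **the far part of the layer function of a bump at scale `κ` next to the boundary**, outside a
box of size `4 ρ`, is at most `C (κ / ρ) ^ γ`. -/
theorem far_small : ∃ γ : ℝ, 0 < γ ∧ ∃ C : ℝ, 0 < C ∧ ∀ (O : Set Pt) (_hO : O.Finite), CPr O →
    ∀ (p q : Pt) (κ s ρ : ℕ) (B Cc : ℝ) (χ φ u : Pt → ℝ), p ∉ O → 1 ≤ κ → κ ≤ ρ → 1 ≤ s → s ≤ ρ →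
    0 ≤ B → (∀ x, 0 ≤ φ x) → (∀ x, φ x ≤ B / (κ : ℝ) ^ 2) → (∀ x, φ x ≠ 0 → dn p x ≤ κ) →
    IsCut O s Cc χ → IsGreen O φ u → (∀ y, 2 * ρ < dn q y → φ y = 0) →
    ∀ S : Finset Pt, (∀ x ∈ S, 4 * ρ ≤ dn q x) →
      ∑ x ∈ S, |fL O φ χ u x| ≤ C * (Cc + 1) * B * ((κ : ℝ) / ρ) ^ γ := by
  obtain ⟨γ, hγ, D, hD, h1⟩ := pair_v4
  obtain ⟨C, hC, h2⟩ := NT276.far_le
  refine ⟨γ, hγ, C * D, by positivity, ?_⟩
  intro O hO hCP p q κ s ρ B Cc χ φ u hp hκ hκρ hs hsρ hB h0 hb hsup hχ hu hφ S hS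
  obtain ⟨v4, hv4⟩ := exists_green hO
    (fun y => if dn q y ≤ 4 * ρ then ((ρ : ℝ) ^ 2)⁻¹ else 0)
  have hCc := cut_C0_nonneg hχ
  have h3 := h2 O hO hCP s ρ Cc 0 χ φ u φ (fun _ => 0) v4 q hs hsρ le_rfl hχ hu hφ h0 hφ
    (fun _ => le_rfl) (fun _ => by positivity) (fun _ _ => rfl)
    (fun v hv _ _ => by
      rw [abs_of_nonneg (Finset.sum_nonneg fun y _ => mul_nonneg (h0 y) (hv y))]
      refine Finset.sum_le_sum fun y _ => ?_
      rw [add_zero]) hv4 S hS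
  refine h3.trans ?_
  have h4 := h1 O hO hCP p q κ ρ B φ v4 hp hκ hκρ hB h0 hb hsup hv4
  rw [add_zero]
  calc C * (Cc + 1) * ∑ y ∈ hO.toFinset, φ y * v4 y ≤
        C * (Cc + 1) * (D * B * ((κ : ℝ) / ρ) ^ γ) := by gcongr
    _ = _ := by ring

end Vale.Agent.P155.NT34
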