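import Vale.Agent.P155.NT34.Lasso
import Vale.Agent.P155.NT802.Sep

/-!
# P155, NT: the lasso lemma for the loops (hypothesis `hlasso` of `NT802.sep_next`)
-/

namespace Vale.Agent.P155.NT34

open Finset Vale.Agent.P155.T802 NT802

/-- vertex steps inside the corners of the faces of `S` -/
def VS (S : Set Pt) (u v : Pt) : Prop := Adj u v ∧ ∃ h ∈ S, v ∈ corners h

theorem corners_conn {S : Set Pt} {f : Pt} (hf : f ∈ S) {x x' : Pt} (hx : x ∈ corners f)
    (hx' : x' ∈ corners f) : Relation.ReflTransGen (VS S) x x' := by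
  obtain ⟨a, b⟩ := f
  have m1 : ((a, b) : Pt) ∈ corners (a, b) := by simp [corners]
  have m2 : ((a + 1, b) : Pt) ∈ corners (a, b) := by simp [corners]
  have m3 : ((a, b + 1) : Pt) ∈ corners (a, b) := by simp [corners]
  have m4 : ((a + 1, b + 1) : Pt) ∈ corners (a, b) := by simp [corners]
  have s12 : VS S (a, b) (a + 1, b) := ⟨by simp [Adj], _, hf, m2⟩
  have s21 : VS S (a + 1, b) (a, b) := ⟨by simp [Adj], _, hf, m1⟩
  have s13 : VS S (a, b) (a, b + 1) := ⟨by simp [Adj], _, hf, m3⟩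
  have s31 : VS S (a, b + 1) (a, b) := ⟨by simp [Adj], _, hf, m1⟩
  have s24 : VS S (a + 1, b) (a + 1, b + 1) := ⟨by simp [Adj], _, hf, m4⟩
  have s42 : VS S (a + 1, b + 1) (a + 1, b) := ⟨by simp [Adj], _, hf, m2⟩
  have t1 : Relation.ReflTransGen (VS S) x (a, b) := by
    simp only [corners, mem_insert, mem_singleton] at hx
    rcases hx with rfl | rfl | rfl | rfl
    · exact Relation.ReflTransGen.refl
    · exact Relation.ReflTransGen.single s21
    · exact Relation.ReflTransGen.single s31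
    · exact (Relation.ReflTransGen.single s42).tail s21
  have t2 : Relation.ReflTransGen (VS S) (a, b) x' := by
    simp only [corners, mem_insert, mem_singleton] at hx'
    rcases hx' with rfl | rfl | rfl | rfl
    · exact Relation.ReflTransGen.refl
    · exact Relation.ReflTransGen.single s12
    · exact Relation.ReflTransGen.single s13
    · exact (Relation.ReflTransGen.single s12).tail s24
  exact t1.trans t2

theorem common_corner {f g : Pt} (h : Adj f g) : ∃ y, y ∈ corners f ∧ y ∈ corners g := by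
  obtain ⟨x, y⟩ := f
  have h' := mem_nbrs.2 h
  simp only [nbrs, mem_insert, mem_singleton] at h'
  rcases h' with rfl | rfl | rfl | rfl
  · exact ⟨(x + 1, y), by simp [corners], by simp [corners]⟩
  · exact ⟨(x, y), by simp [corners], by simp [corners]⟩
  · exact ⟨(x, y + 1), by simp [corners], by simp [corners]⟩
  · exact ⟨(x, y), by simp [corners], by simp [corners]⟩

theorem conn_vertex {S : Set Pt} {f f' : Pt} (h : Conn S f f') {x x' : Pt} (hx : x ∈ corners f)
    (hx' : x' ∈ corners f') : Relation.ReflTransGen (VS S) x x' := by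
  obtain ⟨h1, h2⟩ := h
  induction h2 generalizing x' with
  | refl => exact corners_conn h1 hx hx'
  | tail h3 h4 ih =>
    obtain ⟨y, hy, hy'⟩ := common_corner h4.1
    exact (ih hy).trans (corners_conn h4.2 hy' hx')

/-- a chain as a walk -/
theorem walk_of_chain {S : Set Pt} {x x' : Pt} (h : Relation.ReflTransGen (VS S) x x')
    (hx : ∃ f ∈ S, x ∈ corners f) :
    ∃ (n : ℕ) (w : ℕ → Pt), w 0 = x ∧ w n = x' ∧ IsWalk w n ∧ ∀ i ≤ n, ∃ f ∈ S, w i ∈ corners f := by
  induction h with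
  | refl => exact ⟨0, fun _ => x, rfl, rfl, fun i hi => absurd hi (Nat.not_lt_zero i), fun _ _ => hx⟩
  | @tail b c _ hbc ih =>
    obtain ⟨n, w, h0, hn, hw, hS⟩ := ih
    refine ⟨n + 1, fun i => if i ≤ n then w i else c, ?_, ?_, ?_, ?_⟩
    · simp [h0]
    · simp
    · intro i hi
      show Adj (if i ≤ n then w i else c) (if i + 1 ≤ n then w (i + 1) else c)
      rw [if_pos (by omega : i ≤ n)]
      by_cases e : i + 1 ≤ n
      · rw [if_pos e]
        exact hw i (by omega)
      · rw [if_neg e, show i = n by omega, hn]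
        exact hbc.1
    · intro i hi
      show ∃ f ∈ S, (if i ≤ n then w i else c) ∈ corners f
      by_cases e : i ≤ n
      · rw [if_pos e]
        exact hS i e
      · rw [if_neg e]
        exact hbc.2

/-- the first gap edge -/
theorem first_edge {f a y : Pt} (h : Adj f a) (hy : y ∈ corners a) (hyf : y ∉ corners f) :
    ∃ x, x ∈ corners f ∧ x ∈ corners a ∧ Adj y x := by
  obtain ⟨p, q⟩ := f
  obtain ⟨s, t⟩ := y
  have h' := mem_nbrs.2 h
  simp only [nbrs, mem_insert, mem_singleton] at h'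
  rcases h' with rfl | rfl | rfl | rfl <;>
    simp only [corners, mem_insert, mem_singleton, Prod.mk.injEq, not_or] at hy hyf
  · refine ⟨(p + 1, t), ?_, ?_, ?_⟩
    · simp [corners]; omega
    · simp [corners]; omega
    · have : s = p + 2 := by omega
      subst this
      simp only [Adj]
      rw [show p + 2 - (p + 1) = 1 by ring]; simp
  · refine ⟨(p, t), ?_, ?_, ?_⟩
    · simp [corners]; omega
    · simp [corners]; omega
    · have : s = p - 1 := by omega
      subst this
      simp only [Adj]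
      rw [show p - 1 - p = -1 by ring]; simp
  · refine ⟨(s, q + 1), ?_, ?_, ?_⟩
    · simp [corners]; omega
    · simp [corners]; omega
    · have : t = q + 2 := by omega
      subst this
      simp only [Adj]
      rw [show q + 2 - (q + 1) = 1 by ring]; simp
  · refine ⟨(s, q), ?_, ?_, ?_⟩
    · simp [corners]; omega
    · simp [corners]; omega
    · have : t = q - 1 := by omega
      subst this
      simp only [Adj]
      rw [show q - 1 - q = -1 by ring]; simp

open Classical in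
/-- the loop as an even edge set, seen from one of its vertices -/
theorem ev_loop {V : Finset Pt} {ω : Conf} (hω : ω ∈ DD V) {A : Set Pt} (hA : A ∈ Loops ω)
    {p : Pt} (hp : p ∈ A) {n : Pt} (hn : Adj p n) :
    ev (eA ω A) (eB ω A) p n = if n = ω.1 p ∨ n = ω.2 p then 1 else 0 := by
  have hne := L.loop_ne hω hA hp
  have key : ∀ P Q : Prop, (P ↔ ω.1 p = n) → (Q ↔ ω.2 p = n) →
      ind P + ind Q = if n = ω.1 p ∨ n = ω.2 p then 1 else 0 := by
    intro P Q hP hQ
    by_cases c1 : ω.1 p = n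
    · have c2 : ω.2 p ≠ n := fun h => hne (c1.trans h.symm)
      rw [ind_true (hP.2 c1), ind_false (fun h => c2 (hQ.1 h)), if_pos (Or.inl c1.symm), add_zero]
    · by_cases c2 : ω.2 p = n
      · rw [ind_false (fun h => c1 (hP.1 h)), ind_true (hQ.2 c2), if_pos (Or.inr c2.symm), zero_add]
      · rw [ind_false (fun h => c1 (hP.1 h)), ind_false (fun h => c2 (hQ.1 h)),
          if_neg (fun h => h.elim (fun h => c1 h.symm) (fun h => c2 h.symm)), add_zero]
  have i1 : ∀ u : Pt, ω.1 u = p ↔ ω.1 p = u :=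
    fun u => ⟨fun h => by rw [← h, L.inv1 hω], fun h => by rw [← h, L.inv1 hω]⟩
  have i2 : ∀ u : Pt, ω.2 u = p ↔ ω.2 p = u :=
    fun u => ⟨fun h => by rw [← h, L.inv2 hω], fun h => by rw [← h, L.inv2 hω]⟩
  obtain ⟨x, y⟩ := p
  have h' := mem_nbrs.2 hn
  simp only [nbrs, mem_insert, mem_singleton] at h'
  rcases h' with rfl | rfl | rfl | rfl
  · rw [ev_right]
    unfold eB
    exact key _ _ ⟨fun h => h.2, fun h => ⟨Or.inl hp, h⟩⟩ ⟨fun h => h.2, fun h => ⟨Or.inl hp, h⟩⟩
  · rw [ev_left]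
    unfold eB
    simp only [sub_add_cancel]
    refine key _ _ ⟨fun h => (i1 _).1 h.2, fun h => ⟨Or.inr hp, (i1 _).2 h⟩⟩
      ⟨fun h => (i2 _).1 h.2, fun h => ⟨Or.inr hp, (i2 _).2 h⟩⟩
  · rw [ev_up]
    unfold eA
    exact key _ _ ⟨fun h => h.2, fun h => ⟨Or.inl hp, h⟩⟩ ⟨fun h => h.2, fun h => ⟨Or.inl hp, h⟩⟩
  · rw [ev_down]
    unfold eA
    simp only [sub_add_cancel]
    refine key _ _ ⟨fun h => (i1 _).1 h.2, fun h => ⟨Or.inr hp, (i1 _).2 h⟩⟩
      ⟨fun h => (i2 _).1 h.2, fun h => ⟨Or.inr hp, (i2 _).2 h⟩⟩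

/-- a piece `g α, …, g β` of the loop `A` (consecutive partners) -/
structure Piece (ω : Conf) (A : Set Pt) (g : ℕ → Pt) (α β : ℕ) : Prop where
  adj : ∀ i, α ≤ i → i < β → Adj (g i) (g (i + 1))
  inj : ∀ i j, α ≤ i → i ≤ β → α ≤ j → j ≤ β → g i = g j → i = j
  mem : ∀ i, α < i → i < β → g i ∈ A
  part : ∀ i, α < i → i < β → (ω.1 (g i) = g (i - 1) ∧ ω.2 (g i) = g (i + 1)) ∨
    (ω.1 (g i) = g (i + 1) ∧ ω.2 (g i) = g (i - 1))

/-- **the lasso lemma for a piece of a loop** with ends off `box q R`: a free path of faces in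
`box q r2` which joins two faces at the piece joins the same side. -/
theorem lasso_piece {V : Finset Pt} {ω : Conf} (hω : ω ∈ DD V) {A : Set Pt} (hA : A ∈ Loops ω)
    {g : ℕ → Pt} {α β : ℕ} (hg : Piece ω A g α β) {q : Pt} {R : ℕ} (ho : g α ∉ box q R)
    (ho' : g β ∉ box q R) {S : Set Pt} (hS : ∀ f ∈ S, ∀ x ∈ corners f,
      x ∈ box q R ∧ ∀ i, α ≤ i → i ≤ β → x ≠ g i)
    {f f' : Pt} (hc : Conn S f f') {a a' : Pt} (ha : Adj f a) (ha' : Adj f' a') {u v : ℕ}
    (hu : α < u) (hv : α < v) (hu' : u < β) (hv' : v < β)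
    (hb : ∀ i, (u ≤ i ∧ i ≤ v) ∨ (v ≤ i ∧ i ≤ u) → g i ∈ box q R)
    (hua : g u ∈ corners a) (hva : g v ∈ corners a') : surr ω A a ↔ surr ω A a' := by
  classical
  have hfS : f ∈ S := hc.1
  have hfS' : f' ∈ S := hc.right
  have n1 : g u ∉ corners f := fun h => (hS f hfS _ h).2 u hu.le hu'.le rfl
  have n2 : g v ∉ corners f' := fun h => (hS f' hfS' _ h).2 v hv.le hv'.le rfl
  obtain ⟨x, hx1, hx2, hx3⟩ := first_edge ha hua n1
  obtain ⟨x', hx1', hx2', hx3'⟩ := first_edge ha' hva n2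
  obtain ⟨n, w, w0, wn, hw, hwS⟩ := walk_of_chain (conn_vertex hc hx1 hx1') ⟨f, hfS, hx1⟩
  -- the full gap
  obtain ⟨W, hW⟩ : ∃ W : ℕ → Pt, W = fun i => if i = 0 then g u else if i ≤ n + 1 then w (i - 1)
      else g v := ⟨_, rfl⟩
  have W0 : W 0 = g u := by rw [hW]; simp
  have Wi : ∀ i, 0 < i → i ≤ n + 1 → W i = w (i - 1) := by
    intro i h1 h2
    rw [hW]
    show (if i = 0 then g u else if i ≤ n + 1 then w (i - 1) else g v) = _
    rw [if_neg (by omega), if_pos h2]
  have Wn : W (n + 2) = g v := by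
    rw [hW]
    show (if n + 2 = 0 then g u else if n + 2 ≤ n + 1 then w (n + 2 - 1) else g v) = _
    rw [if_neg (by omega), if_neg (by omega)]
  have hWw : IsWalk W (n + 2) := by
    intro i hi
    rcases Nat.eq_zero_or_pos i with rfl | h0
    · rw [W0, Wi 1 one_pos (by omega), Nat.sub_self, w0]
      exact hx3
    · by_cases h1 : i ≤ n
      · rw [Wi i h0 (by omega), Wi (i + 1) (by omega) (by omega), Nat.add_sub_cancel]
        have := hw (i - 1) (by omega)
        rwa [Nat.sub_add_cancel h0] at this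
      · rw [Wi i h0 (by omega), show i + 1 = n + 2 by omega, Wn, show i - 1 = n by omega, wn]
        exact adjS hx3'
  have hWb : ∀ i ≤ n + 2, W i ∈ box q R := by
    intro i hi
    rcases Nat.eq_zero_or_pos i with rfl | h0
    · rw [W0]
      rcases le_total u v with h | h
      · exact hb u (Or.inl ⟨le_rfl, h⟩)
      · exact hb u (Or.inr ⟨h, le_rfl⟩)
    · by_cases h1 : i ≤ n + 1
      · rw [Wi i h0 h1]
        obtain ⟨h, hh, hh'⟩ := hwS (i - 1) (by omega)
        exact (hS h hh _ hh').1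
      · rw [show i = n + 2 by omega, Wn]
        rcases le_total u v with h | h
        · exact hb v (Or.inl ⟨h, le_rfl⟩)
        · exact hb v (Or.inr ⟨le_rfl, h⟩)
  have hWq : ∀ i, 0 < i → i < n + 2 → ∀ j, α ≤ j → j ≤ β → W i ≠ g j := by
    intro i h0 h1 j hj hj'
    rw [Wi i h0 (by omega)]
    obtain ⟨h, hh, hh'⟩ := hwS (i - 1) (by omega)
    exact (hS h hh _ hh').2 j hj hj'
  -- the path, shifted
  obtain ⟨Q, hQ⟩ : ∃ Q : ℕ → Pt, Q = fun i => g (α + i) := ⟨_, rfl⟩
  have Qe : ∀ i, α ≤ i → Q (i - α) = g i := by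
    intro i hi
    rw [hQ]
    show g (α + (i - α)) = g i
    congr 1; omega
  have hQw : IsWalk Q (β - α) := by
    intro i hi
    rw [hQ]
    exact hg.adj (α + i) (by omega) (by omega)
  have hQi : ∀ i ≤ β - α, ∀ j ≤ β - α, Q i = Q j → i = j := by
    intro i hi j hj h
    rw [hQ] at h
    have := hg.inj _ _ (by omega) (by omega) (by omega) (by omega) h
    omega
  have hQL : ∀ i, 0 < i → i < β - α → ∀ n', Adj (Q i) n' →
      ev (eA ω A) (eB ω A) (Q i) n' = if n' = Q (i - 1) ∨ n' = Q (i + 1) then 1 else 0 := by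
    intro i h1 h2 n' hn'
    rw [ev_loop hω hA (by rw [hQ]; exact hg.mem (α + i) (by omega) (by omega)) hn']
    have e1 : Q (i - 1) = g (α + i - 1) := by
      rw [hQ]; show g (α + (i - 1)) = _; congr 1; omega
    have e2 : Q (i + 1) = g (α + i + 1) := by rw [hQ]; rfl
    have e3 : Q i = g (α + i) := by rw [hQ]
    rw [e1, e2, e3]
    rcases hg.part (α + i) (by omega) (by omega) with ⟨k1, k2⟩ | ⟨k1, k2⟩
    · rw [k1, k2]
    · rw [k1, k2]
      by_cases c : n' = g (α + i + 1) ∨ n' = g (α + i - 1)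
      · rw [if_pos c, if_pos c.symm]
      · rw [if_neg c, if_neg (fun h => c h.symm)]
  have f1 : a ∈ facesAt (g u) := mem_facesAt.2 hua
  have f2 : a ∈ facesAt (W 1) := by
    rw [Wi 1 one_pos (by omega), Nat.sub_self, w0]
    exact mem_facesAt.2 hx2
  have f3 : a' ∈ facesAt (g v) := mem_facesAt.2 hva
  have f4 : a' ∈ facesAt (W (n + 2 - 1)) := by
    rw [show n + 2 - 1 = n + 1 by omega, Wi (n + 1) (by omega) le_rfl, Nat.add_sub_cancel, wn]
    exact mem_facesAt.2 hx2'
  have Qo : Q 0 ∉ box q R := by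
    have := Qe α le_rfl
    rw [Nat.sub_self] at this
    rwa [this]
  have Qo' : Q (β - α) ∉ box q R := by rw [Qe β (by omega)]; exact ho'
  have fin : par (eA ω A) a = par (eA ω A) a' := by
    rcases le_total u v with h | h
    · refine lasso_abs (loop_even hω hA) (q := Q) (m := β - α) (u := u - α) (v := v - α)
        (by omega) (by omega) (by omega) hQw hQi hQL (w := W) (k := n + 2) (by omega) hWw
        (by rw [W0, Qe u hu.le]) (by rw [Wn, Qe v hv.le]) ?_ (z := q) (r := R) ?_ hWb Qo Qo'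
        (by rw [Qe u hu.le]; exact f1) f2 (by rw [Qe v hv.le]; exact f3) f4
      · intro i h0 h1 j hj
        rw [hQ]
        exact hWq i h0 h1 (α + j) (by omega) (by omega)
      · intro i h1 h2
        rw [hQ]
        exact hb (α + i) (Or.inl ⟨by omega, by omega⟩)
    · -- reversed gap
      obtain ⟨W', hW'⟩ : ∃ W' : ℕ → Pt, W' = fun i => W (n + 2 - i) := ⟨_, rfl⟩
      have hWw' : IsWalk W' (n + 2) := by
        intro i hi
        rw [hW']
        have := hWw (n + 2 - (i + 1)) (by omega)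
        rw [show n + 2 - (i + 1) + 1 = n + 2 - i by omega] at this
        exact adjS this
      refine (lasso_abs (loop_even hω hA) (q := Q) (m := β - α) (u := v - α) (v := u - α)
        (by omega) (by omega) (by omega) hQw hQi hQL (w := W') (k := n + 2) (by omega) hWw'
        ?_ ?_ ?_ (z := q) (r := R) ?_ ?_ Qo Qo'
        (by rw [Qe v hv.le]; exact f3) ?_ (by rw [Qe u hu.le]; exact f1) ?_).symm
      · rw [Qe v hv.le, hW']; exact Wn
      · rw [Qe u hu.le, hW']
        show W (n + 2 - (n + 2)) = g u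
        rw [Nat.sub_self, W0]
      · intro i h0 h1 j hj
        rw [hQ, hW']
        exact hWq (n + 2 - i) (by omega) (by omega) (α + j) (by omega) (by omega)
      · intro i h1 h2
        rw [hQ]
        exact hb (α + i) (Or.inr ⟨by omega, by omega⟩)
      · intro i hi
        rw [hW']
        exact hWb (n + 2 - i) (by omega)
      · rw [hW']; exact f4
      · rw [hW']
        show a ∈ facesAt (W (n + 2 - (n + 2 - 1)))
        rw [show n + 2 - (n + 2 - 1) = 1 by omega]
        exact f2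
  rw [← surr_par hω hA, ← surr_par hω hA] at fin
  exact ind_iff fin

/-- **hypothesis `hlasso` of `NT802.sep_next`** -/
theorem hlasso_of {T : Temp} {V : Finset Pt} {ω : Conf} (hω : ω ∈ DD V) {A : Set Pt}
    (hA : A ∈ Loops ω) {g : ℕ → Pt} {α β : ℕ} (hg : Piece ω A g α β) {q : Pt} {R : ℕ}
    (ho : g α ∉ box q R) (ho' : g β ∉ box q R) {E2 : Set Pt}
    (hE : ∀ i, α ≤ i → i ≤ β → g i ∈ E2) {r2 : ℕ} (hr2 : r2 + 1 ≤ R) {s t : ℕ} (hs : α < s)
    (ht : t ≤ β) (hb : ∀ i, s ≤ i → i < t → g i ∈ box q R) :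
    ∀ f f' : Pt, Conn {x | x ∈ OE T E2 ∧ x ∈ box q r2} f f' →
      ∀ a a' : Pt, Adj f a → Adj f' a' → (∃ w ∈ {w | ∃ i, s ≤ i ∧ i < t ∧ w = g i}, w ∈ corners a) →
      (∃ w ∈ {w | ∃ i, s ≤ i ∧ i < t ∧ w = g i}, w ∈ corners a') →
      (surr ω A a ↔ surr ω A a') := by
  rintro f f' hc a a' ha ha' ⟨_, ⟨u, hu, hu', rfl⟩, hua⟩ ⟨_, ⟨v, hv, hv', rfl⟩, hva⟩
  refine lasso_piece hω hA hg ho ho' ?_ hc ha ha' (u := u) (v := v) (by omega) (by omega)
    (by omega) (by omega) ?_ hua hva
  · rintro h ⟨h1, h2⟩ x hx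
    refine ⟨?_, fun i hi hi' he => h1.2 ⟨x, hx, he ▸ hE i hi hi'⟩⟩
    have h3 : x ∈ box q (r2 + 1) := by
      rw [mem_box] at h2 ⊢
      simp only [corners, mem_insert, mem_singleton] at hx
      push_cast
      rcases hx with rfl | rfl | rfl | rfl <;> simp only <;> omega
    exact box_mono hr2 h3
  · rintro i (⟨h1, h2⟩ | ⟨h1, h2⟩)
    · exact hb i (by omega) (by omega)
    · exact hb i (by omega) (by omega)

end Vale.Agent.P155.NT34
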