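import Vale.Agent.P155.NT34.Loc

/-!
# P155, NT: the lasso lemma

A simple walk `q 0, …, q m` which is part of a closed curve (even edge set `(c, d)`), with `q 0` and
`q m` off a box, and a gap path from `q u` to `q v` which does not meet the walk, both the gap and
`q u, …, q v` in the box.  Then the faces beside the first and beside the last gap edge are on the
same side of the closed curve.
-/

namespace Vale.Agent.P155.NT34

open Finset Vale.Agent.P155.T802

open Classical in
/-- value of a walk at an edge from a point which is visited only once -/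
theorem ev_once {x : ℕ → Pt} {n i : ℕ} (hx : IsWalk x n) (hi : i ≤ n)
    (h1 : ∀ j ≤ n, x j = x i → j = i) {n' : Pt} (hn : Adj (x i) n') :
    ev (chV x n) (chH x n) (x i) n' =
      (if 0 < i ∧ n' = x (i - 1) then 1 else 0) + (if i < n ∧ n' = x (i + 1) then 1 else 0) := by
  rw [ev_walk hx hn]
  have key : ∀ j ∈ range n, (if (x i = x j ∧ n' = x (j + 1)) ∨ (x i = x (j + 1) ∧ n' = x j)
      then (1 : ZMod 2) else 0) =
      (if j = i then (if n' = x (i + 1) then 1 else 0) else 0) +
      (if j + 1 = i then (if n' = x (i - 1) then 1 else 0) else 0) := by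
    intro j hj
    rw [mem_range] at hj
    by_cases e1 : j = i
    · subst e1
      have e2 : x j ≠ x (j + 1) := fun h => by
        have := h1 (j + 1) hj h.symm
        omega
      rw [if_pos rfl, if_neg (by omega : ¬ j + 1 = j), add_zero]
      by_cases e3 : n' = x (j + 1)
      · rw [if_pos (Or.inl ⟨rfl, e3⟩), if_pos e3]
      · rw [if_neg (fun h => h.elim (fun h => e3 h.2) (fun h => e2 h.1)), if_neg e3]
    · rw [if_neg e1, zero_add]
      have e4 : x i ≠ x j := fun h => e1 (h1 j hj.le h.symm)
      by_cases e5 : j + 1 = i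
      · subst e5
        rw [if_pos rfl, Nat.add_sub_cancel]
        by_cases e3 : n' = x j
        · rw [if_pos (Or.inr ⟨rfl, e3⟩), if_pos e3]
        · rw [if_neg (fun h => h.elim (fun h => e4 h.1) (fun h => e3 h.2)), if_neg e3]
      · have e6 : x i ≠ x (j + 1) := fun h => e5 (h1 (j + 1) hj h.symm)
        rw [if_neg (fun h => h.elim (fun h => e4 h.1) (fun h => e6 h.1)), if_neg e5]
  rw [sum_congr rfl key, sum_add_distrib, add_comm]
  congr 1
  · by_cases h0 : 0 < i
    · rw [sum_eq_single (i - 1)]
      · rw [if_pos (by omega)]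
        by_cases e3 : n' = x (i - 1)
        · rw [if_pos e3, if_pos ⟨h0, e3⟩]
        · rw [if_neg e3, if_neg (fun h => e3 h.2)]
      · intro b _ hb
        exact if_neg (by omega)
      · intro hb
        exact absurd (mem_range.2 (by omega)) hb
    · rw [if_neg (c := 0 < i ∧ _) (fun h => h0 h.1)]
      refine sum_eq_zero fun b _ => if_neg (by omega)
  · by_cases h0 : i < n
    · rw [sum_eq_single i]
      · rw [if_pos rfl]
        by_cases e3 : n' = x (i + 1)
        · rw [if_pos e3, if_pos ⟨h0, e3⟩]
        · rw [if_neg e3, if_neg (fun h => e3 h.2)]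
      · intro b _ hb
        exact if_neg hb
      · intro hb
        exact absurd (mem_range.2 h0) hb
    · rw [if_neg (c := i < n ∧ _) (fun h => h0 h.1)]
      refine sum_eq_zero fun b hb => if_neg ?_
      rw [mem_range] at hb
      omega

open Classical in
/-- value of a closed walk at the edges of its base point -/
theorem ev_base {x : ℕ → Pt} {n : ℕ} (hx : IsWalk x n) (hn : 2 ≤ n) (h0 : x n = x 0)
    (h1 : ∀ j, 0 < j → j < n → x j ≠ x 0) {n' : Pt} (hn' : Adj (x 0) n') :
    ev (chV x n) (chH x n) (x 0) n' =
      (if n' = x 1 then 1 else 0) + (if n' = x (n - 1) then 1 else 0) := by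
  rw [ev_walk hx hn']
  have key : ∀ j ∈ range n, (if (x 0 = x j ∧ n' = x (j + 1)) ∨ (x 0 = x (j + 1) ∧ n' = x j)
      then (1 : ZMod 2) else 0) =
      (if j = 0 then (if n' = x 1 then 1 else 0) else 0) +
      (if j = n - 1 then (if n' = x (n - 1) then 1 else 0) else 0) := by
    intro j hj
    rw [mem_range] at hj
    by_cases e1 : j = 0
    · subst e1
      have e2 : x 0 ≠ x (0 + 1) := fun h => h1 1 one_pos (by omega) h.symm
      rw [if_pos rfl, if_neg (by omega : ¬ 0 = n - 1), add_zero]
      by_cases e3 : n' = x 1
      · rw [if_pos (Or.inl ⟨rfl, e3⟩), if_pos e3]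
      · rw [if_neg (fun h => h.elim (fun h => e3 h.2) (fun h => e2 h.1)), if_neg e3]
    · rw [if_neg e1, zero_add]
      have e4 : x 0 ≠ x j := fun h => h1 j (by omega) hj h.symm
      by_cases e5 : j = n - 1
      · subst e5
        have e6 : x 0 = x (n - 1 + 1) := by
          rw [Nat.sub_add_cancel (by omega), h0]
        rw [if_pos rfl]
        by_cases e3 : n' = x (n - 1)
        · rw [if_pos (Or.inr ⟨e6, e3⟩), if_pos e3]
        · rw [if_neg (fun h => h.elim (fun h => e4 h.1) (fun h => e3 h.2)), if_neg e3]
      · have e6 : x 0 ≠ x (j + 1) := fun h => h1 (j + 1) (by omega) (by omega) h.symm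
        rw [if_neg (fun h => h.elim (fun h => e4 h.1) (fun h => e6 h.1)), if_neg e5]
  rw [sum_congr rfl key, sum_add_distrib]
  congr 1
  · rw [sum_eq_single 0]
    · rw [if_pos rfl]
    · intro b _ hb
      exact if_neg hb
    · intro hb
      exact absurd (mem_range.2 (by omega)) hb
  · rw [sum_eq_single (n - 1)]
    · rw [if_pos rfl]
    · intro b _ hb
      exact if_neg hb
    · intro hb
      exact absurd (mem_range.2 (by omega)) hb

theorem exists_shared {p p' : Pt} (h : Adj p p') : ∃ f, f ∈ facesAt p ∧ f ∈ facesAt p' := by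
  obtain ⟨k, rfl⟩ := exists_nb h
  exact ⟨sec p k, sec_mem p k⟩

theorem adjS {p p' : Pt} (h : Adj p p') : Adj p' p := by
  unfold Adj at *
  rw [abs_sub_comm p'.1, abs_sub_comm p'.2]
  exact h

theorem adj_ne' {p p' : Pt} (h : Adj p p') : p ≠ p' := by
  rintro rfl
  simp [Adj] at h

open Classical in
/-- **the lasso lemma** -/
theorem lasso_abs {c d : Pt → ZMod 2} (hL : EvenSet c d) {q : ℕ → Pt} {m u v : ℕ} (h0 : 0 < u)
    (huv : u ≤ v) (hvm : v < m) (hq : IsWalk q m)
    (hinj : ∀ i ≤ m, ∀ j ≤ m, q i = q j → i = j)
    (hLq : ∀ i, 0 < i → i < m → ∀ n, Adj (q i) n →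
      ev c d (q i) n = if n = q (i - 1) ∨ n = q (i + 1) then 1 else 0)
    {w : ℕ → Pt} {k : ℕ} (hk : 2 ≤ k) (hw : IsWalk w k) (hw0 : w 0 = q u) (hwk : w k = q v)
    (hwq : ∀ i, 0 < i → i < k → ∀ j ≤ m, w i ≠ q j) {z : Pt} {r : ℕ}
    (hbq : ∀ i, u ≤ i → i ≤ v → q i ∈ box z r) (hbw : ∀ i ≤ k, w i ∈ box z r)
    (ho : q 0 ∉ box z r) (ho' : q m ∉ box z r) {f f' : Pt} (hf : f ∈ facesAt (q u))
    (hf1 : f ∈ facesAt (w 1)) (hf' : f' ∈ facesAt (q v)) (hf1' : f' ∈ facesAt (w (k - 1))) :
    par c f = par c f' := by
  -- the closed edge set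
  obtain ⟨x, hxd⟩ : ∃ x : ℕ → Pt, x = fun i => q (u + i) := ⟨_, rfl⟩
  obtain ⟨n, hn⟩ : ∃ n : ℕ, n = v - u := ⟨_, rfl⟩
  have hx : IsWalk x n := by
    intro i hi
    rw [hxd]
    exact hq (u + i) (by omega)
  have hx0 : x 0 = q u := by rw [hxd]; rfl
  have hxn : x n = q v := by rw [hxd]; show q (u + n) = q v; congr 1; omega
  obtain ⟨a, ha⟩ : ∃ a : Pt → ZMod 2, a = fun s => chV x n s + chV w k s := ⟨_, rfl⟩
  obtain ⟨b, hb⟩ : ∃ b : Pt → ZMod 2, b = fun s => chH x n s + chH w k s := ⟨_, rfl⟩
  have hin : InBox z r a b := by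
    rw [ha, hb]
    refine inBox_add (inBox_walk fun i hi => ?_) (inBox_walk hbw)
    rw [hxd]
    exact hbq (u + i) (by omega) (by omega)
  have hG : EvenSet a b := by
    refine even_of_inBox hin fun s => ?_
    have h1 := deg_walk hx s
    have h2 := deg_walk hw s
    rw [hx0, hxn] at h1
    rw [hw0, hwk] at h2
    rw [ha, hb]
    simp only
    have e : ∀ a1 a2 a3 a4 b1 b2 b3 b4 : ZMod 2, a1 + b1 + (a2 + b2) + (a3 + b3) + (a4 + b4) =
        (a1 + a2 + a3 + a4) + (b1 + b2 + b3 + b4) := by intros; ring
    rw [e, h1, h2]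
    exact z2 _
  have evG : ∀ p p' : Pt, ev a b p p' = ev (chV x n) (chH x n) p p' +
      ev (chV w k) (chH w k) p p' := by
    intro p p'
    rw [ha, hb, ev_add]
  -- off the loop part
  have off : ∀ i ≤ m, (i < u ∨ v < i) → ∀ p', Adj (q i) p' → ev a b (q i) p' = 0 := by
    intro i hi hiu p' hp'
    rw [evG, ev_walk_zero hx hp', ev_walk_zero hw hp', add_zero]
    · intro j hj he
      rcases Nat.eq_zero_or_pos j with rfl | hj0
      · rw [hw0] at he
        have := hinj _ (by omega) _ hi he
        omega
      · rcases hj.lt_or_eq with h | rfl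
        · exact hwq j hj0 h i hi he
        · rw [hwk] at he
          have := hinj _ (by omega) _ hi he
          omega
    · intro j hj he
      rw [hxd] at he
      have := hinj _ (by omega) _ hi he
      omega
  -- tail
  have tail : ∀ i, i < u → ∀ g ∈ facesAt (q i), par a g = 0 := by
    intro i
    induction i with
    | zero =>
      intro _ g hg
      exact par_out hG hin ho hg
    | succ i ih =>
      intro hi g hg
      obtain ⟨g', h1, h2⟩ := exists_shared (hq i (by omega))
      rw [par_vertex hG (off (i + 1) (by omega) (Or.inl hi)) hg h2]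
      exact ih (by omega) g' h1
  -- head
  have head : ∀ j, j + v < m → ∀ g ∈ facesAt (q (m - j)), par a g = 0 := by
    intro j
    induction j with
    | zero =>
      intro _ g hg
      exact par_out hG hin ho' hg
    | succ j ih =>
      intro hj g hg
      have e : m - (j + 1) + 1 = m - j := by omega
      obtain ⟨g', h1, h2⟩ := exists_shared (hq (m - (j + 1)) (by omega))
      rw [e] at h2
      rw [par_vertex hG (off (m - (j + 1)) (by omega) (Or.inr (by omega))) hg h1]
      exact ih (by omega) g' h2
  have tail' : ∀ g ∈ facesAt (q u), g ∈ facesAt (q (u - 1)) → par a g = 0 :=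
    fun g _ hg => tail (u - 1) (by omega) g hg
  have head' : ∀ g ∈ facesAt (q v), g ∈ facesAt (q (v + 1)) → par a g = 0 := by
    intro g _ hg
    have := head (m - (v + 1)) (by omega) g
    rw [Nat.sub_sub_self (by omega)] at this
    exact this hg
  have aw0 : Adj (q u) (w 1) := by rw [← hw0]; exact hw 0 (by omega)
  have awk : Adj (q v) (w (k - 1)) := by
    rw [← hwk]
    have := hw (k - 1) (by omega)
    rw [Nat.sub_add_cancel (by omega)] at this
    exact adjS this
  have am : Adj (q u) (q (u - 1)) := by
    have := hq (u - 1) (by omega)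
    rw [Nat.sub_add_cancel (by omega)] at this
    exact adjS this
  have ap : Adj (q v) (q (v + 1)) := hq v (by omega)
  have w1q : ∀ j ≤ m, w 1 ≠ q j := hwq 1 one_pos (by omega)
  have wkq : ∀ j ≤ m, w (k - 1) ≠ q j := hwq (k - 1) (by omega) (by omega)
  rcases huv.lt_or_eq with huv' | huv'
  · -- `u < v`
    have apu : Adj (q u) (q (u + 1)) := hq u (by omega)
    have amv : Adj (q v) (q (v - 1)) := by
      have := hq (v - 1) (by omega)
      rw [Nat.sub_add_cancel (by omega)] at this
      exact adjS this
    have wonce0 : ∀ j ≤ k, w j = w 0 → j = 0 := by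
      intro j hj he
      by_contra hj0
      rw [hw0] at he
      rcases hj.lt_or_eq with h | rfl
      · exact hwq j (Nat.pos_of_ne_zero hj0) h u (by omega) he
      · rw [hwk] at he
        have := hinj _ (by omega) _ (by omega) he
        omega
    have woncek : ∀ j ≤ k, w j = w k → j = k := by
      intro j hj he
      by_contra hj0
      rw [hwk] at he
      rcases Nat.eq_zero_or_pos j with rfl | h
      · rw [hw0] at he
        have := hinj _ (by omega) _ (by omega) he
        omega
      · exact hwq j h (by omega) v (by omega) he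
    have xonce : ∀ i ≤ n, ∀ j ≤ n, x j = x i → j = i := by
      intro i hi j hj he
      rw [hxd] at he
      have := hinj _ (by omega) _ (by omega) he
      omega
    -- values at `q u`
    have vu : ∀ p', Adj (q u) p' → ev a b (q u) p' = if p' = q (u + 1) ∨ p' = w 1 then 1 else 0 := by
      intro p' hp'
      have e1 := ev_once hx (Nat.zero_le n) (xonce 0 (Nat.zero_le n)) (n' := p') (by rwa [hx0])
      have e2 := ev_once hw (Nat.zero_le k) wonce0 (n' := p') (by rwa [hw0])
      rw [hx0] at e1
      rw [hw0] at e2
      rw [evG, e1, e2, if_neg (c := 0 < 0 ∧ p' = q u) (fun h => absurd h.1 (lt_irrefl 0)),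
        zero_add, zero_add]
      have ex1 : x (0 + 1) = q (u + 1) := by rw [hxd]
      rw [ex1, zero_add]
      by_cases c1 : p' = q (u + 1)
      · have c2 : p' ≠ w 1 := fun h => w1q (u + 1) (by omega) (h.symm.trans c1)
        rw [if_pos ⟨by omega, c1⟩, if_neg (fun h => c2 h.2), if_pos (Or.inl c1), add_zero]
      · rw [if_neg (fun h => c1 h.2), zero_add]
        by_cases c2 : p' = w 1
        · rw [if_pos ⟨by omega, c2⟩, if_pos (Or.inr c2)]
        · rw [if_neg (fun h => c2 h.2), if_neg (fun h => h.elim c1 c2)]
    -- values at `q v`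
    have vv : ∀ p', Adj (q v) p' →
        ev a b (q v) p' = if p' = q (v - 1) ∨ p' = w (k - 1) then 1 else 0 := by
      intro p' hp'
      have e1 := ev_once hx (le_refl n) (xonce n (le_refl n)) (n' := p') (by rwa [hxn])
      have e2 := ev_once hw (le_refl k) woncek (n' := p') (by rwa [hwk])
      rw [hxn] at e1
      rw [hwk] at e2
      rw [evG, e1, e2, if_neg (c := n < n ∧ _) (fun h => absurd h.1 (lt_irrefl n)),
        if_neg (c := k < k ∧ _) (fun h => absurd h.1 (lt_irrefl k)), add_zero, add_zero]
      have ex1 : x (n - 1) = q (v - 1) := by rw [hxd]; show q (u + (n - 1)) = _; congr 1; omega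
      rw [ex1]
      by_cases c1 : p' = q (v - 1)
      · have c2 : p' ≠ w (k - 1) := fun h => wkq (v - 1) (by omega) (h.symm.trans c1)
        rw [if_pos ⟨by omega, c1⟩, if_neg (fun h => c2 h.2), if_pos (Or.inl c1), add_zero]
      · rw [if_neg (fun h => c1 h.2), zero_add]
        by_cases c2 : p' = w (k - 1)
        · rw [if_pos ⟨by omega, c2⟩, if_pos (Or.inr c2)]
        · rw [if_neg (fun h => c2 h.2), if_neg (fun h => h.elim c1 c2)]
    -- inner vertices
    have inner : ∀ i, u < i → i < v → ∀ p', Adj (q i) p' →
        ev (fun s => a s + c s) (fun s => b s + d s) (q i) p' = 0 := by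
      intro i hi hi' p' hp'
      rw [ev_add, hLq i (by omega) (by omega) p' hp', evG]
      have e0 : x (i - u) = q i := by rw [hxd]; show q (u + (i - u)) = q i; congr 1; omega
      have e1 := ev_once hx (i := i - u) (by omega) (xonce (i - u) (by omega)) (n' := p')
        (by rwa [e0])
      have e2 : ev (chV w k) (chH w k) (q i) p' = 0 := by
        refine ev_walk_zero hw hp' fun j hj he => ?_
        rcases Nat.eq_zero_or_pos j with rfl | hj0
        · rw [hw0] at he
          have := hinj _ (by omega) _ (by omega) he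
          omega
        · rcases hj.lt_or_eq with h | rfl
          · exact hwq j hj0 h i (by omega) he
          · rw [hwk] at he
            have := hinj _ (by omega) _ (by omega) he
            omega
      rw [e0] at e1
      have e3 : x (i - u - 1) = q (i - 1) := by
        rw [hxd]; show q (u + (i - u - 1)) = _; congr 1; omega
      have e4 : x (i - u + 1) = q (i + 1) := by
        rw [hxd]; show q (u + (i - u + 1)) = _; congr 1; omega
      rw [e3, e4] at e1
      rw [e1, e2, add_zero]
      by_cases c1 : p' = q (i - 1)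
      · have c2 : p' ≠ q (i + 1) := fun h => by
          have := hinj _ (by omega) _ (by omega) (c1.symm.trans h)
          omega
        rw [if_pos ⟨by omega, c1⟩, if_neg (fun h => c2 h.2), if_pos (Or.inl c1), add_zero]
        exact z2 1
      · rw [if_neg (fun h => c1 h.2), zero_add]
        by_cases c2 : p' = q (i + 1)
        · rw [if_pos ⟨by omega, c2⟩, if_pos (Or.inr c2)]
          exact z2 1
        · rw [if_neg (fun h => c2 h.2), if_neg (fun h => h.elim c1 c2), add_zero]
    have hGL := even_add hG hL
    -- the start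
    have st : ∀ g ∈ facesAt (q u), g ∈ facesAt (q (u + 1)) → par a g + par c g = 1 + par c f := by
      intro g hg hg'
      refine vertex_gap hG hL am apu aw0 ?_ ?_ ?_ vu ?_ tail' hf hf1 hg hg'
      · intro h
        have := hinj _ (by omega) _ (by omega) h
        omega
      · exact fun h => w1q (u - 1) (by omega) h.symm
      · exact fun h => w1q (u + 1) (by omega) h.symm
      · exact fun n' hn' => hLq u h0 (by omega) n' hn'
    -- the end
    have en : ∀ g ∈ facesAt (q v), g ∈ facesAt (q (v - 1)) → par a g + par c g = 1 + par c f' := by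
      intro g hg hg'
      refine vertex_gap hG hL ap amv awk ?_ ?_ ?_ vv ?_ head' hf' hf1' hg hg'
      · intro h
        have := hinj _ (by omega) _ (by omega) h
        omega
      · exact fun h => wkq (v + 1) (by omega) h.symm
      · exact fun h => wkq (v - 1) (by omega) h.symm
      · intro n' hn'
        rw [hLq v (by omega) (by omega) n' hn']
        by_cases c : n' = q (v - 1) ∨ n' = q (v + 1)
        · rw [if_pos c, if_pos c.symm]
        · rw [if_neg c, if_neg (fun h => c h.symm)]
    -- along the path
    have run : ∀ j, u + j < v → ∀ g ∈ facesAt (q (u + j)), g ∈ facesAt (q (u + j + 1)) →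
        par a g + par c g = 1 + par c f := by
      intro j
      induction j with
      | zero => intro _ g hg hg'; exact st g hg hg'
      | succ j ih =>
        intro hj g hg hg'
        obtain ⟨g', h1, h2⟩ := exists_shared (hq (u + j) (by omega))
        have h3 := ih (by omega) g' h1 h2
        have h4 := par_vertex hGL (inner (u + j + 1) (by omega) (by omega)) h2
          (show g ∈ facesAt (q (u + j + 1)) from hg)
        rw [par_add hG hL, par_add hG hL] at h4
        rw [← h4]
        exact h3
    obtain ⟨g, h1, h2⟩ := exists_shared (hq (v - 1) (by omega))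
    have r1 := run (v - 1 - u) (by omega) g (by rwa [show u + (v - 1 - u) = v - 1 by omega])
      (by rwa [show u + (v - 1 - u) + 1 = v - 1 + 1 by omega])
    rw [Nat.sub_add_cancel (by omega)] at h2
    have r2 := en g h2 h1
    rw [r1] at r2
    exact add_left_cancel r2
  · -- `u = v`
    subst huv'
    have hn0 : n = 0 := by omega
    subst hn0
    by_cases hww : w 1 = w (k - 1)
    · have h1 : ev c d (q u) (w 1) = 0 := by
        rw [hLq u h0 (by omega) _ aw0, if_neg]
        rintro (h | h)
        · exact w1q (u - 1) (by omega) h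
        · exact w1q (u + 1) (by omega) h
      rw [← hww] at hf1'
      exact par_edge hL aw0 h1 hf hf1 hf' hf1'
    · refine vertex_gap2 hG hL am ap aw0 awk ?_ ?_ ?_ ?_ ?_ hww ?_ ?_ tail' head' hf hf1 hf' hf1'
      · intro h
        have := hinj _ (by omega) _ (by omega) h
        omega
      · exact fun h => w1q (u - 1) (by omega) h.symm
      · exact fun h => w1q (u + 1) (by omega) h.symm
      · exact fun h => wkq (u - 1) (by omega) h.symm
      · exact fun h => wkq (u + 1) (by omega) h.symm
      · intro n' hn'
        have e1 := ev_base hw hk (hwk.trans hw0.symm) (fun j hj hj' => by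
          rw [hw0]; exact hwq j hj hj' u (by omega)) (n' := n') (by rwa [hw0])
        rw [hw0] at e1
        have e2 : ev (chV x 0) (chH x 0) (q u) n' = 0 := by
          have := ev_walk (x := x) (n := 0) (fun i hi => absurd hi (Nat.not_lt_zero i)) hn'
          rw [this, range_zero, sum_empty]
        rw [evG, e1, e2, zero_add]
        by_cases c1 : n' = w 1
        · have c2 : n' ≠ w (k - 1) := fun h => hww (c1.symm.trans h)
          rw [if_pos c1, if_neg c2, if_pos (Or.inl c1), add_zero]
        · rw [if_neg c1, zero_add]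
          by_cases c2 : n' = w (k - 1)
          · rw [if_pos c2, if_pos (Or.inr c2)]
          · rw [if_neg c2, if_neg (fun h => h.elim c1 c2)]
      · exact fun n' hn' => hLq u h0 (by omega) n' hn'

end Vale.Agent.P155.NT34
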