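import Vale.Agent.P155.NT34.Gap
import Vale.Agent.P155.NT802.Stage
import Vale.Agent.P155.NT.Path

/-!
# P155, NT, block E: the lasso property for the exploration
-/

namespace Vale.Agent.P155.NT34

open Vale.Agent.P155 T802 T905 J Finset NT NT802 Function

/-- the path of a loop, from its start -/
theorem piece_go {V : Finset Pt} {ω : Conf} (hω : ω ∈ DD V) {s : Pt} (h : ω.1 s ≠ ω.2 s) {β : ℕ}
    (hβ : β < (comp ω s).ncard) : Piece ω (comp ω s) (go ω s) 0 β where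
  adj i _ _ := NT.Go.go_adj hω h i
  inj i j _ hi _ hj he := NT.Go.go_inj hω h (lt_of_le_of_lt hi hβ) (lt_of_le_of_lt hj hβ) he
  mem i _ _ := NT.Go.go_mem ω s i
  part i h0 _ := by
    obtain ⟨j, rfl⟩ : ∃ j, i = j + 1 := ⟨i - 1, by omega⟩
    have h1 := NT.Go.go_partners hω h j
    rw [Nat.add_sub_cancel]
    exact h1.symm

/-- **LASSO** -/
theorem lassoP : LassoP := by
  intro T xS ω tm M hω W q r k r2 hr hx hr2 hk hsame f f' hc a a' ha ha' hN hN' _ _
  have hle : eK xS ω tm M q r k ≤ eK xS ω tm M q r (k + 1) := ent_mono (Nat.le_succ k)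
  have hk0 : eK xS ω tm M q r k < M := lt_of_le_of_lt hle hk
  obtain ⟨n0, hn0, hrun⟩ := W.pos hk
  obtain ⟨m0, hm0, hrun'⟩ := W.pos hk0
  rw [hsame] at hrun'
  obtain ⟨hsV, _, hi⟩ := W.valid _ hk
  have hpos : 0 < (comp ω (xS, (tm (eK xS ω tm M q r (k + 1))).1)).ncard := by omega
  have e0 : m0 = n0 := by
    obtain ⟨a1, a2⟩ := hrun 0 hpos
    obtain ⟨b1, b2⟩ := hrun' 0 hpos
    rw [add_zero] at a1 a2 b1 b2
    exact W.inj _ b1 _ a1 (by rw [a2, b2])
  subst e0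
  have hne := W.ne_exc hω hr hx hk0
  have hxk : xK xS ω tm M q r (k + 1) ≤ eK xS ω tm M q r (k + 1) := exi_le_ent _
  have hex : eK xS ω tm M q r k ≤ xK xS ω tm M q r (k + 1) := ent_le_exi _
  unfold LK
  rw [hsame] at hne ⊢
  set t := (tm (eK xS ω tm M q r (k + 1))).1 with ht
  set s : Pt := (xS, t) with hs
  -- the indices
  obtain ⟨i0, hi0⟩ : ∃ i0, eK xS ω tm M q r k = m0 + i0 := ⟨_, hm0⟩
  obtain ⟨i2, hi2⟩ : ∃ i2, i2 = (tm (eK xS ω tm M q r (k + 1))).2 := ⟨_, rfl⟩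
  rw [← hi2] at hn0 hi
  obtain ⟨i1, hi1⟩ : ∃ i1, xK xS ω tm M q r (k + 1) = m0 + i1 :=
    ⟨xK xS ω tm M q r (k + 1) - m0, by omega⟩
  have h01 : i0 ≤ i1 := by omega
  have h12 : i1 ≤ i2 := by omega
  have hpt : ∀ j < (comp ω s).ncard, pt' xS ω (tm (m0 + j)) = go ω s j := by
    intro j hj
    rw [(hrun j hj).2]
    rfl
  have hq0 : go ω s 0 ∉ box q (4 * r) := by
    rw [go0, NT802.not_box]
    have : 16 * r ≤ dn q s := dn_line (q := q) (t := t) hx
    omega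
  have hxM : xK xS ω tm M q r (k + 1) < M := lt_of_le_of_lt hxk hk
  have hq1 : go ω s i1 ∉ box q (4 * r) := by
    have h1 := exi_out (g := fun n => pt' xS ω (tm n)) (N := M) (q := q) (r0 := 2 * r)
      (R := 4 * r) (k := k) hxM
    have h2 : pt' xS ω (tm (xK xS ω tm M q r (k + 1))) ∉ box q (4 * r) := h1
    rw [hi1, hpt i1 (by omega)] at h2
    exact h2
  have conv : ∀ b : Pt, (∃ n, eK xS ω tm M q r k < n ∧ n < xK xS ω tm M q r (k + 1) ∧
      pt' xS ω (tm n) ∈ corners b) →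
      ∃ w ∈ {w | ∃ i, i0 + 1 ≤ i ∧ i < i1 ∧ w = go ω s i}, w ∈ corners b := by
    rintro b ⟨n, h1, h2, h3⟩
    obtain ⟨j, rfl⟩ : ∃ j, n = m0 + j := ⟨n - m0, by omega⟩
    rw [hpt j (by omega)] at h3
    exact ⟨_, ⟨j, by omega, by omega, rfl⟩, h3⟩
  refine hlasso_of (T := T) hω ⟨_, hne, rfl⟩ (piece_go hω hne (β := i1) (by omega)) hq0 hq1
    (E2 := EK xS ω tm M q r (k + 1)) ?_ (r2 := r2) (by omega) (s := i0 + 1) (t := i1) (by omega)
    le_rfl ?_ f f' hc a a' ha ha' (conv a hN) (conv a' hN')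
  · intro i _ hi'
    right
    exact ⟨i, by rw [← hi2]; omega, rfl⟩
  · intro i h1 h2
    have h3 := in_box (g := fun n => pt' xS ω (tm n)) (N := M) (q := q) (r0 := 2 * r) (R := 4 * r)
      (k := k) (i := m0 + i) (by
        change eK xS ω tm M q r k ≤ m0 + i
        omega) (by
        change m0 + i < xK xS ω tm M q r (k + 1)
        omega)
    have h4 : pt' xS ω (tm (m0 + i)) ∈ box q (4 * r) := h3
    rwa [hpt i (by omega)] at h4

end Vale.Agent.P155.NT34
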