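import Vale.Agent.P155.NT34.Walk

/-!
# P155, NT: the finite check at a vertex where a gap starts
-/

namespace Vale.Agent.P155.NT34

open Finset Vale.Agent.P155.T802

theorem val_ite (x y : ZMod 2) (p : Prop) [Decidable p] (h : x = y + (if p then 1 else 0)) :
    x.val = (y.val + if p then 1 else 0) % 2 := by
  rw [h, ZMod.val_add]
  split_ifs <;> rfl

theorem f4 : ∀ i : Fin 4, i = 0 ∨ i = 1 ∨ i = 2 ∨ i = 3 := by decide

set_option linter.unusedSimpArgs false

private theorem loc0 (j g : Fin 4) (hij : (0 : Fin 4) ≠ j) (hig : (0 : Fin 4) ≠ g) (hjg : j ≠ g)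
    (P T : Fin 4 → ZMod 2)
    (hP : ∀ k, P k = P (k - 1) + (if k = j ∨ k = g then 1 else 0))
    (hT : ∀ k, T k = T (k - 1) + (if k = 0 ∨ k = j then 1 else 0))
    (h0 : P 0 = 0) (h0' : P (0 - 1) = 0) (f h : Fin 4) (hf : f = g ∨ f = g - 1)
    (hh : h = j ∨ h = j - 1) : P h + T h = 1 + T f := by
  have P0 := val_ite _ _ _ (hP 0)
  have P1 := val_ite _ _ _ (hP 1)
  have P2 := val_ite _ _ _ (hP 2)
  have P3 := val_ite _ _ _ (hP 3)
  have T0 := val_ite _ _ _ (hT 0)
  have T1 := val_ite _ _ _ (hT 1)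
  have T2 := val_ite _ _ _ (hT 2)
  have T3 := val_ite _ _ _ (hT 3)
  clear hP hT
  have a0 := congrArg ZMod.val h0
  have a1 := congrArg ZMod.val h0'
  clear h0 h0'
  apply ZMod.val_injective 2
  rw [ZMod.val_add, ZMod.val_add]
  have v1 : ZMod.val (1 : ZMod 2) = 1 := rfl
  have v0 : ZMod.val (0 : ZMod 2) = 0 := rfl
  rw [v0] at a0 a1
  rw [v1]
  have s0 : (0 : Fin 4) - 1 = 3 := rfl
  have s1 : (1 : Fin 4) - 1 = 0 := rfl
  have s2 : (2 : Fin 4) - 1 = 1 := rfl
  have s3 : (3 : Fin 4) - 1 = 2 := rfl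
  rw [s0] at P0 T0
  rw [s1] at P1 T1
  rw [s2] at P2 T2
  rw [s3] at P3 T3
  have l0 : (P 0).val < 2 := ZMod.val_lt _
  have l1 : (P 1).val < 2 := ZMod.val_lt _
  have l2 : (P 2).val < 2 := ZMod.val_lt _
  have l3 : (P 3).val < 2 := ZMod.val_lt _
  have m0 : (T 0).val < 2 := ZMod.val_lt _
  have m1 : (T 1).val < 2 := ZMod.val_lt _
  have m2 : (T 2).val < 2 := ZMod.val_lt _
  have m3 : (T 3).val < 2 := ZMod.val_lt _
  rcases f4 j with rfl | rfl | rfl | rfl <;>
    rcases f4 g with rfl | rfl | rfl | rfl <;>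
    first
    | exact absurd rfl hij
    | exact absurd rfl hig
    | exact absurd rfl hjg
    | (simp (decide := true) only [s0, s1, s2, s3, if_true, if_false, or_true, true_or, or_false,
         false_or] at P0 P1 P2 P3 T0 T1 T2 T3 a0 a1 hf hh
       rcases hf with rfl | rfl <;> rcases hh with rfl | rfl <;> omega)

private theorem loc1 (j g : Fin 4) (hij : (1 : Fin 4) ≠ j) (hig : (1 : Fin 4) ≠ g) (hjg : j ≠ g)
    (P T : Fin 4 → ZMod 2)
    (hP : ∀ k, P k = P (k - 1) + (if k = j ∨ k = g then 1 else 0))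
    (hT : ∀ k, T k = T (k - 1) + (if k = 1 ∨ k = j then 1 else 0))
    (h0 : P 1 = 0) (h0' : P (1 - 1) = 0) (f h : Fin 4) (hf : f = g ∨ f = g - 1)
    (hh : h = j ∨ h = j - 1) : P h + T h = 1 + T f := by
  have P0 := val_ite _ _ _ (hP 0)
  have P1 := val_ite _ _ _ (hP 1)
  have P2 := val_ite _ _ _ (hP 2)
  have P3 := val_ite _ _ _ (hP 3)
  have T0 := val_ite _ _ _ (hT 0)
  have T1 := val_ite _ _ _ (hT 1)
  have T2 := val_ite _ _ _ (hT 2)
  have T3 := val_ite _ _ _ (hT 3)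
  clear hP hT
  have a0 := congrArg ZMod.val h0
  have a1 := congrArg ZMod.val h0'
  clear h0 h0'
  apply ZMod.val_injective 2
  rw [ZMod.val_add, ZMod.val_add]
  have v1 : ZMod.val (1 : ZMod 2) = 1 := rfl
  have v0 : ZMod.val (0 : ZMod 2) = 0 := rfl
  rw [v0] at a0 a1
  rw [v1]
  have s0 : (0 : Fin 4) - 1 = 3 := rfl
  have s1 : (1 : Fin 4) - 1 = 0 := rfl
  have s2 : (2 : Fin 4) - 1 = 1 := rfl
  have s3 : (3 : Fin 4) - 1 = 2 := rfl
  rw [s0] at P0 T0
  rw [s1] at P1 T1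
  rw [s2] at P2 T2
  rw [s3] at P3 T3
  have l0 : (P 0).val < 2 := ZMod.val_lt _
  have l1 : (P 1).val < 2 := ZMod.val_lt _
  have l2 : (P 2).val < 2 := ZMod.val_lt _
  have l3 : (P 3).val < 2 := ZMod.val_lt _
  have m0 : (T 0).val < 2 := ZMod.val_lt _
  have m1 : (T 1).val < 2 := ZMod.val_lt _
  have m2 : (T 2).val < 2 := ZMod.val_lt _
  have m3 : (T 3).val < 2 := ZMod.val_lt _
  rcases f4 j with rfl | rfl | rfl | rfl <;>
    rcases f4 g with rfl | rfl | rfl | rfl <;>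
    first
    | exact absurd rfl hij
    | exact absurd rfl hig
    | exact absurd rfl hjg
    | (simp (decide := true) only [s0, s1, s2, s3, if_true, if_false, or_true, true_or, or_false,
         false_or] at P0 P1 P2 P3 T0 T1 T2 T3 a0 a1 hf hh
       rcases hf with rfl | rfl <;> rcases hh with rfl | rfl <;> omega)

private theorem loc2 (j g : Fin 4) (hij : (2 : Fin 4) ≠ j) (hig : (2 : Fin 4) ≠ g) (hjg : j ≠ g)
    (P T : Fin 4 → ZMod 2)
    (hP : ∀ k, P k = P (k - 1) + (if k = j ∨ k = g then 1 else 0))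
    (hT : ∀ k, T k = T (k - 1) + (if k = 2 ∨ k = j then 1 else 0))
    (h0 : P 2 = 0) (h0' : P (2 - 1) = 0) (f h : Fin 4) (hf : f = g ∨ f = g - 1)
    (hh : h = j ∨ h = j - 1) : P h + T h = 1 + T f := by
  have P0 := val_ite _ _ _ (hP 0)
  have P1 := val_ite _ _ _ (hP 1)
  have P2 := val_ite _ _ _ (hP 2)
  have P3 := val_ite _ _ _ (hP 3)
  have T0 := val_ite _ _ _ (hT 0)
  have T1 := val_ite _ _ _ (hT 1)
  have T2 := val_ite _ _ _ (hT 2)
  have T3 := val_ite _ _ _ (hT 3)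
  clear hP hT
  have a0 := congrArg ZMod.val h0
  have a1 := congrArg ZMod.val h0'
  clear h0 h0'
  apply ZMod.val_injective 2
  rw [ZMod.val_add, ZMod.val_add]
  have v1 : ZMod.val (1 : ZMod 2) = 1 := rfl
  have v0 : ZMod.val (0 : ZMod 2) = 0 := rfl
  rw [v0] at a0 a1
  rw [v1]
  have s0 : (0 : Fin 4) - 1 = 3 := rfl
  have s1 : (1 : Fin 4) - 1 = 0 := rfl
  have s2 : (2 : Fin 4) - 1 = 1 := rfl
  have s3 : (3 : Fin 4) - 1 = 2 := rfl
  rw [s0] at P0 T0
  rw [s1] at P1 T1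
  rw [s2] at P2 T2
  rw [s3] at P3 T3
  have l0 : (P 0).val < 2 := ZMod.val_lt _
  have l1 : (P 1).val < 2 := ZMod.val_lt _
  have l2 : (P 2).val < 2 := ZMod.val_lt _
  have l3 : (P 3).val < 2 := ZMod.val_lt _
  have m0 : (T 0).val < 2 := ZMod.val_lt _
  have m1 : (T 1).val < 2 := ZMod.val_lt _
  have m2 : (T 2).val < 2 := ZMod.val_lt _
  have m3 : (T 3).val < 2 := ZMod.val_lt _
  rcases f4 j with rfl | rfl | rfl | rfl <;>
    rcases f4 g with rfl | rfl | rfl | rfl <;>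
    first
    | exact absurd rfl hij
    | exact absurd rfl hig
    | exact absurd rfl hjg
    | (simp (decide := true) only [s0, s1, s2, s3, if_true, if_false, or_true, true_or, or_false,
         false_or] at P0 P1 P2 P3 T0 T1 T2 T3 a0 a1 hf hh
       rcases hf with rfl | rfl <;> rcases hh with rfl | rfl <;> omega)

private theorem loc3 (j g : Fin 4) (hij : (3 : Fin 4) ≠ j) (hig : (3 : Fin 4) ≠ g) (hjg : j ≠ g)
    (P T : Fin 4 → ZMod 2)
    (hP : ∀ k, P k = P (k - 1) + (if k = j ∨ k = g then 1 else 0))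
    (hT : ∀ k, T k = T (k - 1) + (if k = 3 ∨ k = j then 1 else 0))
    (h0 : P 3 = 0) (h0' : P (3 - 1) = 0) (f h : Fin 4) (hf : f = g ∨ f = g - 1)
    (hh : h = j ∨ h = j - 1) : P h + T h = 1 + T f := by
  have P0 := val_ite _ _ _ (hP 0)
  have P1 := val_ite _ _ _ (hP 1)
  have P2 := val_ite _ _ _ (hP 2)
  have P3 := val_ite _ _ _ (hP 3)
  have T0 := val_ite _ _ _ (hT 0)
  have T1 := val_ite _ _ _ (hT 1)
  have T2 := val_ite _ _ _ (hT 2)
  have T3 := val_ite _ _ _ (hT 3)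
  clear hP hT
  have a0 := congrArg ZMod.val h0
  have a1 := congrArg ZMod.val h0'
  clear h0 h0'
  apply ZMod.val_injective 2
  rw [ZMod.val_add, ZMod.val_add]
  have v1 : ZMod.val (1 : ZMod 2) = 1 := rfl
  have v0 : ZMod.val (0 : ZMod 2) = 0 := rfl
  rw [v0] at a0 a1
  rw [v1]
  have s0 : (0 : Fin 4) - 1 = 3 := rfl
  have s1 : (1 : Fin 4) - 1 = 0 := rfl
  have s2 : (2 : Fin 4) - 1 = 1 := rfl
  have s3 : (3 : Fin 4) - 1 = 2 := rfl
  rw [s0] at P0 T0
  rw [s1] at P1 T1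
  rw [s2] at P2 T2
  rw [s3] at P3 T3
  have l0 : (P 0).val < 2 := ZMod.val_lt _
  have l1 : (P 1).val < 2 := ZMod.val_lt _
  have l2 : (P 2).val < 2 := ZMod.val_lt _
  have l3 : (P 3).val < 2 := ZMod.val_lt _
  have m0 : (T 0).val < 2 := ZMod.val_lt _
  have m1 : (T 1).val < 2 := ZMod.val_lt _
  have m2 : (T 2).val < 2 := ZMod.val_lt _
  have m3 : (T 3).val < 2 := ZMod.val_lt _
  rcases f4 j with rfl | rfl | rfl | rfl <;>
    rcases f4 g with rfl | rfl | rfl | rfl <;>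
    first
    | exact absurd rfl hij
    | exact absurd rfl hig
    | exact absurd rfl hjg
    | (simp (decide := true) only [s0, s1, s2, s3, if_true, if_false, or_true, true_or, or_false,
         false_or] at P0 P1 P2 P3 T0 T1 T2 T3 a0 a1 hf hh
       rcases hf with rfl | rfl <;> rcases hh with rfl | rfl <;> omega)


/-- finite check: `i` = tail, `j` = path, `g` = gap -/
theorem loc (i j g : Fin 4) (hij : i ≠ j) (hig : i ≠ g) (hjg : j ≠ g) (P T : Fin 4 → ZMod 2)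
    (hP : ∀ k, P k = P (k - 1) + (if k = j ∨ k = g then 1 else 0))
    (hT : ∀ k, T k = T (k - 1) + (if k = i ∨ k = j then 1 else 0))
    (h0 : P i = 0) (h0' : P (i - 1) = 0) (f h : Fin 4) (hf : f = g ∨ f = g - 1)
    (hh : h = j ∨ h = j - 1) : P h + T h = 1 + T f := by
  rcases f4 i with rfl | rfl | rfl | rfl
  · exact loc0 j g hij hig hjg P T hP hT h0 h0' f h hf hh
  · exact loc1 j g hij hig hjg P T hP hT h0 h0' f h hf hh
  · exact loc2 j g hij hig hjg P T hP hT h0 h0' f h hf hh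
  · exact loc3 j g hij hig hjg P T hP hT h0 h0' f h hf hh

private theorem loq0 (j g g' : Fin 4) (hij : (0 : Fin 4) ≠ j) (hig : (0 : Fin 4) ≠ g)
    (hjg : j ≠ g) (hig' : (0 : Fin 4) ≠ g') (hjg' : j ≠ g') (hgg : g ≠ g')
    (P T : Fin 4 → ZMod 2)
    (hP : ∀ k, P k = P (k - 1) + (if k = g ∨ k = g' then 1 else 0))
    (hT : ∀ k, T k = T (k - 1) + (if k = 0 ∨ k = j then 1 else 0))
    (h0 : P 0 = 0) (h1 : P j = 0) (f h : Fin 4) (hf : f = g ∨ f = g - 1)
    (hh : h = g' ∨ h = g' - 1) : T f = T h := by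
  have P0 := val_ite _ _ _ (hP 0)
  have P1 := val_ite _ _ _ (hP 1)
  have P2 := val_ite _ _ _ (hP 2)
  have P3 := val_ite _ _ _ (hP 3)
  have T0 := val_ite _ _ _ (hT 0)
  have T1 := val_ite _ _ _ (hT 1)
  have T2 := val_ite _ _ _ (hT 2)
  have T3 := val_ite _ _ _ (hT 3)
  clear hP hT
  have a0 := congrArg ZMod.val h0
  have a1 := congrArg ZMod.val h1
  clear h0 h1
  apply ZMod.val_injective 2
  have v0 : ZMod.val (0 : ZMod 2) = 0 := rfl
  rw [v0] at a0 a1
  have s0 : (0 : Fin 4) - 1 = 3 := rfl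
  have s1 : (1 : Fin 4) - 1 = 0 := rfl
  have s2 : (2 : Fin 4) - 1 = 1 := rfl
  have s3 : (3 : Fin 4) - 1 = 2 := rfl
  rw [s0] at P0 T0
  rw [s1] at P1 T1
  rw [s2] at P2 T2
  rw [s3] at P3 T3
  have m0 : (T 0).val < 2 := ZMod.val_lt _
  have m1 : (T 1).val < 2 := ZMod.val_lt _
  have m2 : (T 2).val < 2 := ZMod.val_lt _
  have m3 : (T 3).val < 2 := ZMod.val_lt _
  rcases f4 j with rfl | rfl | rfl | rfl <;>
    rcases f4 g with rfl | rfl | rfl | rfl <;>
    rcases f4 g' with rfl | rfl | rfl | rfl <;>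
    first
    | exact absurd rfl hij
    | exact absurd rfl hig
    | exact absurd rfl hjg
    | exact absurd rfl hig'
    | exact absurd rfl hjg'
    | exact absurd rfl hgg
    | (simp (decide := true) only [s0, s1, s2, s3, if_true, if_false, or_true, true_or, or_false,
         false_or] at P0 P1 P2 P3 T0 T1 T2 T3 a0 a1 hf hh
       rcases hf with rfl | rfl <;> rcases hh with rfl | rfl <;> omega)

private theorem loq1 (j g g' : Fin 4) (hij : (1 : Fin 4) ≠ j) (hig : (1 : Fin 4) ≠ g)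
    (hjg : j ≠ g) (hig' : (1 : Fin 4) ≠ g') (hjg' : j ≠ g') (hgg : g ≠ g')
    (P T : Fin 4 → ZMod 2)
    (hP : ∀ k, P k = P (k - 1) + (if k = g ∨ k = g' then 1 else 0))
    (hT : ∀ k, T k = T (k - 1) + (if k = 1 ∨ k = j then 1 else 0))
    (h0 : P 1 = 0) (h1 : P j = 0) (f h : Fin 4) (hf : f = g ∨ f = g - 1)
    (hh : h = g' ∨ h = g' - 1) : T f = T h := by
  have P0 := val_ite _ _ _ (hP 0)
  have P1 := val_ite _ _ _ (hP 1)
  have P2 := val_ite _ _ _ (hP 2)
  have P3 := val_ite _ _ _ (hP 3)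
  have T0 := val_ite _ _ _ (hT 0)
  have T1 := val_ite _ _ _ (hT 1)
  have T2 := val_ite _ _ _ (hT 2)
  have T3 := val_ite _ _ _ (hT 3)
  clear hP hT
  have a0 := congrArg ZMod.val h0
  have a1 := congrArg ZMod.val h1
  clear h0 h1
  apply ZMod.val_injective 2
  have v0 : ZMod.val (0 : ZMod 2) = 0 := rfl
  rw [v0] at a0 a1
  have s0 : (0 : Fin 4) - 1 = 3 := rfl
  have s1 : (1 : Fin 4) - 1 = 0 := rfl
  have s2 : (2 : Fin 4) - 1 = 1 := rfl
  have s3 : (3 : Fin 4) - 1 = 2 := rfl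
  rw [s0] at P0 T0
  rw [s1] at P1 T1
  rw [s2] at P2 T2
  rw [s3] at P3 T3
  have m0 : (T 0).val < 2 := ZMod.val_lt _
  have m1 : (T 1).val < 2 := ZMod.val_lt _
  have m2 : (T 2).val < 2 := ZMod.val_lt _
  have m3 : (T 3).val < 2 := ZMod.val_lt _
  rcases f4 j with rfl | rfl | rfl | rfl <;>
    rcases f4 g with rfl | rfl | rfl | rfl <;>
    rcases f4 g' with rfl | rfl | rfl | rfl <;>
    first
    | exact absurd rfl hij
    | exact absurd rfl hig
    | exact absurd rfl hjg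
    | exact absurd rfl hig'
    | exact absurd rfl hjg'
    | exact absurd rfl hgg
    | (simp (decide := true) only [s0, s1, s2, s3, if_true, if_false, or_true, true_or, or_false,
         false_or] at P0 P1 P2 P3 T0 T1 T2 T3 a0 a1 hf hh
       rcases hf with rfl | rfl <;> rcases hh with rfl | rfl <;> omega)

private theorem loq2 (j g g' : Fin 4) (hij : (2 : Fin 4) ≠ j) (hig : (2 : Fin 4) ≠ g)
    (hjg : j ≠ g) (hig' : (2 : Fin 4) ≠ g') (hjg' : j ≠ g') (hgg : g ≠ g')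
    (P T : Fin 4 → ZMod 2)
    (hP : ∀ k, P k = P (k - 1) + (if k = g ∨ k = g' then 1 else 0))
    (hT : ∀ k, T k = T (k - 1) + (if k = 2 ∨ k = j then 1 else 0))
    (h0 : P 2 = 0) (h1 : P j = 0) (f h : Fin 4) (hf : f = g ∨ f = g - 1)
    (hh : h = g' ∨ h = g' - 1) : T f = T h := by
  have P0 := val_ite _ _ _ (hP 0)
  have P1 := val_ite _ _ _ (hP 1)
  have P2 := val_ite _ _ _ (hP 2)
  have P3 := val_ite _ _ _ (hP 3)
  have T0 := val_ite _ _ _ (hT 0)
  have T1 := val_ite _ _ _ (hT 1)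
  have T2 := val_ite _ _ _ (hT 2)
  have T3 := val_ite _ _ _ (hT 3)
  clear hP hT
  have a0 := congrArg ZMod.val h0
  have a1 := congrArg ZMod.val h1
  clear h0 h1
  apply ZMod.val_injective 2
  have v0 : ZMod.val (0 : ZMod 2) = 0 := rfl
  rw [v0] at a0 a1
  have s0 : (0 : Fin 4) - 1 = 3 := rfl
  have s1 : (1 : Fin 4) - 1 = 0 := rfl
  have s2 : (2 : Fin 4) - 1 = 1 := rfl
  have s3 : (3 : Fin 4) - 1 = 2 := rfl
  rw [s0] at P0 T0
  rw [s1] at P1 T1
  rw [s2] at P2 T2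
  rw [s3] at P3 T3
  have m0 : (T 0).val < 2 := ZMod.val_lt _
  have m1 : (T 1).val < 2 := ZMod.val_lt _
  have m2 : (T 2).val < 2 := ZMod.val_lt _
  have m3 : (T 3).val < 2 := ZMod.val_lt _
  rcases f4 j with rfl | rfl | rfl | rfl <;>
    rcases f4 g with rfl | rfl | rfl | rfl <;>
    rcases f4 g' with rfl | rfl | rfl | rfl <;>
    first
    | exact absurd rfl hij
    | exact absurd rfl hig
    | exact absurd rfl hjg
    | exact absurd rfl hig'
    | exact absurd rfl hjg'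
    | exact absurd rfl hgg
    | (simp (decide := true) only [s0, s1, s2, s3, if_true, if_false, or_true, true_or, or_false,
         false_or] at P0 P1 P2 P3 T0 T1 T2 T3 a0 a1 hf hh
       rcases hf with rfl | rfl <;> rcases hh with rfl | rfl <;> omega)

private theorem loq3 (j g g' : Fin 4) (hij : (3 : Fin 4) ≠ j) (hig : (3 : Fin 4) ≠ g)
    (hjg : j ≠ g) (hig' : (3 : Fin 4) ≠ g') (hjg' : j ≠ g') (hgg : g ≠ g')
    (P T : Fin 4 → ZMod 2)
    (hP : ∀ k, P k = P (k - 1) + (if k = g ∨ k = g' then 1 else 0))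
    (hT : ∀ k, T k = T (k - 1) + (if k = 3 ∨ k = j then 1 else 0))
    (h0 : P 3 = 0) (h1 : P j = 0) (f h : Fin 4) (hf : f = g ∨ f = g - 1)
    (hh : h = g' ∨ h = g' - 1) : T f = T h := by
  have P0 := val_ite _ _ _ (hP 0)
  have P1 := val_ite _ _ _ (hP 1)
  have P2 := val_ite _ _ _ (hP 2)
  have P3 := val_ite _ _ _ (hP 3)
  have T0 := val_ite _ _ _ (hT 0)
  have T1 := val_ite _ _ _ (hT 1)
  have T2 := val_ite _ _ _ (hT 2)
  have T3 := val_ite _ _ _ (hT 3)
  clear hP hT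
  have a0 := congrArg ZMod.val h0
  have a1 := congrArg ZMod.val h1
  clear h0 h1
  apply ZMod.val_injective 2
  have v0 : ZMod.val (0 : ZMod 2) = 0 := rfl
  rw [v0] at a0 a1
  have s0 : (0 : Fin 4) - 1 = 3 := rfl
  have s1 : (1 : Fin 4) - 1 = 0 := rfl
  have s2 : (2 : Fin 4) - 1 = 1 := rfl
  have s3 : (3 : Fin 4) - 1 = 2 := rfl
  rw [s0] at P0 T0
  rw [s1] at P1 T1
  rw [s2] at P2 T2
  rw [s3] at P3 T3
  have m0 : (T 0).val < 2 := ZMod.val_lt _
  have m1 : (T 1).val < 2 := ZMod.val_lt _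
  have m2 : (T 2).val < 2 := ZMod.val_lt _
  have m3 : (T 3).val < 2 := ZMod.val_lt _
  rcases f4 j with rfl | rfl | rfl | rfl <;>
    rcases f4 g with rfl | rfl | rfl | rfl <;>
    rcases f4 g' with rfl | rfl | rfl | rfl <;>
    first
    | exact absurd rfl hij
    | exact absurd rfl hig
    | exact absurd rfl hjg
    | exact absurd rfl hig'
    | exact absurd rfl hjg'
    | exact absurd rfl hgg
    | (simp (decide := true) only [s0, s1, s2, s3, if_true, if_false, or_true, true_or, or_false,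
         false_or] at P0 P1 P2 P3 T0 T1 T2 T3 a0 a1 hf hh
       rcases hf with rfl | rfl <;> rcases hh with rfl | rfl <;> omega)

/-- finite check: `i`, `j` = the loop, `g`, `g'` = two gap edges -/
theorem loq (i j g g' : Fin 4) (hij : i ≠ j) (hig : i ≠ g) (hjg : j ≠ g) (hig' : i ≠ g')
    (hjg' : j ≠ g') (hgg : g ≠ g') (P T : Fin 4 → ZMod 2)
    (hP : ∀ k, P k = P (k - 1) + (if k = g ∨ k = g' then 1 else 0))
    (hT : ∀ k, T k = T (k - 1) + (if k = i ∨ k = j then 1 else 0))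
    (h0 : P i = 0) (h1 : P j = 0) (f h : Fin 4) (hf : f = g ∨ f = g - 1)
    (hh : h = g' ∨ h = g' - 1) : T f = T h := by
  rcases f4 i with rfl | rfl | rfl | rfl
  · exact loq0 j g g' hij hig hjg hig' hjg' hgg P T hP hT h0 h1 f h hf hh
  · exact loq1 j g g' hij hig hjg hig' hjg' hgg P T hP hT h0 h1 f h hf hh
  · exact loq2 j g g' hij hig hjg hig' hjg' hgg P T hP hT h0 h1 f h hf hh
  · exact loq3 j g g' hij hig hjg hig' hjg' hgg P T hP hT h0 h1 f h hf hh

/-! ## directions -/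

/-- the neighbour in the direction `k` (right, up, left, down) -/
def nb (p : Pt) (k : Fin 4) : Pt :=
  if k = 0 then (p.1 + 1, p.2) else if k = 1 then (p.1, p.2 + 1) else if k = 2 then (p.1 - 1, p.2)
  else (p.1, p.2 - 1)

/-- the face between the directions `k` and `k + 1` -/
def sec (p : Pt) (k : Fin 4) : Pt :=
  if k = 0 then (p.1, p.2) else if k = 1 then (p.1 - 1, p.2) else if k = 2 then (p.1 - 1, p.2 - 1)
  else (p.1, p.2 - 1)

theorem exists_nb {p n : Pt} (h : Adj p n) : ∃ k, n = nb p k := by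
  have h' := mem_nbrs.2 h
  simp only [nbrs, mem_insert, mem_singleton] at h'
  rcases h' with h | h | h | h
  · exact ⟨0, h⟩
  · exact ⟨2, h⟩
  · exact ⟨1, h⟩
  · exact ⟨3, h⟩

theorem adj_nb (p : Pt) (k : Fin 4) : Adj p (nb p k) := by
  rcases f4 k with rfl | rfl | rfl | rfl <;> simp [nb, Adj]

theorem nb_inj {p : Pt} {k l : Fin 4} (h : nb p k = nb p l) : k = l := by
  rcases f4 k with rfl | rfl | rfl | rfl <;> rcases f4 l with rfl | rfl | rfl | rfl <;>
    first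
    | rfl
    | (exfalso
       simp (decide := true) only [nb, if_true, if_false, Prod.mk.injEq] at h
       omega)

theorem beside {p f : Pt} {k : Fin 4} (h1 : f ∈ facesAt p) (h2 : f ∈ facesAt (nb p k)) :
    f = sec p k ∨ f = sec p (k - 1) := by
  have s0 : (0 : Fin 4) - 1 = 3 := rfl
  have s1 : (1 : Fin 4) - 1 = 0 := rfl
  have s2 : (2 : Fin 4) - 1 = 1 := rfl
  have s3 : (3 : Fin 4) - 1 = 2 := rfl
  obtain ⟨x, y⟩ := p
  obtain ⟨u, v⟩ := f
  rcases f4 k with rfl | rfl | rfl | rfl <;>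
    simp (decide := true) only [s0, s1, s2, s3, sec, nb, if_true, if_false, facesAt, mem_insert,
      mem_singleton, Prod.mk.injEq] at h1 h2 ⊢ <;> omega

theorem sec_mem (p : Pt) (k : Fin 4) : sec p k ∈ facesAt p ∧ sec p k ∈ facesAt (nb p k) := by
  obtain ⟨x, y⟩ := p
  rcases f4 k with rfl | rfl | rfl | rfl <;> refine ⟨?_, ?_⟩ <;>
    simp (decide := true) [sec, nb, facesAt]

theorem sec_mem' (p : Pt) (k : Fin 4) :
    sec p (k - 1) ∈ facesAt p ∧ sec p (k - 1) ∈ facesAt (nb p k) := by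
  have s0 : (0 : Fin 4) - 1 = 3 := rfl
  have s1 : (1 : Fin 4) - 1 = 0 := rfl
  have s2 : (2 : Fin 4) - 1 = 1 := rfl
  have s3 : (3 : Fin 4) - 1 = 2 := rfl
  obtain ⟨x, y⟩ := p
  rcases f4 k with rfl | rfl | rfl | rfl <;> refine ⟨?_, ?_⟩ <;>
    simp (decide := true) [s0, s1, s2, s3, sec, nb, facesAt]

theorem sec_step {a b : Pt → ZMod 2} (h : EvenSet a b) (p : Pt) (k : Fin 4) :
    par a (sec p k) = par a (sec p (k - 1)) + ev a b p (nb p k) := by
  have s0 : (0 : Fin 4) - 1 = 3 := rfl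
  have s1 : (1 : Fin 4) - 1 = 0 := rfl
  have s2 : (2 : Fin 4) - 1 = 1 := rfl
  have s3 : (3 : Fin 4) - 1 = 2 := rfl
  obtain ⟨x, y⟩ := p
  obtain ⟨r1, r2, r3, r4⟩ := round h x y
  have sw : ∀ u v w : ZMod 2, u = v + w → v = u + w := by decide
  rcases f4 k with rfl | rfl | rfl | rfl
  · rw [s0]
    show par a (x, y) = par a (x, y - 1) + ev a b (x, y) (x + 1, y)
    rw [ev_right]
    exact r4
  · rw [s1]
    show par a (x - 1, y) = par a (x, y) + ev a b (x, y) (x, y + 1)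
    rw [ev_up]
    exact sw _ _ _ r1
  · rw [s2]
    show par a (x - 1, y - 1) = par a (x - 1, y) + ev a b (x, y) (x - 1, y)
    rw [ev_left]
    exact sw _ _ _ r2
  · rw [s3]
    show par a (x, y - 1) = par a (x - 1, y - 1) + ev a b (x, y) (x, y - 1)
    rw [ev_down]
    exact r3

open Classical in
/-- **the vertex where a gap starts** -/
theorem vertex_gap {a b c d : Pt → ZMod 2} (hG : EvenSet a b) (hL : EvenSet c d)
    {p pm pp w : Pt} (h1 : Adj p pm) (h2 : Adj p pp) (h3 : Adj p w) (h12 : pm ≠ pp) (h13 : pm ≠ w)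
    (h23 : pp ≠ w)
    (hG' : ∀ n, Adj p n → ev a b p n = if n = pp ∨ n = w then 1 else 0)
    (hL' : ∀ n, Adj p n → ev c d p n = if n = pm ∨ n = pp then 1 else 0)
    (h0 : ∀ f ∈ facesAt p, f ∈ facesAt pm → par a f = 0) {f g : Pt}
    (hf : f ∈ facesAt p) (hf' : f ∈ facesAt w) (hg : g ∈ facesAt p) (hg' : g ∈ facesAt pp) :
    par a g + par c g = 1 + par c f := by
  obtain ⟨i, rfl⟩ := exists_nb h1
  obtain ⟨j, rfl⟩ := exists_nb h2
  obtain ⟨k, rfl⟩ := exists_nb h3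
  have hij : i ≠ j := fun h => h12 (by rw [h])
  have hik : i ≠ k := fun h => h13 (by rw [h])
  have hjk : j ≠ k := fun h => h23 (by rw [h])
  have key : ∀ f' h' : Fin 4, (f' = k ∨ f' = k - 1) → (h' = j ∨ h' = j - 1) →
      par a (sec p h') + par c (sec p h') = 1 + par c (sec p f') := by
    intro f' h' e1 e2
    refine loc i j k hij hik hjk (fun l => par a (sec p l)) (fun l => par c (sec p l)) ?_ ?_ ?_ ?_
      f' h' e1 e2
    · intro l
      rw [sec_step hG p l, hG' _ (adj_nb p l)]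
      congr 1
      by_cases e : l = j ∨ l = k
      · rw [if_pos e, if_pos (by rcases e with rfl | rfl; exacts [Or.inl rfl, Or.inr rfl])]
      · rw [if_neg e, if_neg (fun hh => e (hh.imp nb_inj nb_inj))]
    · intro l
      rw [sec_step hL p l, hL' _ (adj_nb p l)]
      congr 1
      by_cases e : l = i ∨ l = j
      · rw [if_pos e, if_pos (by rcases e with rfl | rfl; exacts [Or.inl rfl, Or.inr rfl])]
      · rw [if_neg e, if_neg (fun hh => e (hh.imp nb_inj nb_inj))]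
    · exact h0 _ (sec_mem p i).1 (sec_mem p i).2
    · exact h0 _ (sec_mem' p i).1 (sec_mem' p i).2
  rcases beside hf hf' with rfl | rfl <;> rcases beside hg hg' with rfl | rfl
  · exact key _ _ (Or.inl rfl) (Or.inl rfl)
  · exact key _ _ (Or.inl rfl) (Or.inr rfl)
  · exact key _ _ (Or.inr rfl) (Or.inl rfl)
  · exact key _ _ (Or.inr rfl) (Or.inr rfl)

open Classical in
/-- **a gap which returns to its starting vertex** -/
theorem vertex_gap2 {a b c d : Pt → ZMod 2} (hG : EvenSet a b) (hL : EvenSet c d)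
    {p pm pp w w' : Pt} (h1 : Adj p pm) (h2 : Adj p pp) (h3 : Adj p w) (h4 : Adj p w')
    (h12 : pm ≠ pp) (h13 : pm ≠ w) (h23 : pp ≠ w) (h14 : pm ≠ w') (h24 : pp ≠ w') (h34 : w ≠ w')
    (hG' : ∀ n, Adj p n → ev a b p n = if n = w ∨ n = w' then 1 else 0)
    (hL' : ∀ n, Adj p n → ev c d p n = if n = pm ∨ n = pp then 1 else 0)
    (h0 : ∀ f ∈ facesAt p, f ∈ facesAt pm → par a f = 0)
    (h0' : ∀ f ∈ facesAt p, f ∈ facesAt pp → par a f = 0) {f g : Pt}
    (hf : f ∈ facesAt p) (hf' : f ∈ facesAt w) (hg : g ∈ facesAt p) (hg' : g ∈ facesAt w') :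
    par c f = par c g := by
  obtain ⟨i, rfl⟩ := exists_nb h1
  obtain ⟨j, rfl⟩ := exists_nb h2
  obtain ⟨k, rfl⟩ := exists_nb h3
  obtain ⟨k', rfl⟩ := exists_nb h4
  have hij : i ≠ j := fun h => h12 (by rw [h])
  have hik : i ≠ k := fun h => h13 (by rw [h])
  have hjk : j ≠ k := fun h => h23 (by rw [h])
  have hik' : i ≠ k' := fun h => h14 (by rw [h])
  have hjk' : j ≠ k' := fun h => h24 (by rw [h])
  have hkk' : k ≠ k' := fun h => h34 (by rw [h])
  have key : ∀ f' h' : Fin 4, (f' = k ∨ f' = k - 1) → (h' = k' ∨ h' = k' - 1) →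
      par c (sec p f') = par c (sec p h') := by
    intro f' h' e1 e2
    refine loq i j k k' hij hik hjk hik' hjk' hkk' (fun l => par a (sec p l))
      (fun l => par c (sec p l)) ?_ ?_ ?_ ?_ f' h' e1 e2
    · intro l
      rw [sec_step hG p l, hG' _ (adj_nb p l)]
      congr 1
      by_cases e : l = k ∨ l = k'
      · rw [if_pos e, if_pos (by rcases e with rfl | rfl; exacts [Or.inl rfl, Or.inr rfl])]
      · rw [if_neg e, if_neg (fun hh => e (hh.imp nb_inj nb_inj))]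
    · intro l
      rw [sec_step hL p l, hL' _ (adj_nb p l)]
      congr 1
      by_cases e : l = i ∨ l = j
      · rw [if_pos e, if_pos (by rcases e with rfl | rfl; exacts [Or.inl rfl, Or.inr rfl])]
      · rw [if_neg e, if_neg (fun hh => e (hh.imp nb_inj nb_inj))]
    · exact h0 _ (sec_mem p i).1 (sec_mem p i).2
    · exact h0' _ (sec_mem p j).1 (sec_mem p j).2
  rcases beside hf hf' with rfl | rfl <;> rcases beside hg hg' with rfl | rfl
  · exact key _ _ (Or.inl rfl) (Or.inl rfl)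
  · exact key _ _ (Or.inl rfl) (Or.inr rfl)
  · exact key _ _ (Or.inr rfl) (Or.inl rfl)
  · exact key _ _ (Or.inr rfl) (Or.inr rfl)

end Vale.Agent.P155.NT34
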