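import Vale.Agent.P155.NT34.LowW
import Vale.Agent.P155.NT426.T1Def

/-!
# P155, NT: the lower bound at the first touching, in the form of `T1Def`
-/

namespace Vale.Agent.P155.NT34

open Vale.Agent.P155 G45 G S743 T802 T905 J Finset NT NT802 NT276 NT426 NT733 NT905 H12 Function

/-- the touching time is the time of `FirstIn` -/
theorem tU_N {T : Temp} {xS : ℤ} {ω : Conf} {q : Pt} {r k ri ro h n : ℕ} (hio : ri ≤ ro)
    (hen : eN T xS ω q r k ≤ n) (hnx : n < xN T xS ω q r k)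
    (hri : gN T xS ω n ∈ box q ri) (hnear : Near T xS ω q r k h n)
    (hfst : ∀ m, eN T xS ω q r k ≤ m → m < n →
      ¬ (gN T xS ω m ∈ box q ro ∧ Near T xS ω q r k h m)) :
    (tU T xS q r ro h k).N ω = n := by
  rw [Tm.uT_N]
  have hP : ∀ m, (Tm.p T.V xS ω m ∈ box q ro ∧ ∃ a, a ∉ OE T (Tm.En T.V xS ω
      (NT802.ent (Tm.M T.V xS ω) (Tm.p T.V xS ω) q (2 * r) (4 * r) k)) ∧
      dn (Tm.p T.V xS ω m) a ≤ h) ↔ (gN T xS ω m ∈ box q ro ∧ Near T xS ω q r k h m) :=
    fun m => Iff.rfl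
  apply le_antisymm
  · refine NT802.fst_min hen (Or.inl ((hP n).2 ⟨?_, hnear⟩))
    rw [← J.dn_le_iff] at hri ⊢
    omega
  · by_contra hc
    have hlt := not_le.1 hc
    obtain ⟨h1, h2⟩ := NT802.fst_mem (NT802.exi (Tm.M T.V xS ω) (Tm.p T.V xS ω) q (2 * r) (4 * r)
      (k + 1)) (fun m => Tm.p T.V xS ω m ∈ box q ro ∧ ∃ a, a ∉ OE T (Tm.En T.V xS ω
      (NT802.ent (Tm.M T.V xS ω) (Tm.p T.V xS ω) q (2 * r) (4 * r) k)) ∧
      dn (Tm.p T.V xS ω m) a ≤ h)
      (NT802.ent (Tm.M T.V xS ω) (Tm.p T.V xS ω) q (2 * r) (4 * r) k)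
    rcases h2 with h2 | h2
    · exact hfst _ h1 hlt ((hP _).1 h2)
    · have h3 : xN T xS ω q r k ≤ _ := h2
      omega

/-- **the lower bound at the first touching** -/
theorem lowP : LowP := by
  intro T xS ω q r r1 ri ro h k d Dr m a s e hω hr hx hrri hro1 hr1 hh hsep hF hDd hDm hm hria
    haro hs he
  obtain ⟨n, hen, hnx, hri, hnear, hfst⟩ := hF
  have hN := tU_N (ro := ro) (by omega) hen hnx hri hnear hfst
  have hxM : xN T xS ω q r k ≤ Tm.M T.V xS ω := exi_le _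
  have hk : (tE T.V xS q r k).N ω < Tm.M T.V xS ω := by
    rw [tE_N]
    change eN T xS ω q r k < _
    omega
  obtain ⟨h1, h2, h3⟩ := tU_facts (r' := ro) (h := h) hω hr hx hk
  have hE : (tU T xS q r ro h k).toStop.E ω = Ex' xS ω (Tm.tm T.V xS ω n) := by
    rw [Tm.GTime.toStop_E, hN]
    rfl
  have hL : (tE T.V xS q r k).toStop.L ω = LK xS ω (Tm.tm T.V xS ω) (Tm.M T.V xS ω) q r k := by
    unfold Stop.L LK
    rw [Tm.GTime.toStop_t, tE_N]
  have hO : OE T ((tE T.V xS q r k).toStop.E ω) = ON T xS ω q r k := by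
    rw [Tm.GTime.toStop_E, tE_N]
    rfl
  have hH := (tU T xS q r ro h k).toStop.Hf_spec ω
  have hm1 : 1 ≤ m := by
    by_contra hc
    have : m = 0 := by omega
    subst this
    norm_num at hm
  have hm3 : 1 ≤ m ^ 3 := Nat.one_le_pow _ _ hm1
  have hkey := low_walk (H := (tU T xS q r ro h k).toStop.Hf ω) hω hr hx hr1 hsep hen hnx hri hnear
    hfst (Dr := Dr) (b := 8 * h) (m := m) (a := a) (s := s) (e' := e) (by omega) (by omega)
    (by omega) hro1 (by omega) (by omega) hs he hm (by omega)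
    (by rw [← hE]; exact oe_finite T _)
    (fun x => ⟨hH.nonneg x, hH.le_one x⟩)
    (fun f hf => hH.1 f (by rw [hE]; exact hf))
    (fun f hf hs => by
      rw [hH.2 f (by rw [hE]; exact hf)]
      unfold Stop.bd
      rw [if_pos (by rw [h3, hL]; exact hs)])
    (fun f hf hs => by
      rw [hH.2 f (by rw [hE]; exact hf)]
      unfold Stop.bd
      rw [if_neg (by rw [h3, hL]; exact hs)])
  rw [hL]
  unfold FxU
  rw [hO]
  simp only [hE]
  exact hkey

end Vale.Agent.P155.NT34
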