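import Vale.Agent.P155.NT34.RingW
import Vale.Agent.P155.NT34.LassoP
import Vale.Agent.P155.NT733.Conn
import Vale.Agent.P155.NT276.Props

/-!
# P155, NT: the lower bound at a first touching, for the exploration
-/

namespace Vale.Agent.P155.NT34

open Vale.Agent.P155 T802 T905 J Finset NT NT802 NT276 NT426 NT733 Function

section

variable {T : Temp} {xS : ℤ} {ω : Conf} {q : Pt} {r k : ℕ}

/-- the position of the excursion `k` in the run of its loop -/
theorem exc_run (hω : ω ∈ DD T.V) (hr : 1 ≤ r) (hx : (16 * r : ℤ) ≤ |q.1 - xS|) {n : ℕ}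
    (hen : eN T xS ω q r k ≤ n) (hnx : n < xN T xS ω q r k) :
    ∀ j, eN T xS ω q r k + j ≤ n → Tm.tm T.V xS ω (eN T xS ω q r k + j) =
      ((Tm.tm T.V xS ω (eN T xS ω q r k)).1, (Tm.tm T.V xS ω (eN T xS ω q r k)).2 + j) := by
  have W := walk hω xS
  have hxM : xN T xS ω q r k ≤ Tm.M T.V xS ω := exi_le _
  obtain ⟨m, hm⟩ : ∃ m, n = eN T xS ω q r k + m := ⟨n - eN T xS ω q r k, by omega⟩
  intro j hj
  refine W.seg m (by omega) ?_ j (by omega)
  intro i h1 h2 h0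
  have h3 : Tm.tm T.V xS ω i = ((Tm.tm T.V xS ω i).1, 0) := Prod.ext rfl h0
  exact W.start_out (t := 0) hr hx h3 rfl (by
    change eN T xS ω q r k ≤ i
    omega) (by
    change i < xN T xS ω q r k
    omega)

/-- the loop of an excursion -/
theorem exc_loop (hω : ω ∈ DD T.V) (hr : 1 ≤ r) (hx : (16 * r : ℤ) ≤ |q.1 - xS|) {n : ℕ}
    (hen : eN T xS ω q r k ≤ n) (hnx : n < xN T xS ω q r k) :
    comp ω (xS, (Tm.tm T.V xS ω n).1) = LK xS ω (Tm.tm T.V xS ω) (Tm.M T.V xS ω) q r k := by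
  obtain ⟨m, rfl⟩ : ∃ m, n = eN T xS ω q r k + m := ⟨n - eN T xS ω q r k, by omega⟩
  rw [exc_run hω hr hx hen hnx m le_rfl]
  rfl

/-- the beginning of an excursion is at the boundary of the box -/
theorem ent_dn (hω : ω ∈ DD T.V) (hr : 1 ≤ r) (hx : (16 * r : ℤ) ≤ |q.1 - xS|)
    (hk : eN T xS ω q r k < Tm.M T.V xS ω) : 2 * r ≤ dn q (gN T xS ω (eN T xS ω q r k)) := by
  have W := walk hω xS
  obtain ⟨n0, hn0, hrun⟩ := W.pos hk
  obtain ⟨hsV, _, hi⟩ := W.valid _ hk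
  have hin : gN T xS ω (eN T xS ω q r k) ∈ box q (2 * r) :=
    ent_in (g := fun n => pt' xS ω (Tm.tm T.V xS ω n)) hk
  set n := eN T xS ω q r k with hn
  set t := (Tm.tm T.V xS ω n).1 with ht
  set i := (Tm.tm T.V xS ω n).2 with hi'
  have hgo : ∀ j < (comp ω (xS, t)).ncard, gN T xS ω (n0 + j) = go ω (xS, t) j := by
    intro j hj
    unfold gN
    rw [(hrun j hj).2]
    rfl
  have hi0 : i ≠ 0 := by
    intro h
    have h1 := hgo i hi
    rw [← hn0, h, go0] at h1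
    rw [h1, ← J.dn_le_iff] at hin
    have := dn_line (t := t) hx
    omega
  have hxk : xK xS ω (Tm.tm T.V xS ω) (Tm.M T.V xS ω) q r k ≤ n := exi_le_ent _
  have hne : xK xS ω (Tm.tm T.V xS ω) (Tm.M T.V xS ω) q r k ≠ n := by
    intro he
    rcases k with _ | k'
    · have h0 : xK xS ω (Tm.tm T.V xS ω) (Tm.M T.V xS ω) q r 0 = 0 := rfl
      rw [h0] at he
      omega
    · have h1 := exi_out (g := fun n => pt' xS ω (Tm.tm T.V xS ω n)) (N := Tm.M T.V xS ω) (q := q)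
        (r0 := 2 * r) (R := 4 * r) (k := k') (by
          change xK xS ω (Tm.tm T.V xS ω) (Tm.M T.V xS ω) q r (k' + 1) < _
          omega)
      have h2 : gN T xS ω (xK xS ω (Tm.tm T.V xS ω) (Tm.M T.V xS ω) q r (k' + 1)) ∉
        box q (4 * r) := h1
      rw [he, NT802.not_box] at h2
      rw [← J.dn_le_iff] at hin
      omega
  have hout := out_box (N := Tm.M T.V xS ω) (g := fun n => pt' xS ω (Tm.tm T.V xS ω n)) (q := q)
    (r0 := 2 * r) (R := 4 * r) (k := k) (i := n - 1) (by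
      change xK xS ω (Tm.tm T.V xS ω) (Tm.M T.V xS ω) q r k ≤ n - 1
      omega) (by
      change n - 1 < n
      omega)
  have h3 : gN T xS ω (n - 1) ∉ box q (2 * r) := hout
  rw [NT802.not_box, show n - 1 = n0 + (i - 1) by omega, hgo (i - 1) (by omega)] at h3
  have h4 := go_adj' hω hsV (i := i - 1) (by omega)
  rw [show i - 1 + 1 = i by omega] at h4
  have h5 := dn_adj (q := q) (L.adj_symm h4)
  have h6 := hgo i hi
  rw [← hn0] at h6
  rw [h6]
  omega

theorem z2_add_one {p c : ZMod 2} {Q : Prop} (h : p + ind Q = c) : (p = c + 1 → Q) ∧ (p = c → ¬ Q) := by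
  by_cases hQ : Q
  · rw [ind_true hQ] at h
    refine ⟨fun _ => hQ, fun h' => ?_⟩
    rw [h'] at h
    exfalso
    have key : ∀ c : ZMod 2, c + 1 ≠ c := by decide
    exact key c h
  · rw [ind_false hQ, add_zero] at h
    refine ⟨fun h' => ?_, fun _ => hQ⟩
    rw [h'] at h
    exfalso
    have key : ∀ c : ZMod 2, c + 1 ≠ c := by decide
    exact key c h

/-- **the lower bound at a first touching** -/
theorem low_walk (hω : ω ∈ DD T.V) (hr : 1 ≤ r) (hx : (16 * r : ℤ) ≤ |q.1 - xS|)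
    {r1 d ri ro h n : ℕ} (hr1 : r1 + 3 ≤ 2 * r) (hsep : SepN T xS ω q r k r1 d)
    (hen : eN T xS ω q r k ≤ n) (hnx : n < xN T xS ω q r k)
    (hri : gN T xS ω n ∈ box q ri) (hnear : Near T xS ω q r k h n)
    (hfst : ∀ m, eN T xS ω q r k ≤ m → m < n →
      ¬ (gN T xS ω m ∈ box q ro ∧ Near T xS ω q r k h m))
    {Dr b m a s e' : ℕ} (hh : 3 ≤ h) (hb : h + 3 ≤ b) (hro : ri + Dr + 1 ≤ ro) (hro1 : ro ≤ r1)
    (hDd : Dr ≤ d) (ha : ri + Dr ≤ a) (hs : 16 ≤ s) (he : 16 ≤ e') (hm : 384 ≤ Real.log m)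
    (hbm : b * m ^ 3 ≤ Dr + 1) (h2 : (OE T (Ex' xS ω (Tm.tm T.V xS ω n))).Finite) {H : Pt → ℝ}
    (h01 : ∀ x, 0 ≤ H x ∧ H x ≤ 1)
    (hlap : ∀ f ∈ OE T (Ex' xS ω (Tm.tm T.V xS ω n)), lap H f = 0)
    (hbd1 : ∀ f, f ∉ OE T (Ex' xS ω (Tm.tm T.V xS ω n)) →
      surr ω (LK xS ω (Tm.tm T.V xS ω) (Tm.M T.V xS ω) q r k) f → H f = 1)
    (hbd0 : ∀ f, f ∉ OE T (Ex' xS ω (Tm.tm T.V xS ω n)) →
      ¬ surr ω (LK xS ω (Tm.tm T.V xS ω) (Tm.M T.V xS ω) q r k) f → H f = 0) :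
    (Real.log m / 36 ≤ ∑ x ∈ h2.toFinset, wh (OE T (Ex' xS ω (Tm.tm T.V xS ω n)))
        (wS (ON T xS ω q r k)
          (fun f => ¬ surr ω (LK xS ω (Tm.tm T.V xS ω) (Tm.M T.V xS ω) q r k) f) q r1 a s e') x *
        H x) ∨
    (Real.log m / 36 ≤ ∑ x ∈ h2.toFinset, wh (OE T (Ex' xS ω (Tm.tm T.V xS ω n)))
        (wS (ON T xS ω q r k)
          (fun f => surr ω (LK xS ω (Tm.tm T.V xS ω) (Tm.M T.V xS ω) q r k) f) q r1 a s e') x *
        (1 - H x)) := by
  classical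
  have W := walk hω xS
  have hxM : xN T xS ω q r k ≤ Tm.M T.V xS ω := exi_le _
  have hk : eN T xS ω q r k < Tm.M T.V xS ω := by omega
  have hne := W.ne_exc hω hr hx hk
  obtain ⟨hsV, hsE, hi⟩ := W.valid _ hk
  have hrun := exc_run hω hr hx hen hnx
  have hdn0 := ent_dn hω hr hx hk
  obtain ⟨_, _, hi1⟩ := W.valid n (by omega)
  set L := LK xS ω (Tm.tm T.V xS ω) (Tm.M T.V xS ω) q r k with hL
  set e := eN T xS ω q r k with hedef
  obtain ⟨M, hM⟩ : ∃ M, n = e + M := ⟨n - e, by omega⟩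
  subst hM
  have hE0 : ON T xS ω q r k = OE T (Eti xS ω (Tm.tm T.V xS ω e).1 (Tm.tm T.V xS ω e).2) := rfl
  have hL' : L = comp ω (xS, (Tm.tm T.V xS ω e).1) := rfl
  have hEn : Ex' xS ω (Tm.tm T.V xS ω (e + M)) =
      Eti xS ω (Tm.tm T.V xS ω e).1 ((Tm.tm T.V xS ω e).2 + M) := by
    rw [hrun M le_rfl]
    rfl
  have hsepA : SepA (ON T xS ω q r k) (fun a => surr ω L a) q r1 d := hsep
  have hgN : ∀ j ≤ M, gN T xS ω (e + j) =
      go ω (xS, (Tm.tm T.V xS ω e).1) ((Tm.tm T.V xS ω e).2 + j) := by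
    intro j hj
    unfold gN
    rw [hrun j (by omega)]
    rfl
  rw [hrun M le_rfl] at hi1
  simp only at hi1
  generalize Ex' xS ω (Tm.tm T.V xS ω (e + M)) = E2 at hEn hlap hbd1 hbd0 h2 ⊢
  subst hEn
  have hdist : ∀ j ≤ M, Near T xS ω q r k h (e + j) ↔
      ∃ a, a ∉ ON T xS ω q r k ∧ dn (gN T xS ω (e + j)) a ≤ h := fun _ _ => Iff.rfl
  rw [← J.dn_le_iff] at hri
  rw [hgN M le_rfl] at hri
  have hdn0' := hdn0
  rw [show e = e + 0 from rfl, hgN 0 (by omega)] at hdn0'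
  simp only [add_zero] at hdn0'
  obtain ⟨a0, ha0, hda0⟩ := hnear
  rw [hgN M le_rfl] at hda0
  rw [hE0] at hsepA ha0 ⊢
  set t := (Tm.tm T.V xS ω e).1 with ht
  set i0 := (Tm.tm T.V xS ω e).2 with hi0
  have hne : ω.1 (xS, t) ≠ ω.2 (xS, t) := hne
  obtain ⟨v, hv⟩ : ∃ v : ℕ → Pt, v = fun j => go ω (xS, t) (i0 + j) := ⟨_, rfl⟩
  have hv' : ∀ j, v j = go ω (xS, t) (i0 + j) := fun j => by rw [hv]
  rw [← hv' M] at hri hda0
  rw [← add_zero i0, ← hv' 0] at hdn0'
  have hM1 : 1 ≤ M := by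
    rcases Nat.eq_zero_or_pos M with h0 | h0
    · rw [h0] at hri
      omega
    · exact h0
  have hnc : i0 + M < (comp ω (xS, t)).ncard := hi1
  have hsub : OE T (Eti xS ω t (i0 + M)) ⊆ OE T (Eti xS ω t i0) := by
    apply OE_anti
    rintro w (hw | ⟨j, hj, hw⟩)
    · exact Or.inl hw
    · exact Or.inr ⟨j, by omega, hw⟩
  obtain ⟨π, g, g', c, hRD, hg, hg', hg'O, hconst⟩ := ringData_of hω (A := comp ω (xS, t))
    ⟨_, hne, rfl⟩ (E := Eti xS ω t i0) (v := v) (M := M) (h := h) (Dr := Dr) (b := b)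
    (fun i j hi hj he => by
      rw [hv', hv'] at he
      have := NT.Go.go_inj hω hne (by omega) (by omega) he
      omega)
    (fun i _ => by
      rw [hv', hv', show i0 + (i + 1) = i0 + i + 1 by ring]
      exact NT.Go.go_adj hω hne _)
    (fun j _ => by rw [hv']; exact NT.Go.go_mem ω _ _)
    (fun j _ => by
      rw [hv', hv', hv', show i0 + (j + 1) = i0 + j + 1 by ring,
        show i0 + (j + 2) = i0 + j + 2 by ring]
      exact NT.Go.go_partners hω hne _)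
    (fun j hj => by
      rw [hv']
      rintro (h1 | h1)
      · exact go_notMem_Eti hω hne hsE (by omega) (by omega) h1
      · exact h1 (A1.mem_V.1 (NT.Go.go_mem_V hω hne _)).1)
    (fun y hy => by
      have h1 : v 0 ∈ SS T (Eti xS ω t i0) := Or.inl (Or.inr ⟨i0, le_rfl, by rw [hv']; rfl⟩)
      exact (NT733.conn hω hy).trans (NT733.conn hω h1).symm)
    hh hb (by
      have h1 : 1 ≤ m ^ 3 := by
        have : 1 ≤ m := by
          rcases Nat.eq_zero_or_pos m with h | h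
          · rw [h] at hm; norm_num at hm
          · exact h
        exact Nat.one_le_pow _ _ this
      have h2 : 2 ≤ m ^ 3 := by
        have : 2 ≤ m := by
          by_contra hc
          have : m = 0 ∨ m = 1 := by omega
          rcases this with h | h <;> rw [h] at hm <;> norm_num at hm
        calc 2 ≤ 2 ^ 3 := by norm_num
          _ ≤ m ^ 3 := Nat.pow_le_pow_left this 3
      nlinarith) hM1
    (by
      have := H904.dn_spec q (v M)
      have h1 := NT34.dn_tr q (v M) (v 0)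
      omega)
    ⟨a0, ha0, hda0⟩
    (by
      intro j hj hjd a' ha'
      by_contra hc
      refine hfst (e + j) (by omega) (by omega) ⟨?_, a', ha', ?_⟩
      · rw [← J.dn_le_iff, hgN j hj.le, ← hv' j]
        have h1 := NT34.dn_tr q (v M) (v j)
        omega
      · rw [hgN j hj.le, ← hv' j]
        omega)
  have hU : ∀ f ∈ OE T (Eti xS ω t i0), (∀ i ≤ M, v i ∉ T802.corners f) →
      f ∈ OE T (Eti xS ω t (i0 + M)) := by
    rintro f ⟨h3, h4⟩ h5
    refine ⟨h3, ?_⟩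
    rintro ⟨w, hw, hwE⟩
    rcases hwE with h6 | ⟨j, hj, h6⟩
    · exact h4 ⟨w, hw, Or.inl h6⟩
    · rcases Nat.lt_or_ge i0 j with h7 | h7
      · refine h5 (j - i0) (by omega) ?_
        rw [hv', show i0 + (j - i0) = j by omega, ← h6]
        exact hw
      · exact h4 ⟨w, hw, Or.inr ⟨j, h7, h6⟩⟩
  have htouch : ∀ f, ∀ i ≤ M, v i ∈ T802.corners f → f ∉ OE T (Eti xS ω t (i0 + M)) := by
    rintro f i hi hf ⟨_, h4⟩
    exact h4 ⟨v i, hf, Or.inr ⟨i0 + i, by omega, hv' i⟩⟩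
  have hmid : ∀ f ∈ Cls (OE T (Eti xS ω t i0)) (v M) Dr (v M), ∀ i ≤ M, v i ∈ T802.corners f →
      b < dn (v M) f → π f + ind (surr ω (comp ω (xS, t)) f) = c := by
    intro f hf i hi hif hbf
    have hfd : dn (v M) f ≤ Dr := by
      have h3 := (hRD.far M le_rfl (v M) hRD.f0 (by
        have := H904.dn_spec (v M) (v M)
        omega)).1
      exact (cls_mem h3 (by
        have := H904.dn_spec (v M) (v M)
        omega) hf).2
    have h0 : i ≠ 0 := by
      rintro rfl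
      have := hRD.start f hif
      omega
    have h1 : i ≠ M := by
      rintro rfl
      have := NT34.dn_corner hif
      omega
    obtain ⟨j, rfl⟩ : ∃ j, i = j + 1 := ⟨i - 1, by omega⟩
    exact hconst j (by omega) f hif
  by_cases hP : surr ω (comp ω (xS, t)) g'
  · right
    refine low_touch (c := c) hsepA hDd ?_ ?_ hs he hRD (by omega) hm hbm h2 hsub hU hg hg' hg'O hP
      (fun x => ⟨by have := (h01 x).2; linarith, by have := (h01 x).1; linarith⟩) ?_ ?_ ?_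
    · omega
    · omega
    · intro x hx
      rw [G45.lap_sub, G45.lap_const, hlap x hx, sub_zero]
    · intro y hy hPy
      rw [hbd1 y (fun h => hy (hsub h)) hPy, sub_self]
    · intro f hf i hi hif hbf hπ
      rw [hbd0 f (htouch f i hi hif) ((z2_add_one (hmid f hf i hi hif hbf)).2 hπ), sub_zero]
  · left
    refine low_touch (c := c + 1) hsepA.not hDd ?_ ?_ hs he hRD (by omega) hm hbm h2 hsub hU hg hg'
      hg'O hP h01 hlap ?_ ?_
    · omega
    · omega
    · intro y hy hPy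
      exact hbd0 y (fun h => hy (hsub h)) hPy
    · intro f hf i hi hif hbf hπ
      exact hbd1 f (htouch f i hi hif) ((z2_add_one (hmid f hf i hi hif hbf)).1 hπ)

end

end Vale.Agent.P155.NT34
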