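import Vale.Agent.P155.NT34.CloseG
import Vale.Agent.P155.NT426.Low

/-!
# P155, NT: the ring data of a path which comes near the old boundary for the first time
-/

namespace Vale.Agent.P155.NT34

open Vale.Agent.P155 T802 Finset NT733 NT H904

theorem dn_corner {f p : Pt} (h : p ∈ T802.corners f) : dn p f ≤ 1 := by
  rw [NT.mem_corners'] at h
  rw [NT.dn_le_iff']
  push_cast
  omega

theorem dn_sym (x y : Pt) : dn x y = dn y x := by
  have h1 := dn_spec x y
  have h2 := dn_spec y x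
  omega

theorem dn_tr (x y z : Pt) : dn x z ≤ dn x y + dn y z := by
  have h1 := dn_spec x z
  have h2 := dn_spec x y
  have h3 := dn_spec y z
  omega

theorem dn_nb {x y : Pt} (h : y ∈ nbrs x) : dn x y ≤ 1 := by
  rw [mem_nbrs, NT.adj_iff'] at h
  rw [NT.dn_le_iff']
  push_cast
  omega

/-- a point of the rectangle spanned by `y` and `z` is as near to a face around `y` as `z` -/
theorem rc_face {y z w a : Pt} {h : ℕ} (ha : y ∈ T802.corners a) (hz : dn z a ≤ h)
    (hw : Rc y z w) : ∃ a', y ∈ T802.corners a' ∧ dn w a' ≤ h := by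
  rw [NT.mem_corners'] at ha
  rw [NT.dn_le_iff'] at hz
  refine ⟨(if y.1 ≤ w.1 then y.1 else y.1 - 1, if y.2 ≤ w.2 then y.2 else y.2 - 1), ?_, ?_⟩
  · rw [NT.mem_corners']
    split_ifs <;> simp only <;> omega
  · rw [NT.dn_le_iff']
    unfold Rc at hw
    split_ifs <;> simp only <;> omega

theorem rc_dn {y z w a : Pt} {h : ℕ} (ha : y ∈ T802.corners a) (hz : dn z a ≤ h)
    (hw : Rc y z w) : dn z w ≤ h + 1 := by
  rw [NT.mem_corners'] at ha
  rw [NT.dn_le_iff'] at hz ⊢
  unfold Rc at hw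
  push_cast
  omega

/-- from a free face to a face next to a wall -/
theorem exists_wall {O : Set Pt} {z0 : Pt} {Dr h : ℕ} (hD : h ≤ Dr) {a : Pt}
    (haO : a ∉ O) (ha : dn z0 a ≤ h) : ∀ (k : ℕ) (g : Pt),
    (g.1 - a.1).natAbs + (g.2 - a.2).natAbs = k → g ∈ O → dn z0 g ≤ h → g ∈ Cls O z0 Dr z0 →
    ∃ g1 g' : Pt, g1 ∈ Cls O z0 Dr z0 ∧ g' ∈ nbrs g1 ∧ g' ∉ O := by
  intro k
  induction k with
  | zero =>
    intro g hk hg _ _
    exfalso
    have : g = a := Prod.ext (by omega) (by omega)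
    exact haO (this ▸ hg)
  | succ k ih =>
    intro g hk hg hgh hgc
    have : ∃ w : Pt, w ∈ nbrs g ∧ (w.1 - a.1).natAbs + (w.2 - a.2).natAbs = k ∧ dn z0 w ≤ h := by
      rw [NT.dn_le_iff'] at ha hgh
      obtain ⟨g1, g2⟩ := g
      obtain ⟨a1, a2⟩ := a
      simp only at hk ha hgh ⊢
      by_cases h1 : g1 < a1
      · refine ⟨(g1 + 1, g2), ?_, by simp only; omega, ?_⟩
        · exact mem_nbrs.2 (by simp [Adj])
        · rw [NT.dn_le_iff']; simp only; omega
      · by_cases h2 : a1 < g1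
        · refine ⟨(g1 - 1, g2), ?_, by simp only; omega, ?_⟩
          · exact mem_nbrs.2 (by simp [Adj])
          · rw [NT.dn_le_iff']; simp only; omega
        · by_cases h3 : g2 < a2
          · refine ⟨(g1, g2 + 1), ?_, by simp only; omega, ?_⟩
            · exact mem_nbrs.2 (by simp [Adj])
            · rw [NT.dn_le_iff']; simp only; omega
          · refine ⟨(g1, g2 - 1), ?_, by simp only; omega, ?_⟩
            · exact mem_nbrs.2 (by simp [Adj])
            · rw [NT.dn_le_iff']; simp only; omega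
    obtain ⟨w, h1, h2, h3⟩ := this
    by_cases hw : w ∈ O
    · exact ih w h2 hw h3 (cls_step hgc h1 hw (h3.trans hD))
    · exact ⟨g, w, hgc, h1, hw⟩

/-- **the ring data at a first touching** -/
theorem ringData_of {T : Temp} {V : Finset Pt} {ω : Conf} (hω : ω ∈ DD V) {A : Set Pt}
    (hA : A ∈ Loops ω) {E : Set Pt} {v : ℕ → Pt} {M : ℕ}
    (hinj : ∀ i j, i ≤ M → j ≤ M → v i = v j → i = j)
    (hadj : ∀ i < M, Adj (v i) (v (i + 1)))
    (hvL : ∀ j, j + 1 < M → v (j + 1) ∈ A)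
    (hpart : ∀ j, j + 1 < M → (ω.1 (v (j + 1)) = v (j + 2) ∧ ω.2 (v (j + 1)) = v j) ∨
      (ω.1 (v (j + 1)) = v j ∧ ω.2 (v (j + 1)) = v (j + 2)))
    (hvS : ∀ j, j + 1 < M → v (j + 1) ∉ SS T E)
    (hconn : ∀ y ∈ SS T E, Linked (fun u w => u ∈ SS T E ∧ w ∈ SS T E) y (v 0))
    {h Dr b : ℕ} (hh : 3 ≤ h) (hb : h + 3 ≤ b) (hbD : b ≤ Dr) (hM : 1 ≤ M)
    (hstart : Dr + 1 < dn (v M) (v 0))
    (hnear : ∃ a, a ∉ OE T E ∧ dn (v M) a ≤ h)
    (hfirst : ∀ j < M, dn (v M) (v j) ≤ Dr + 1 → ∀ a, a ∉ OE T E → h < dn (v j) a) :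
    ∃ (π : Pt → ZMod 2) (g g' : Pt) (c : ZMod 2),
      RingData (OE T E) (v M) b Dr (v M) v M π ∧ g ∈ Cls (OE T E) (v M) Dr (v M) ∧
      g' ∈ nbrs g ∧ g' ∉ OE T E ∧
      ∀ j, j + 1 < M → ∀ f, v (j + 1) ∈ T802.corners f → π f + ind (surr ω A f) = c := by
  obtain ⟨a, ha, hda⟩ := hnear
  obtain ⟨y, hya, hyS⟩ := exists_corner ha
  obtain ⟨ca, cb, hc⟩ := exists_closedG (G := Rc y (v M)) (hconn y hyS)
    (gap_rc y (v M) _ (v M) rfl (rc_right _ _)) hinj hadj
  have hG : ∀ j < M, ¬ Rc y (v M) (v j) := by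
    intro j hj hr
    have h1 := rc_dn hya hda hr
    obtain ⟨a', ha', hd'⟩ := rc_face hya hda hr
    have h2 := hfirst j hj (by omega) a' (notMem_OE_of ha' hyS)
    omega
  obtain ⟨c, hconst⟩ := type_constG hc hω hA hinj hadj hvL hpart hvS (fun j hj => hG _ hj)
  -- distance of the tip
  have htipd : ∀ a', a' ∉ OE T E → h ≤ dn (v M) a' := by
    intro a' ha'
    have h1 := hadj (M - 1) (by omega)
    rw [show M - 1 + 1 = M by omega] at h1
    have h2 : dn (v M) (v (M - 1)) ≤ 1 := by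
      rw [dn_sym]
      exact dn_nb (mem_nbrs.2 h1)
    have h3 := hfirst (M - 1) (by omega) (by omega) a' ha'
    have h4 := dn_tr (v (M - 1)) (v M) a'
    rw [dn_sym] at h2
    omega
  have hfar : ∀ i ≤ M, ∀ f, v i ∈ T802.corners f → dn (v M) f ≤ Dr →
      f ∈ OE T E ∧ ∀ f' ∈ nbrs f, dn (v M) f' ≤ Dr → f' ∈ OE T E := by
    intro i hi f hf hfd
    have key : ∀ a', dn (v i) a' ≤ 2 → a' ∈ OE T E := by
      intro a' ha'
      by_contra hn
      rcases Nat.lt_or_ge i M with h1 | h1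
      · have h2 := dn_tr (v M) f (v i)
        have h3 := dn_corner hf
        rw [dn_sym] at h3
        have h4 := hfirst i h1 (by omega) a' hn
        omega
      · have e : i = M := by omega
        have := htipd a' hn
        rw [e] at ha'
        omega
    have h3 := dn_corner hf
    refine ⟨key f (by omega), fun f' hf' _ => key f' ?_⟩
    have h4 := dn_tr (v i) f f'
    have h5 := dn_nb hf'
    omega
  have hself : v M ∈ T802.corners (v M) := exists_face (v M)
  have hf0 : v M ∈ OE T E := (hfar M le_rfl (v M) hself (by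
    have := dn_spec (v M) (v M)
    omega)).1
  have hRD : RingData (OE T E) (v M) b Dr (v M) v M (par ca) := by
    refine ⟨hinj, hadj, ?_, ?_, hself, hfar, ?_⟩
    · intro f hf
      have h1 := dn_corner hf
      have h2 := dn_tr (v M) f (v 0)
      rw [dn_sym] at h1
      omega
    · intro f hf
      have := dn_corner hf
      omega
    · intro f f' hff hf hf' hb1 _ hb2 _
      refine flipG hc hadj hff hf hf' ?_
      intro p hp _ hr
      have h1 := rc_dn hya hda hr
      have h2 := dn_corner hp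
      have h3 := dn_tr (v M) p f
      omega
  obtain ⟨g, g', h1, h2, h3⟩ := exists_wall (O := OE T E) (z0 := v M) (Dr := Dr) (h := h)
    (by omega) ha hda _ (v M) rfl hf0 (by
      have := dn_spec (v M) (v M)
      omega) Relation.ReflTransGen.refl
  exact ⟨par ca, g, g', c, hRD, h1, h2, h3, hconst⟩

end Vale.Agent.P155.NT34
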