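import Vale.Agent.P155.NT34.CloseG
import Vale.Agent.P155.NT802.Sep
import Vale.Agent.P155.H904.Dist

/-!
# P155, NT, block US (ii): short closed curves along a path which stays near the walls

`W` = wall vertices (connected), `v 0, …, v M` = a path of free vertices, each of which is at
distance at most `h` of `W`.
-/

namespace Vale.Agent.P155.NT34

open Vale.Agent.P155 T802 Finset NT733 NT802 H904

/-- `ℓ¹` distance -/
def l1 (x y : Pt) : ℕ := (x.1 - y.1).natAbs + (x.2 - y.2).natAbs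

theorem rc_l1 {w x u : Pt} (h : Rc w x u) (hne : u ≠ w) : l1 x u < l1 x w := by
  have : ¬ (u.1 = w.1 ∧ u.2 = w.2) := fun h' => hne (Prod.ext h'.1 h'.2)
  unfold Rc at h
  unfold l1
  omega

theorem rc_dn_le {w x u : Pt} (h : Rc w x u) : dn x u ≤ dn x w := by
  have h1 := dn_spec x u
  have h2 := dn_spec x w
  unfold Rc at h
  omega

theorem dn_adj1 {x y : Pt} (h : Adj x y) : dn x y ≤ 1 := by
  have h1 := dn_spec x y
  have h2 := adj_coord h
  omega

/-- the rectangle without the corner `w` is connected -/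
theorem rect_conn {w x : Pt} (_hwx : x ≠ w) : ∀ (k : ℕ) (u : Pt), l1 u x = k →
    Rc w x u → u ≠ w → Conn {u | Rc w x u ∧ u ≠ w} x u := by
  intro k
  induction k with
  | zero =>
    intro u hk h1 h2
    have : u = x := Prod.ext (by unfold l1 at hk; omega) (by unfold l1 at hk; omega)
    subst this
    exact Conn.refl ⟨h1, h2⟩
  | succ k ih =>
    intro u hk h1 h2
    have : ∃ u' : Pt, Adj u' u ∧ l1 u' x = k ∧ Rc w x u' := by
      obtain ⟨u1, u2⟩ := u
      unfold Rc l1 at *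
      simp only at hk h1 ⊢
      by_cases c1 : u1 < x.1
      · exact ⟨(u1 + 1, u2), by simp [Adj], by simp only; omega, by simp only; omega⟩
      · by_cases c2 : x.1 < u1
        · exact ⟨(u1 - 1, u2), by simp [Adj], by simp only; omega, by simp only; omega⟩
        · by_cases c3 : u2 < x.2
          · exact ⟨(u1, u2 + 1), by simp [Adj], by simp only; omega, by simp only; omega⟩
          · exact ⟨(u1, u2 - 1), by simp [Adj], by simp only; omega, by simp only; omega⟩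
    obtain ⟨u', a1, a2, a3⟩ := this
    have hne : u' ≠ w := by
      rintro rfl
      have h3 := rc_l1 h1 h2
      unfold l1 at *
      omega
    exact (ih u' a2 a3 hne).trans (Conn.step ⟨a3, hne⟩ ⟨h1, h2⟩ a1)

/-- **the way to the nearest wall vertex** -/
theorem near_wall {W : Set Pt} {x : Pt} {h : ℕ} (hx : x ∉ W) (hw : ∃ w ∈ W, dn x w ≤ h) :
    ∃ (w : Pt) (κ : Set Pt), w ∈ W ∧ dn x w ≤ h ∧ x ∈ κ ∧
      (∀ u ∈ κ, u ∉ W ∧ dn x u ≤ h ∧ Conn κ x u) ∧ (∃ u ∈ κ, Adj u w) ∧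
      Linked (fun u u' => (u ∈ κ ∨ u ∈ W) ∧ (u' ∈ κ ∨ u' ∈ W) ∧ dn x u ≤ h ∧ dn x u' ≤ h) x w := by
  classical
  have hex : ∃ k, ∃ w ∈ W, dn x w ≤ h ∧ l1 x w = k := by
    obtain ⟨w, h1, h2⟩ := hw
    exact ⟨_, w, h1, h2, rfl⟩
  obtain ⟨w, hwW, hwd, hwk⟩ := Nat.find_spec hex
  have hmin : ∀ u ∈ W, dn x u ≤ h → l1 x w ≤ l1 x u := by
    intro u hu hud
    rw [hwk]
    exact Nat.find_min' hex ⟨u, hu, hud, rfl⟩
  have hxw : x ≠ w := fun h => hx (h ▸ hwW)
  have hfree : ∀ u, Rc w x u → u ≠ w → u ∉ W := by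
    intro u h1 h2 h3
    have := hmin u h3 ((rc_dn_le h1).trans hwd)
    have := rc_l1 h1 h2
    omega
  refine ⟨w, {u | Rc w x u ∧ u ≠ w}, hwW, hwd, ⟨rc_right _ _, hxw⟩, ?_, ?_, ?_⟩
  · rintro u ⟨h1, h2⟩
    exact ⟨hfree u h1 h2, (rc_dn_le h1).trans hwd, rect_conn hxw _ u rfl h1 h2⟩
  · have : ¬ (x.1 = w.1 ∧ x.2 = w.2) := fun h' => hxw (Prod.ext h'.1 h'.2)
    clear hmin hfree hex hwk
    obtain ⟨w1, w2⟩ := w
    simp only at this
    by_cases c1 : w1 < x.1
    · exact ⟨(w1 + 1, w2), ⟨by unfold Rc; simp only; omega, by simp⟩, by simp [Adj]⟩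
    · by_cases c2 : x.1 < w1
      · exact ⟨(w1 - 1, w2), ⟨by unfold Rc; simp only; omega, by simp⟩, by simp [Adj]⟩
      · by_cases c3 : w2 < x.2
        · exact ⟨(w1, w2 + 1), ⟨by unfold Rc; simp only; omega, by simp⟩, by simp [Adj]⟩
        · exact ⟨(w1, w2 - 1), ⟨by unfold Rc; simp only; omega, by simp⟩, by simp [Adj]⟩
  · refine (gap_rc w x _ x rfl (rc_right _ _)).mono ?_
    rintro u u' ⟨h1, h2⟩
    have key : ∀ u, Rc w x u → (u ∈ {u | Rc w x u ∧ u ≠ w} ∨ u ∈ W) := by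
      intro u h3
      by_cases h4 : u = w
      · right; rw [h4]; exact hwW
      · left; exact ⟨h3, h4⟩
    exact ⟨key u h1, key u' h2, (rc_dn_le h1).trans hwd, (rc_dn_le h2).trans hwd⟩

/-- parities of a finite sum -/
theorem par_sum {a : ℕ → Pt → ZMod 2} {M : ℕ} (h : ∀ i < M, ∃ N : ℤ, ∀ v : Pt, v.1 < N → a i v = 0)
    (f : Pt) : par (fun v => ∑ i ∈ range M, a i v) f = ∑ i ∈ range M, par (a i) f := by
  have key : ∀ M' ≤ M, (∃ N : ℤ, ∀ v : Pt, v.1 < N → ∑ i ∈ range M', a i v = 0) ∧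
      par (fun v => ∑ i ∈ range M', a i v) f = ∑ i ∈ range M', par (a i) f := by
    intro M'
    induction M' with
    | zero =>
      intro _
      refine ⟨⟨0, fun v _ => by simp⟩, ?_⟩
      simp only [sum_range_zero]
      have h0 : ∀ v : Pt, v.1 < (0 : ℤ) → (fun _ : Pt => (0 : ZMod 2)) v = 0 := fun _ _ => rfl
      rw [par_eq (a := fun _ : Pt => (0 : ZMod 2)) h0]
      simp
    | succ M' ih =>
      intro hM'
      obtain ⟨⟨N, hN⟩, h2⟩ := ih (by omega)
      obtain ⟨N', hN'⟩ := h M' (by omega)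
      refine ⟨⟨min N N', fun v hv => ?_⟩, ?_⟩
      · rw [sum_range_succ, hN v (by omega), hN' v (by omega), add_zero]
      · have e : (fun v => ∑ i ∈ range (M' + 1), a i v) =
          fun v => (∑ i ∈ range M', a i v) + a M' v := by
          funext v
          rw [sum_range_succ]
        rw [e, NT733.par_add hN hN', h2, sum_range_succ]
  exact (key M le_rfl).2

theorem even_sum {a b : ℕ → Pt → ZMod 2} {M : ℕ} (h : ∀ i < M, EvenSet (a i) (b i)) :
    EvenSet (fun v => ∑ i ∈ range M, a i v) (fun v => ∑ i ∈ range M, b i v) := by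
  have key : ∀ M' ≤ M, EvenSet (fun v => ∑ i ∈ range M', a i v) (fun v => ∑ i ∈ range M', b i v) := by
    intro M'
    induction M' with
    | zero =>
      intro _
      simp only [sum_range_zero]
      exact (Chain.zero (fun _ _ => True) (0, 0)).even
    | succ M' ih =>
      intro hM'
      have := NT733.EvenSet.add (ih (by omega)) (h M' (by omega))
      simp only [sum_range_succ]
      exact this
  exact key M le_rfl

/-- an even edge set without edges at the vertices of `S` has constant parity along `S` -/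
theorem par_conn {a b : Pt → ZMod 2} (hE : EvenSet a b) {S : Set Pt}
    (ha : ∀ p, a p ≠ 0 → p ∉ S ∧ (p.1, p.2 + 1) ∉ S)
    (hb : ∀ p, b p ≠ 0 → p ∉ S ∧ (p.1 + 1, p.2) ∉ S) {x z : Pt} (h : Conn S x z) :
    par a x = par a z := by
  have hv : ∀ q ∈ S, ∀ f f', q ∈ T802.corners f → q ∈ T802.corners f' → par a f = par a f' := by
    intro q hq f f' hf hf'
    refine par_around hE (q := q) ?_ ?_ ?_ ?_ (mem_facesAt.2 hf) (mem_facesAt.2 hf')
    · by_contra h1; exact (ha q h1).1 hq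
    · by_contra h1
      have := (ha _ h1).2
      simp only [sub_add_cancel] at this
      exact this hq
    · by_contra h1; exact (hb q h1).1 hq
    · by_contra h1
      have := (hb _ h1).2
      simp only [sub_add_cancel] at this
      exact this hq
  have hself : ∀ q : Pt, q ∈ T802.corners q := fun q => by rw [NT733.mem_corners]; simp
  obtain ⟨hx, hp⟩ := h
  have key : ∀ z, Relation.ReflTransGen (fun a b => Adj a b ∧ b ∈ S) x z → z ∈ S ∧
      par a x = par a z := by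
    intro z hz
    induction hz with
    | refl => exact ⟨hx, rfl⟩
    | @tail p p' _ hs ih =>
      refine ⟨hs.2, ih.2.trans ?_⟩
      have hA := mem_nbrs.2 hs.1
      have : ∃ g, p ∈ T802.corners g ∧ p' ∈ T802.corners g := by
        obtain ⟨s, t⟩ := p
        simp only [nbrs, mem_insert, mem_singleton] at hA
        rcases hA with rfl | rfl | rfl | rfl
        · exact ⟨(s, t), by simp [NT733.mem_corners], by simp [NT733.mem_corners]⟩
        · exact ⟨(s - 1, t), by simp [NT733.mem_corners], by simp [NT733.mem_corners]⟩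
        · exact ⟨(s, t), by simp [NT733.mem_corners], by simp [NT733.mem_corners]⟩
        · exact ⟨(s, t - 1), by simp [NT733.mem_corners], by simp [NT733.mem_corners]⟩
      obtain ⟨g, g1, g2⟩ := this
      rw [hv p ih.1 p g (hself p) g1, hv p' hs.2 g p' g2 (hself p')]
  exact (key z hp).2

theorem z2_tele (G : ℕ → ZMod 2) (M : ℕ) :
    ∑ i ∈ range M, (G i + G (i + 1)) = G 0 + G M := by
  induction M with
  | zero => simp [z2]
  | succ M ih =>
    rw [sum_range_succ, ih]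
    have : G 0 + G M + (G M + G (M + 1)) = G 0 + G (M + 1) + (G M + G M) := by ring
    rw [this, z2, add_zero]

/-- **(ii)** -/
theorem small_curves {W : Set Pt}
    (hW : ∀ w ∈ W, ∀ w' ∈ W, Linked (fun u u' => u ∈ W ∧ u' ∈ W) w w')
    {v : ℕ → Pt} {M h : ℕ} (hadj : ∀ i < M, Adj (v i) (v (i + 1))) (hv : ∀ i ≤ M, v i ∉ W)
    (hnear : ∀ i ≤ M, ∃ w ∈ W, dn (v i) w ≤ h) :
    ∃ (κ : ℕ → Set Pt) (a b : Pt → ZMod 2), EvenSet a b ∧
      (∀ p : Pt, (p ∉ W ∨ (p.1, p.2 + 1) ∉ W) → (h < dn (v 0) p ∨ h < dn (v 0) (p.1, p.2 + 1)) →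
        (h < dn (v M) p ∨ h < dn (v M) (p.1, p.2 + 1)) → a p = pathA v M p) ∧
      (∀ p : Pt, (p ∉ W ∨ (p.1 + 1, p.2) ∉ W) → (h < dn (v 0) p ∨ h < dn (v 0) (p.1 + 1, p.2)) →
        (h < dn (v M) p ∨ h < dn (v M) (p.1 + 1, p.2)) → b p = pathB v M p) ∧
      (∀ i < M, v i ∈ κ i ∧ v (i + 1) ∈ κ i ∧
        (∀ u ∈ κ i, u ∉ W ∧ dn (v i) u ≤ h + 1 ∧ Conn (κ i) (v i) u) ∧
        ∃ u ∈ κ i, ∃ w ∈ W, Adj u w) ∧
      ∀ z v1 : Pt, z ∉ W → v1 ∉ W → par a z ≠ par a v1 → ∃ i < M, z ∈ κ i ∨ v1 ∈ κ i ∨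
        ¬ Conn {x | x ∉ W ∧ x ∉ κ i} v1 z := by
  classical
  have hnw : ∀ i, ∃ (w : Pt) (κ : Set Pt) (ga gb : Pt → ZMod 2), i ≤ M → w ∈ W ∧
      dn (v i) w ≤ h ∧ v i ∈ κ ∧ (∀ u ∈ κ, u ∉ W ∧ dn (v i) u ≤ h ∧ Conn κ (v i) u) ∧
      (∃ u ∈ κ, Adj u w) ∧ Chain (fun u u' => (u ∈ κ ∨ u ∈ W) ∧ (u' ∈ κ ∨ u' ∈ W) ∧
        dn (v i) u ≤ h ∧ dn (v i) u' ≤ h) (v i) w ga gb := by
    intro i
    by_cases hi : i ≤ M
    · obtain ⟨w, κ, h1, h2, h3, h4, h5, ga, gb, h6⟩ := near_wall (hv i hi) (hnear i hi)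
      exact ⟨w, κ, ga, gb, fun _ => ⟨h1, h2, h3, h4, h5, h6⟩⟩
    · exact ⟨v i, ∅, 0, 0, fun h => absurd h hi⟩
  choose w κ ga gb hw using hnw
  have hww : ∀ i, ∃ (ca cb : Pt → ZMod 2), i < M →
      Chain (fun u u' => u ∈ W ∧ u' ∈ W) (w (i + 1)) (w i) ca cb := by
    intro i
    by_cases hi : i < M
    · obtain ⟨ca, cb, hc⟩ := hW (w (i + 1)) (hw (i + 1) hi).1 (w i) (hw i hi.le).1
      exact ⟨ca, cb, fun _ => hc⟩
    · exact ⟨0, 0, fun h => absurd h hi⟩
  choose ca cb hc using hww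
  -- the short closed curves
  obtain ⟨A, hA⟩ : ∃ A : ℕ → Pt → ZMod 2, A = fun i u =>
    ga i u + ea (v i) (v (i + 1)) u + ga (i + 1) u + ca i u := ⟨_, rfl⟩
  obtain ⟨B, hB⟩ : ∃ B : ℕ → Pt → ZMod 2, B = fun i u =>
    gb i u + eb (v i) (v (i + 1)) u + gb (i + 1) u + cb i u := ⟨_, rfl⟩
  obtain ⟨K, hK⟩ : ∃ K : ℕ → Set Pt, K = fun i => κ i ∪ κ (i + 1) := ⟨_, rfl⟩
  have hchain : ∀ i < M, Chain (fun u u' => (u ∈ K i ∨ u ∈ W) ∧ (u' ∈ K i ∨ u' ∈ W)) (w i) (w i)
      (A i) (B i) := by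
    intro i hi
    have k1 := (hw i hi.le).2.2.2.2.2
    have k2 := (hw (i + 1) hi).2.2.2.2.2
    have hKi : K i = κ i ∪ κ (i + 1) := by rw [hK]
    set P : Pt → Pt → Prop := fun u u' => (u ∈ K i ∨ u ∈ W) ∧ (u' ∈ K i ∨ u' ∈ W) with hP
    have c1 : Chain P (w i) (v i) (ga i) (gb i) := by
      refine (k1.mono ?_).symm
      rintro u u' ⟨a1, a2, _⟩
      rw [hP, hKi]
      exact ⟨a1.imp Or.inl id, a2.imp Or.inl id⟩
    have c2 : Chain P (v i) (v (i + 1)) (ea (v i) (v (i + 1))) (eb (v i) (v (i + 1))) := by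
      have h1 : v i ∈ K i := by rw [hKi]; exact Or.inl (hw i hi.le).2.2.1
      have h2 : v (i + 1) ∈ K i := by rw [hKi]; exact Or.inr (hw (i + 1) hi).2.2.1
      exact Chain.edge (hadj i hi) ⟨Or.inl h1, Or.inl h2⟩ ⟨Or.inl h2, Or.inl h1⟩
    have c3 : Chain P (v (i + 1)) (w (i + 1)) (ga (i + 1)) (gb (i + 1)) := by
      refine k2.mono ?_
      rintro u u' ⟨a1, a2, _⟩
      rw [hP, hKi]
      exact ⟨a1.imp Or.inr id, a2.imp Or.inr id⟩
    have c4 : Chain P (w (i + 1)) (w i) (ca i) (cb i) := by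
      refine (hc i hi).mono ?_
      rintro u u' ⟨a1, a2⟩
      exact ⟨Or.inr a1, Or.inr a2⟩
    rw [hA, hB]
    exact ((c1.add c2).add c3).add c4
  have hEv : ∀ i < M, EvenSet (A i) (B i) := fun i hi => (hchain i hi).even
  refine ⟨K, fun u => ∑ i ∈ range M, A i u, fun u => ∑ i ∈ range M, B i u, even_sum hEv,
    ?_, ?_, ?_, ?_⟩
  · intro p h1 h2 h3
    have e : ∑ i ∈ range M, A i p = (ga 0 p + ga M p) + pathA v M p + ∑ i ∈ range M, ca i p := by
      rw [← z2_tele (fun i => ga i p) M]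
      unfold pathA
      rw [← sum_add_distrib, ← sum_add_distrib]
      apply sum_congr rfl
      intro i _
      rw [hA]
      ring
    have e0 : ga 0 p = 0 := by
      by_contra h4
      have := (hw 0 (Nat.zero_le _)).2.2.2.2.2.av p h4
      omega
    have e1 : ga M p = 0 := by
      by_contra h4
      have := (hw M le_rfl).2.2.2.2.2.av p h4
      omega
    have e2 : ∑ i ∈ range M, ca i p = 0 := by
      apply sum_eq_zero
      intro i hi
      by_contra h4
      have := (hc i (mem_range.1 hi)).av p h4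
      exact h1.elim (fun h => h this.1) (fun h => h this.2)
    show _ = _
    simp only
    rw [e, e0, e1, e2]
    ring
  · intro p h1 h2 h3
    have e : ∑ i ∈ range M, B i p = (gb 0 p + gb M p) + pathB v M p + ∑ i ∈ range M, cb i p := by
      rw [← z2_tele (fun i => gb i p) M]
      unfold pathB
      rw [← sum_add_distrib, ← sum_add_distrib]
      apply sum_congr rfl
      intro i _
      rw [hB]
      ring
    have e0 : gb 0 p = 0 := by
      by_contra h4
      have := (hw 0 (Nat.zero_le _)).2.2.2.2.2.bv p h4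
      omega
    have e1 : gb M p = 0 := by
      by_contra h4
      have := (hw M le_rfl).2.2.2.2.2.bv p h4
      omega
    have e2 : ∑ i ∈ range M, cb i p = 0 := by
      apply sum_eq_zero
      intro i hi
      by_contra h4
      have := (hc i (mem_range.1 hi)).bv p h4
      exact h1.elim (fun h => h this.1) (fun h => h this.2)
    show _ = _
    simp only
    rw [e, e0, e1, e2]
    ring
  · intro i hi
    obtain ⟨a1, a2, a3, a4, a5, -⟩ := hw i hi.le
    obtain ⟨b1, b2, b3, b4, b5, -⟩ := hw (i + 1) hi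
    have hKi : K i = κ i ∪ κ (i + 1) := by rw [hK]
    rw [hKi]
    refine ⟨Or.inl a3, Or.inr b3, ?_, ?_⟩
    · rintro u (hu | hu)
      · obtain ⟨c1, c2, c3⟩ := a4 u hu
        exact ⟨c1, by omega, c3.mono Set.subset_union_left⟩
      · obtain ⟨c1, c2, c3⟩ := b4 u hu
        refine ⟨c1, ?_, ?_⟩
        · have h1 := dn_spec (v i) u
          have h2 := dn_spec (v (i + 1)) u
          have h3 := dn_spec (v i) (v (i + 1))
          have h4 := dn_adj1 (hadj i hi)
          omega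
        · exact (Conn.step (Or.inl a3) (Or.inr b3) (hadj i hi)).trans
            (c3.mono Set.subset_union_right)
    · obtain ⟨u, hu, huw⟩ := a5
      exact ⟨u, Or.inl hu, w i, a1, huw⟩
  · intro z v1 hz hv1 hne
    have hbdd : ∀ i < M, ∃ N : ℤ, ∀ u : Pt, u.1 < N → A i u = 0 := by
      intro i hi
      obtain ⟨N, hN⟩ := (hEv i hi).bd
      exact ⟨N, fun u hu => (hN u hu).1⟩
    rw [par_sum hbdd, par_sum hbdd] at hne
    have : ∃ i < M, par (A i) z ≠ par (A i) v1 := by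
      by_contra hcon
      push Not at hcon
      exact hne (sum_congr rfl fun i hi => hcon i (mem_range.1 hi))
    obtain ⟨i, hi, hpar⟩ := this
    refine ⟨i, hi, ?_⟩
    by_contra hcon
    push Not at hcon
    obtain ⟨z1, z2', z3⟩ := hcon
    apply hpar
    symm
    refine par_conn (hEv i hi) (S := {x | x ∉ W ∧ x ∉ K i}) ?_ ?_ z3
    · intro p hp
      obtain ⟨a1, a2⟩ := (hchain i hi).av p hp
      exact ⟨fun h => a1.elim h.2 h.1, fun h => a2.elim h.2 h.1⟩
    · intro p hp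
      obtain ⟨a1, a2⟩ := (hchain i hi).bv p hp
      exact ⟨fun h => a1.elim h.2 h.1, fun h => a2.elim h.2 h.1⟩

end Vale.Agent.P155.NT34
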