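import Vale.Agent.P155.NT34.Small

/-!
# P155, NT, block US (ii): short closed curves, with a prescribed relation for the wall edges
-/

namespace Vale.Agent.P155.NT34

open Vale.Agent.P155 T802 Finset NT733 NT802 H904

theorem z2_four {p q r s : ZMod 2} (h : (p + q) + r + s ≠ 0) : p ≠ 0 ∨ q ≠ 0 ∨ r ≠ 0 ∨ s ≠ 0 := by
  revert p q r s
  decide

/-- **(ii)**, generic in the relation `PW` of the wall edges -/
theorem small_curves2 {W : Set Pt} {PW : Pt → Pt → Prop} {base : Pt}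
    (hPW : ∀ u u', PW u u' → u ∈ W ∧ u' ∈ W) (hW : ∀ w ∈ W, Linked PW w base)
    {v : ℕ → Pt} {M h : ℕ} (hadj : ∀ i < M, Adj (v i) (v (i + 1))) (hv : ∀ i ≤ M, v i ∉ W)
    (hnear : ∀ i ≤ M, ∃ w ∈ W, dn (v i) w ≤ h) :
    ∃ (κ : ℕ → Set Pt) (a b : Pt → ZMod 2), EvenSet a b ∧
      (∀ p : Pt, a p ≠ 0 → PW p (p.1, p.2 + 1) ∨ Step v M p (p.1, p.2 + 1) ∨
        (dn (v 0) p ≤ h ∧ dn (v 0) (p.1, p.2 + 1) ≤ h) ∨
        (dn (v M) p ≤ h ∧ dn (v M) (p.1, p.2 + 1) ≤ h)) ∧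
      (∀ p : Pt, b p ≠ 0 → PW p (p.1 + 1, p.2) ∨ Step v M p (p.1 + 1, p.2) ∨
        (dn (v 0) p ≤ h ∧ dn (v 0) (p.1 + 1, p.2) ≤ h) ∨
        (dn (v M) p ≤ h ∧ dn (v M) (p.1 + 1, p.2) ≤ h)) ∧
      (∀ p : Pt, ¬ PW p (p.1, p.2 + 1) → (h < dn (v 0) p ∨ h < dn (v 0) (p.1, p.2 + 1)) →
        (h < dn (v M) p ∨ h < dn (v M) (p.1, p.2 + 1)) → a p = pathA v M p) ∧
      (∀ p : Pt, ¬ PW p (p.1 + 1, p.2) → (h < dn (v 0) p ∨ h < dn (v 0) (p.1 + 1, p.2)) →
        (h < dn (v M) p ∨ h < dn (v M) (p.1 + 1, p.2)) → b p = pathB v M p) ∧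
      (∀ i < M, v i ∈ κ i ∧ v (i + 1) ∈ κ i ∧
        (∀ u ∈ κ i, u ∉ W ∧ dn (v i) u ≤ h + 1 ∧ Conn (κ i) (v i) u) ∧
        ∃ u ∈ κ i, ∃ w ∈ W, Adj u w) ∧
      ∀ z v1 : Pt, z ∉ W → v1 ∉ W → par a z ≠ par a v1 → ∃ i < M, z ∈ κ i ∨ v1 ∈ κ i ∨
        ¬ Conn {x | x ∉ W ∧ x ∉ κ i} v1 z := by
  classical
  have hnw : ∀ i, ∃ (w : Pt) (κ : Set Pt) (ga gb : Pt → ZMod 2), i ≤ M → w ∈ W ∧
      dn (v i) w ≤ h ∧ v i ∈ κ ∧ (∀ u ∈ κ, u ∉ W ∧ dn (v i) u ≤ h ∧ Conn κ (v i) u) ∧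
      (∃ u ∈ κ, Adj u w) ∧ Chain (fun u u' => (u ∈ κ ∨ u ∈ W) ∧ (u' ∈ κ ∨ u' ∈ W) ∧
        dn (v i) u ≤ h ∧ dn (v i) u' ≤ h) (v i) w ga gb := by
    intro i
    by_cases hi : i ≤ M
    · obtain ⟨w, κ, h1, h2, h3, h4, h5, ga, gb, h6⟩ := near_wall (hv i hi) (hnear i hi)
      exact ⟨w, κ, ga, gb, fun _ => ⟨h1, h2, h3, h4, h5, h6⟩⟩
    · exact ⟨v i, ∅, 0, 0, fun h => absurd h hi⟩
  choose w κ ga gb hw using hnw
  have hww : ∀ i, ∃ (ca cb : Pt → ZMod 2), i < M →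
      Chain PW (w (i + 1)) (w i) ca cb := by
    intro i
    by_cases hi : i < M
    · obtain ⟨ca, cb, hc⟩ := (hW (w (i + 1)) (hw (i + 1) hi).1).trans
        (hW (w i) (hw i hi.le).1).symm
      exact ⟨ca, cb, fun _ => hc⟩
    · exact ⟨0, 0, fun h => absurd h hi⟩
  choose ca cb hc using hww
  -- the short closed curves
  obtain ⟨A, hA⟩ : ∃ A : ℕ → Pt → ZMod 2, A = fun i u =>
    ga i u + ea (v i) (v (i + 1)) u + ga (i + 1) u + ca i u := ⟨_, rfl⟩
  obtain ⟨B, hB⟩ : ∃ B : ℕ → Pt → ZMod 2, B = fun i u =>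
    gb i u + eb (v i) (v (i + 1)) u + gb (i + 1) u + cb i u := ⟨_, rfl⟩
  obtain ⟨K, hK⟩ : ∃ K : ℕ → Set Pt, K = fun i => κ i ∪ κ (i + 1) := ⟨_, rfl⟩
  have hchain : ∀ i < M, Chain (fun u u' => (u ∈ K i ∨ u ∈ W) ∧ (u' ∈ K i ∨ u' ∈ W)) (w i) (w i)
      (A i) (B i) := by
    intro i hi
    have k1 := (hw i hi.le).2.2.2.2.2
    have k2 := (hw (i + 1) hi).2.2.2.2.2
    have hKi : K i = κ i ∪ κ (i + 1) := by rw [hK]
    set P : Pt → Pt → Prop := fun u u' => (u ∈ K i ∨ u ∈ W) ∧ (u' ∈ K i ∨ u' ∈ W) with hP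
    have c1 : Chain P (w i) (v i) (ga i) (gb i) := by
      refine (k1.mono ?_).symm
      rintro u u' ⟨a1, a2, _⟩
      rw [hP, hKi]
      exact ⟨a1.imp Or.inl id, a2.imp Or.inl id⟩
    have c2 : Chain P (v i) (v (i + 1)) (ea (v i) (v (i + 1))) (eb (v i) (v (i + 1))) := by
      have h1 : v i ∈ K i := by rw [hKi]; exact Or.inl (hw i hi.le).2.2.1
      have h2 : v (i + 1) ∈ K i := by rw [hKi]; exact Or.inr (hw (i + 1) hi).2.2.1
      exact Chain.edge (hadj i hi) ⟨Or.inl h1, Or.inl h2⟩ ⟨Or.inl h2, Or.inl h1⟩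
    have c3 : Chain P (v (i + 1)) (w (i + 1)) (ga (i + 1)) (gb (i + 1)) := by
      refine k2.mono ?_
      rintro u u' ⟨a1, a2, _⟩
      rw [hP, hKi]
      exact ⟨a1.imp Or.inr id, a2.imp Or.inr id⟩
    have c4 : Chain P (w (i + 1)) (w i) (ca i) (cb i) := by
      refine (hc i hi).mono ?_
      intro u u' hu
      obtain ⟨a1, a2⟩ := hPW u u' hu
      exact ⟨Or.inr a1, Or.inr a2⟩
    rw [hA, hB]
    exact ((c1.add c2).add c3).add c4
  have hEv : ∀ i < M, EvenSet (A i) (B i) := fun i hi => (hchain i hi).even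
  have eA : ∀ p, ∑ i ∈ range M, A i p =
      (ga 0 p + ga M p) + pathA v M p + ∑ i ∈ range M, ca i p := by
    intro p
    rw [← z2_tele (fun i => ga i p) M]
    unfold pathA
    rw [← sum_add_distrib, ← sum_add_distrib]
    apply sum_congr rfl
    intro i _
    rw [hA]
    ring
  have eB : ∀ p, ∑ i ∈ range M, B i p =
      (gb 0 p + gb M p) + pathB v M p + ∑ i ∈ range M, cb i p := by
    intro p
    rw [← z2_tele (fun i => gb i p) M]
    unfold pathB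
    rw [← sum_add_distrib, ← sum_add_distrib]
    apply sum_congr rfl
    intro i _
    rw [hB]
    ring
  have hpc := path_chain hadj
  refine ⟨K, fun u => ∑ i ∈ range M, A i u, fun u => ∑ i ∈ range M, B i u, even_sum hEv,
    ?_, ?_, ?_, ?_, ?_, ?_⟩
  · intro p hp
    simp only at hp
    rw [eA] at hp
    rcases z2_four hp with h4 | h4 | h4 | h4
    · have := (hw 0 (Nat.zero_le _)).2.2.2.2.2.av p h4
      exact Or.inr (Or.inr (Or.inl this.2.2))
    · have := (hw M le_rfl).2.2.2.2.2.av p h4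
      exact Or.inr (Or.inr (Or.inr this.2.2))
    · exact Or.inr (Or.inl (hpc.av p h4))
    · obtain ⟨i, hi, h5⟩ := exists_ne_zero_of_sum_ne_zero h4
      exact Or.inl ((hc i (mem_range.1 hi)).av p h5)
  · intro p hp
    simp only at hp
    rw [eB] at hp
    rcases z2_four hp with h4 | h4 | h4 | h4
    · have := (hw 0 (Nat.zero_le _)).2.2.2.2.2.bv p h4
      exact Or.inr (Or.inr (Or.inl this.2.2))
    · have := (hw M le_rfl).2.2.2.2.2.bv p h4
      exact Or.inr (Or.inr (Or.inr this.2.2))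
    · exact Or.inr (Or.inl (hpc.bv p h4))
    · obtain ⟨i, hi, h5⟩ := exists_ne_zero_of_sum_ne_zero h4
      exact Or.inl ((hc i (mem_range.1 hi)).bv p h5)
  · intro p h1 h2 h3
    have e0 : ga 0 p = 0 := by
      by_contra h4
      have := (hw 0 (Nat.zero_le _)).2.2.2.2.2.av p h4
      omega
    have e1 : ga M p = 0 := by
      by_contra h4
      have := (hw M le_rfl).2.2.2.2.2.av p h4
      omega
    have e2 : ∑ i ∈ range M, ca i p = 0 := by
      apply sum_eq_zero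
      intro i hi
      by_contra h4
      exact h1 ((hc i (mem_range.1 hi)).av p h4)
    simp only
    rw [eA, e0, e1, e2]
    ring
  · intro p h1 h2 h3
    have e0 : gb 0 p = 0 := by
      by_contra h4
      have := (hw 0 (Nat.zero_le _)).2.2.2.2.2.bv p h4
      omega
    have e1 : gb M p = 0 := by
      by_contra h4
      have := (hw M le_rfl).2.2.2.2.2.bv p h4
      omega
    have e2 : ∑ i ∈ range M, cb i p = 0 := by
      apply sum_eq_zero
      intro i hi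
      by_contra h4
      exact h1 ((hc i (mem_range.1 hi)).bv p h4)
    simp only
    rw [eB, e0, e1, e2]
    ring
  · intro i hi
    obtain ⟨a1, a2, a3, a4, a5, -⟩ := hw i hi.le
    obtain ⟨b1, b2, b3, b4, b5, -⟩ := hw (i + 1) hi
    have hKi : K i = κ i ∪ κ (i + 1) := by rw [hK]
    rw [hKi]
    refine ⟨Or.inl a3, Or.inr b3, ?_, ?_⟩
    · rintro u (hu | hu)
      · obtain ⟨c1, c2, c3⟩ := a4 u hu
        exact ⟨c1, by omega, c3.mono Set.subset_union_left⟩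
      · obtain ⟨c1, c2, c3⟩ := b4 u hu
        refine ⟨c1, ?_, ?_⟩
        · have h1 := dn_spec (v i) u
          have h2 := dn_spec (v (i + 1)) u
          have h3 := dn_spec (v i) (v (i + 1))
          have h4 := dn_adj1 (hadj i hi)
          omega
        · exact (Conn.step (Or.inl a3) (Or.inr b3) (hadj i hi)).trans
            (c3.mono Set.subset_union_right)
    · obtain ⟨u, hu, huw⟩ := a5
      exact ⟨u, Or.inl hu, w i, a1, huw⟩
  · intro z v1 hz hv1 hne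
    have hbdd : ∀ i < M, ∃ N : ℤ, ∀ u : Pt, u.1 < N → A i u = 0 := by
      intro i hi
      obtain ⟨N, hN⟩ := (hEv i hi).bd
      exact ⟨N, fun u hu => (hN u hu).1⟩
    rw [par_sum hbdd, par_sum hbdd] at hne
    have : ∃ i < M, par (A i) z ≠ par (A i) v1 := by
      by_contra hcon
      push Not at hcon
      exact hne (sum_congr rfl fun i hi => hcon i (mem_range.1 hi))
    obtain ⟨i, hi, hpar⟩ := this
    refine ⟨i, hi, ?_⟩
    by_contra hcon
    push Not at hcon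
    obtain ⟨z1, z2', z3⟩ := hcon
    apply hpar
    symm
    refine par_conn (hEv i hi) (S := {x | x ∉ W ∧ x ∉ K i}) ?_ ?_ z3
    · intro p hp
      obtain ⟨a1, a2⟩ := (hchain i hi).av p hp
      exact ⟨fun h => a1.elim h.2 h.1, fun h => a2.elim h.2 h.1⟩
    · intro p hp
      obtain ⟨a1, a2⟩ := (hchain i hi).bv p hp
      exact ⟨fun h => a1.elim h.2 h.1, fun h => a2.elim h.2 h.1⟩

end Vale.Agent.P155.NT34
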