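import Vale.Agent.P155.NT733.OPDef

/-!
# P155, NT: the visit bound for random centres at all scales, away from the polygon
-/

namespace Vale.Agent.P155.NT34

open Vale.Agent.P155 Finset T802 T862 NT G45 J NT905 S743 NT743 NT276 NT802 NT733

open Classical in
/-- **VB**: measurable event, measurable centre `x` at distance at least `θ R` from the polygon,
deterministic scale `n ≥ R ^ a0`, `M n ≤ dist(x, explored) ≤ 5 M n`. -/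
def VBP2 : Prop :=
  ∃ M : ℕ, 2 ≤ M ∧ ∀ c a0 θ : ℝ, 0 < c → 0 < a0 → 0 < θ → ∃ A : ℝ, 0 ≤ A ∧ ∃ β : ℝ, 0 < β ∧
  ∃ C : ℝ, 0 ≤ C ∧ ∃ R0 : ℕ, ∀ R : ℕ, R0 ≤ R → ∀ T : Temp, Skel.Fits T R →
  ∀ (xS : ℤ) (q : Pt) (r k n : ℕ),
  c * R ≤ r → r ≤ R → (16 * r : ℤ) ≤ |q.1 - xS| → (R : ℝ) ^ a0 ≤ n → n ≤ R → ∀ (b : Bool)
  (S : Conf → Prop) (x : Conf → Pt), MeasS (tE T.V xS q r k).toStop S →
  MeasS (tE T.V xS q r k).toStop x →
  (∀ ω ∈ DD T.V, S ω → eN T xS ω q r k < Tm.M T.V xS ω ∧ dn q (x ω) ≤ 2 * r ∧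
    θ * R ≤ dF T.faceSet (x ω) ∧
    M * n ≤ dF (ON T xS ω q r k) (x ω) ∧ dF (ON T xS ω q r k) (x ω) ≤ 5 * M * n) →
  Ex T.V (fun ω => if S ω then (if VisN T xS ω q r k (x ω) n then (1 : ℝ) else 0) else 0) ≤
    A * Ex T.V (fun ω => if S ω then NT733.Gb T xS q r k b ω (x ω) else 0) +
      C * ((R : ℝ) ^ (-β) + ((n : ℝ) / R) ^ β)

end Vale.Agent.P155.NT34
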