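import Vale.Agent.P155.NT34.Visit
import Vale.Agent.P155.NT34.Far2
import Vale.Agent.P155.NT34.VBPDef

/-!
# P155, NT: the visit bound at all scales, auxiliary lemmas
-/

namespace Vale.Agent.P155.NT34

open Vale.Agent.P155 G45 G S743 T802 T905 J Finset NT NT802 NT276 NT743 NT905 H12 Function E4

/-- the standard bump is dominated by a density around a point next to it -/
theorem bump_dens2 {κ L : ℕ} {x p : Pt} (hκ : 5 ≤ κ) (hp : dn p x + κ ≤ L * κ) (y : Pt) :
    |S743.bump κ x y| ≤ E4.dens (2000000 * ((L : ℝ) + 1) ^ 3) p κ y := by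
  have hκ0 : (0 : ℝ) < κ := by
    have : 0 < κ := by omega
    exact_mod_cast this
  by_cases hy : S743.bump κ x y = 0
  · rw [hy, abs_zero]
    exact dens_nonneg (by positivity) _ _ _
  · have h1 := mem_box_dn905.1 (S743.bump_supp hκ hy)
    have h2 := H904.dn_tri p x y
    have h3 : dn p y ≤ L * κ := by omega
    have h4 : (dn p y : ℝ) ≤ L * κ := by exact_mod_cast h3
    rw [abs_of_nonneg (S743.bump_nonneg κ x y)]
    refine (S743.bump_le hκ x y).trans ?_
    unfold E4.dens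
    rw [div_le_div_iff₀ (by positivity) (by positivity)]
    have h5 : ((κ : ℝ) + dn p y) ^ 3 ≤ (((L : ℝ) + 1) * κ) ^ 3 := by
      apply pow_le_pow_left₀ (by positivity)
      linarith
    calc 16000000 * ((κ : ℝ) + dn p y) ^ 3 ≤ 16000000 * (((L : ℝ) + 1) * κ) ^ 3 :=
          mul_le_mul_of_nonneg_left h5 (by norm_num)
      _ = 8 * (2000000 * ((L : ℝ) + 1) ^ 3) * κ * (κ : ℝ) ^ 2 := by ring

/-- **far part of the layer function of the standard bump** -/
theorem far_bump : ∃ γ : ℝ, 0 < γ ∧ ∃ C : ℝ, 0 < C ∧ ∀ (T : Temp) (xS : ℤ) (τ : Stop T.V xS)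
    (ω : Conf), ω ∈ DD T.V → ∀ (x : Conf → Pt) (p q : Pt) (κ L s ρ : ℕ),
    p ∉ OE T (τ.E ω) → 5 ≤ κ → 1 ≤ L → dn p (x ω) + κ ≤ L * κ → L * κ ≤ ρ → 8 ≤ s → s ≤ ρ →
    dn q (x ω) + κ ≤ 2 * ρ → ∀ S : Finset Pt, (∀ y ∈ S, 4 * ρ ≤ dn q y) →
      ∑ y ∈ S, |gL T τ.E (fun ω => S743.bump κ (x ω)) s ω y| ≤
        C * (L : ℝ) ^ 2 * (((L * κ : ℕ) : ℝ) / ρ) ^ γ := by
  obtain ⟨γ, hγ, C, hC, h⟩ := far_small
  refine ⟨γ, hγ, C * (32 ^ 4 + 1) * 16000000, by positivity, ?_⟩
  intro T xS τ ω hω x p q κ L s ρ hp hκ hL hpx hLρ hs hsρ hq S hS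
  have hκ0 : (0 : ℝ) < κ := by
    have : 0 < κ := by omega
    exact_mod_cast this
  have hL0 : (0 : ℝ) < L := by
    have : 0 < L := by omega
    exact_mod_cast this
  have hLκ : 1 ≤ L * κ := Nat.one_le_iff_ne_zero.2 (by
    have : κ ≠ 0 := by omega
    have : L ≠ 0 := by omega
    positivity)
  have hO := oe_finite T (τ.E ω)
  have h1 := h (OE T (τ.E ω)) hO (Stop.cpr hω) p q (L * κ) s ρ (16000000 * (L : ℝ) ^ 2) (32 ^ 4)
    (cutf (OE T (τ.E ω)) s) (S743.bump κ (x ω)) (pot (OE T (τ.E ω)) (S743.bump κ (x ω))) hp hLκ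
    hLρ (by omega) hsρ (by positivity) (S743.bump_nonneg κ (x ω))
    (fun y => by
      refine (S743.bump_le hκ (x ω) y).trans (le_of_eq ?_)
      push_cast
      field_simp)
    (fun y hy => by
      have h1 := mem_box_dn905.1 (S743.bump_supp hκ hy)
      have h2 := H904.dn_tri p (x ω) y
      omega)
    (cutf_isCut (exists_notMem hO) hs le_rfl) (pot_spec hO _)
    (fun y hy => by
      by_contra hc
      have h1 := mem_box_dn905.1 (S743.bump_supp hκ hc)
      have h2 := H904.dn_tri q (x ω) y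
      omega) S hS
  refine h1.trans (le_of_eq ?_)
  ring

open Classical in
/-- `⟨φ, H⟩` or `⟨φ, 1 - H⟩` for the standard bump, by Harnack -/
theorem hit_le : ∃ A : ℝ, 1 ≤ A ∧ ∀ (T : Temp) (xS : ℤ) (q : Pt) (r k : ℕ) (b : Bool)
    (ω : Conf) (x : Conf → Pt) (κ : ℕ), 5 ≤ κ → 2 * κ < dF (ON T xS ω q r k) (x ω) →
    ∑ y ∈ (oe_finite T ((tE T.V xS q r k).toStop.E ω)).toFinset, S743.bump κ (x ω) y *
      (if b then (tE T.V xS q r k).toStop.Hf ω y else 1 - (tE T.V xS q r k).toStop.Hf ω y) ≤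
      A * NT733.Gb T xS q r k b ω (x ω) := by
  obtain ⟨A, hA, h⟩ := gb_harnack
  refine ⟨A, hA, ?_⟩
  intro T xS q r k b ω x κ hκ hd
  have hO : OE T ((tE T.V xS q r k).toStop.E ω) = ON T xS ω q r k := by
    rw [Tm.GTime.toStop_E, tE_N]
    rfl
  have h1 := h T xS q r k (!b) ω (x ω) κ hκ hd
  have e2 : ∀ y, NT276.Gb T xS q r k (!b) ω y = NT733.Gb T xS q r k b ω y := by
    intro y
    unfold NT276.Gb NT733.Gb
    cases b <;> simp
  simp only [e2] at h1
  refine le_trans (le_of_eq ?_) h1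
  symm
  apply Finset.sum_subset
  · intro y hy
    rw [Set.Finite.mem_toFinset]
    by_contra hc
    rw [hO] at hc
    have h3 := G45.dF_le hc (x := x ω)
    have h4 := mem_box_dn905.1 hy
    omega
  · intro y _ hy
    have : S743.bump κ (x ω) y = 0 := by
      by_contra hc
      exact hy (S743.bump_supp hκ hc)
    rw [this, zero_mul]

/-- mass of the bump in the free faces -/
theorem bump_one {T : Temp} {xS : ℤ} {τ : Stop T.V xS} {ω : Conf} {x : Conf → Pt} {κ : ℕ}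
    (hκ : 5 ≤ κ) (hd : κ < dF (OE T (τ.E ω)) (x ω)) :
    ∑ y ∈ (oe_finite T (τ.E ω)).toFinset, S743.bump κ (x ω) y = 1 := by
  refine S743.bump_sum hκ (x ω) fun y hy => ?_
  rw [Set.Finite.mem_toFinset]
  by_contra hc
  have h3 := G45.dF_le hc (x := x ω)
  have h4 := mem_box_dn905.1 hy
  omega

open Classical in
/-- expectation of a sum on an event -/
theorem Ex_dom_add {V : Finset Pt} {Dom : Conf → Prop} (f g : Conf → ℝ) :
    Ex V (fun ω => if Dom ω then f ω + g ω else 0) =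
      Ex V (fun ω => if Dom ω then f ω else 0) + Ex V (fun ω => if Dom ω then g ω else 0) := by
  rw [← H12.Ex_add]
  congr 1
  funext ω
  split_ifs <;> ring

open Classical in
theorem Ex_dom_mono {V : Finset Pt} {Dom : Conf → Prop} {f g : Conf → ℝ}
    (h : ∀ ω ∈ DD V, Dom ω → f ω ≤ g ω) :
    Ex V (fun ω => if Dom ω then f ω else 0) ≤ Ex V (fun ω => if Dom ω then g ω else 0) := by
  refine H12.Ex_mono fun ω hω => ?_
  split_ifs with hd
  · exact h ω hω hd
  · exact le_rfl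

open Classical in
theorem Ex_dom_const {V : Finset Pt} {Dom : Conf → Prop} {f : Conf → ℝ} {c : ℝ} (hc : 0 ≤ c)
    (h : ∀ ω ∈ DD V, Dom ω → f ω ≤ c) :
    Ex V (fun ω => if Dom ω then f ω else 0) ≤ c := by
  refine J.Ex_le_const hc fun ω hω => ?_
  split_ifs with hd
  · exact h ω hω hd
  · exact hc

open Classical in
theorem Ex_dom_mul {V : Finset Pt} {Dom : Conf → Prop} (a : ℝ) (f : Conf → ℝ) :
    Ex V (fun ω => if Dom ω then a * f ω else 0) = a * Ex V (fun ω => if Dom ω then f ω else 0) := by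
  rw [← H12.Ex_mul]
  congr 1
  funext ω
  split_ifs <;> ring

/-- powers of `R` -/
theorem rpow_le_of_le {R x β : ℝ} (hR : 1 ≤ R) (h : β ≤ x) : R ^ (-x) ≤ R ^ (-β) :=
  Real.rpow_le_rpow_of_exponent_le hR (by linarith)

end Vale.Agent.P155.NT34
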