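import Vale.Agent.P155.NT34.VBa
import Vale.Agent.P155.NT905.V1Main
import Vale.Agent.P155.NT902.Zone

/-!
# P155, NT: the visit bound at macroscopic scales
-/

namespace Vale.Agent.P155.NT34

open Vale.Agent.P155 G45 G S743 T802 T905 J Finset NT NT802 NT276 NT743 NT905 H12 Function E4 HT

open Classical in
/-- the unexplored loops at macroscopic scales (`NT613.unx_macro`) -/
def UnxMac : Prop := ∃ am > (0 : ℝ), ∃ e > (0 : ℝ), ∃ c > (0 : ℝ), ∀ C0 : ℝ, 0 ≤ C0 →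
    ∃ C : ℝ, 0 ≤ C ∧ ∃ R0 : ℕ, 1 ≤ R0 ∧ ∀ (R : ℕ) (T : Temp), R0 ≤ R → Skel.Fits T R →
    ∀ κ s : ℕ, (R : ℝ) ^ (1 - e) ≤ κ → κ ≤ R → 8 ≤ s → (s : ℝ) ≤ (R : ℝ) ^ am →
    ∀ (xS : ℤ) (τ : Stop T.V xS) (Dom : Conf → Prop) (φ : Conf → Pt → ℝ),
    (∀ ω ∈ DD T.V, Dom ω → τ.New ω ∧
      (∃ p, p ∉ OE T (τ.E ω) ∧ ∀ y, |φ ω y| ≤ E4.dens C0 p κ y) ∧
      ∀ y, φ ω y ≠ 0 → κ ≤ dF (OE T (τ.E ω)) y) →
    Ex T.V (fun ω => if Dom ω then UnS τ φ s ω else 0) ≤ C * (R : ℝ) ^ (-c) +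
      128 * C0 * Ex T.V (fun ω => if Dom ω then
        ∑ x ∈ (S743.oe_finite T (τ.E ω)).toFinset.filter (fun x => |x.1 - xS| ≤ (κ : ℤ)),
          |gL T τ.E φ s ω x| else 0)

open Classical in
/-- the zone near the polygon at macroscopic scales (`NT878.zone_dom`) -/
def ZoneD : Prop := ∀ e0 : ℝ, 0 < e0 → ∃ c > (0 : ℝ), ∃ e > (0 : ℝ), ∀ C0 : ℝ, 0 ≤ C0 →
    ∃ C : ℝ, 0 ≤ C ∧ ∀ (R : ℕ) (T : Temp), 1 ≤ R → Skel.Fits T R → ∀ s D h n : ℕ, 8 ≤ s → s ≤ D →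
    8 * s ≤ R → (D : ℝ) ≤ (R : ℝ) ^ c → (h : ℝ) ≤ (R : ℝ) ^ (1 - e0) → h ≤ R → 1 ≤ n →
    (R : ℝ) ^ (1 - e) ≤ n →
    ∀ (xS : ℤ) (τ : Stop T.V xS) (Dom : Conf → Prop) (φ : Conf → Pt → ℝ)
      (S : Conf → Finset Pt),
    (∀ ω ∈ DD T.V, Dom ω → τ.New ω ∧ (∀ z, ∃ v ∈ τ.L ω, v ∉ box z h) ∧
      (∀ y, |φ ω y| ≤ C0 / (n : ℝ) ^ 2) ∧ (∀ y, y ∉ box (0, 0) R → φ ω y = 0) ∧
      ∀ x ∈ S ω, dF T.faceSet x ≤ h ∧ ∃ v ∈ τ.L ω, dn x v ≤ D + 1) →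
    Ex T.V (fun ω => if Dom ω then ∑ x ∈ S ω, |gL T τ.E φ s ω x| else 0) ≤
      C * (R : ℝ) ^ (-c)

open Classical in
/-- the property of `visit_le` -/
def VisLe (K : ℕ) (c : ℝ) : Prop := ∀ (T : Temp) (xS : ℤ) (q : Pt) (r k : ℕ)
    (x : Conf → Pt) (hx : At (tE T.V xS q r k) x) (κ : ℕ) (Dom : Conf → Prop), 1 ≤ r →
    (16 * r : ℤ) ≤ |q.1 - xS| → 400 ≤ κ →
    (∀ ω ∈ DD T.V, Dom ω → (tE T.V xS q r k).N ω < Tm.M T.V xS ω ∧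
      K * κ < dF (OE T ((tE T.V xS q r k).toStop.E ω)) (x ω)) →
    c * Ex T.V (fun ω => if Dom ω then (if Visited T xS q r k x (3 * κ) ω then (1 : ℝ) else 0)
      else 0) ≤
    Ex T.V (fun ω => if Dom ω then dropE (tE T.V xS q r k).toStop (tV hx (3 * κ)).toStop
      (fun ω => S743.bump κ (x ω)) ω else 0)

theorem visLe : ∃ K : ℕ, 17 ≤ K ∧ ∃ c : ℝ, 0 < c ∧ VisLe K c := visit_le

open Classical in
/-- the visit bound at one point and one scale: the common part of the two regimes -/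
def VBAt (K : ℕ) (c lo hi θ : ℝ) (T : Temp) (R : ℕ) (A β C : ℝ) : Prop :=
  ∀ (xS : ℤ) (q : Pt) (r k n : ℕ), c * R ≤ r → r ≤ R → (16 * r : ℤ) ≤ |q.1 - xS| →
  (R : ℝ) ^ lo ≤ n → (n : ℝ) ≤ (R : ℝ) ^ hi → ∀ (b : Bool) (S : Conf → Prop) (x : Conf → Pt),
  At (tE T.V xS q r k) S → At (tE T.V xS q r k) x →
  (∀ ω ∈ DD T.V, S ω → (tE T.V xS q r k).N ω < Tm.M T.V xS ω ∧ dn q (x ω) ≤ 2 * r ∧
    θ * R ≤ dF T.faceSet (x ω) ∧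
    (K + 1) * n ≤ dF (OE T ((tE T.V xS q r k).toStop.E ω)) (x ω) ∧
    dF (OE T ((tE T.V xS q r k).toStop.E ω)) (x ω) ≤ 5 * (K + 1) * n) →
  Ex T.V (fun ω => if S ω then (if Visited T xS q r k x (3 * n) ω then (1 : ℝ) else 0) else 0) ≤
    A * Ex T.V (fun ω => if S ω then NT733.Gb T xS q r k b ω (x ω) else 0) +
      C * ((R : ℝ) ^ (-β) + ((n : ℝ) / R) ^ β)

/-- macroscopic regime -/
def VBMac (K : ℕ) : Prop := ∃ e : ℝ, 0 < e ∧ e ≤ 1 ∧ ∀ c : ℝ, 0 < c → ∃ A : ℝ, 0 ≤ A ∧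
  ∃ β : ℝ, 0 < β ∧ ∃ C : ℝ, 0 ≤ C ∧ ∃ R0 : ℕ, ∀ R : ℕ, R0 ≤ R → ∀ T : Temp, Skel.Fits T R →
  VBAt K c (1 - e) 1 0 T R A β C

/-- mesoscopic regime -/
def VBMes (K : ℕ) : Prop := ∀ e : ℝ, 0 < e → e ≤ 1 → ∀ c a0 θ : ℝ, 0 < c → 0 < a0 → 0 < θ →
  ∃ A : ℝ, 0 ≤ A ∧ ∃ β : ℝ, 0 < β ∧ ∃ C : ℝ, 0 ≤ C ∧ ∃ R0 : ℕ, ∀ R : ℕ, R0 ≤ R →
  ∀ T : Temp, Skel.Fits T R → VBAt K c a0 (1 - e) θ T R A β C

/-- numbers at large scales -/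
theorem pow_ge_ev {a : ℝ} (ha : 0 < a) (K : ℝ) : ∃ R0 : ℕ, 1 ≤ R0 ∧ ∀ R : ℕ, R0 ≤ R →
    K ≤ (R : ℝ) ^ a := by
  have h1 : Filter.Tendsto (fun n : ℕ => (n : ℝ) ^ a) Filter.atTop Filter.atTop :=
    (tendsto_rpow_atTop ha).comp tendsto_natCast_atTop_atTop
  obtain ⟨R0, hR0⟩ := Filter.eventually_atTop.1 (h1.eventually_ge_atTop K)
  exact ⟨max R0 1, le_max_right _ _, fun R hR => hR0 R ((le_max_left _ _).trans hR)⟩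

/-- the size of `s` -/
theorem s_num {a b : ℝ} (ha : 0 < a) (hab : 4 * a ≤ b) : ∃ R0 : ℕ, 1 ≤ R0 ∧ ∀ R : ℕ, R0 ≤ R →
    (⌈(R : ℝ) ^ a⌉₊ : ℝ) ≤ (R : ℝ) ^ b ∧ ((⌈(R : ℝ) ^ a⌉₊ ^ 2 : ℕ) : ℝ) ≤ (R : ℝ) ^ b := by
  obtain ⟨R0, h0, hR0⟩ := pow_ge_ev (a := b / 2) (by linarith) 4
  refine ⟨R0, h0, fun R hR => ?_⟩
  have h4 := hR0 R hR
  have hR1 : (1 : ℝ) ≤ R := by exact_mod_cast h0.trans hR
  have hRp : (0 : ℝ) < R := by linarith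
  have h1 : (1 : ℝ) ≤ (R : ℝ) ^ a := Real.one_le_rpow hR1 ha.le
  have h2 : (⌈(R : ℝ) ^ a⌉₊ : ℝ) ≤ 2 * (R : ℝ) ^ a := by
    have := Nat.ceil_lt_add_one (a := (R : ℝ) ^ a) (by positivity)
    linarith
  have h3 : (⌈(R : ℝ) ^ a⌉₊ : ℝ) ^ 2 ≤ (R : ℝ) ^ b := by
    calc (⌈(R : ℝ) ^ a⌉₊ : ℝ) ^ 2 ≤ (2 * (R : ℝ) ^ a) ^ 2 := pow_le_pow_left₀ (by positivity) h2 2
      _ = 4 * (R : ℝ) ^ (2 * a) := by
          rw [mul_pow, ← Real.rpow_natCast ((R : ℝ) ^ a), ← Real.rpow_mul hRp.le]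
          norm_num
          ring_nf
      _ ≤ (R : ℝ) ^ (b / 2) * (R : ℝ) ^ (b / 2) := by
          refine mul_le_mul h4 (Real.rpow_le_rpow_of_exponent_le hR1 (by linarith))
            (by positivity) (by positivity)
      _ = (R : ℝ) ^ b := by
          rw [← Real.rpow_add hRp]
          congr 1
          ring
  have h5 : (1 : ℝ) ≤ (⌈(R : ℝ) ^ a⌉₊ : ℝ) := h1.trans (Nat.le_ceil _)
  constructor
  · refine le_trans ?_ h3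
    nlinarith
  · push_cast
    exact h3

/-- the size of `h = ⌈CT ρ0⌉` -/
theorem h_num {g CT c : ℝ} (hg : 0 < g) (hg1 : g ≤ 1) (hCT : 0 < CT) (hc : 0 < c) :
    ∃ R0 : ℕ, 1 ≤ R0 ∧ ∀ R N : ℕ, R0 ≤ R → N ≤ R → 1 ≤ N →
      (⌈CT * (⌈(N : ℝ) ^ (1 - g)⌉₊ : ℝ)⌉₊ : ℝ) ≤ (R : ℝ) ^ (1 - g / 2) ∧
      (R : ℝ) ^ (1 - g / 2) < c * R := by
  obtain ⟨R1, h1, hR1⟩ := pow_ge_ev (a := g / 2) (by linarith) (2 * CT + 1)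
  obtain ⟨R2, h2, hR2⟩ := pow_ge_ev (a := g / 2) (by linarith) (2 / c)
  refine ⟨max R1 R2, h1.trans (le_max_left _ _), fun R N hR hNR hN => ?_⟩
  have g1 := hR1 R ((le_max_left _ _).trans hR)
  have g2 := hR2 R ((le_max_right _ _).trans hR)
  have hRr : (1 : ℝ) ≤ R := by exact_mod_cast h1.trans ((le_max_left _ _).trans hR)
  have hRp : (0 : ℝ) < R := by linarith
  have hNr : (1 : ℝ) ≤ N := by exact_mod_cast hN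
  have hNR' : (N : ℝ) ≤ R := by exact_mod_cast hNR
  have e1 : (1 : ℝ) ≤ (N : ℝ) ^ (1 - g) := Real.one_le_rpow hNr (by linarith)
  have e2 : (N : ℝ) ^ (1 - g) ≤ (R : ℝ) ^ (1 - g) :=
    Real.rpow_le_rpow (by positivity) hNR' (by linarith)
  have e3 : (⌈(N : ℝ) ^ (1 - g)⌉₊ : ℝ) ≤ 2 * (R : ℝ) ^ (1 - g) := by
    have := Nat.ceil_lt_add_one (a := (N : ℝ) ^ (1 - g)) (by positivity)
    linarith
  have e4 : (⌈CT * (⌈(N : ℝ) ^ (1 - g)⌉₊ : ℝ)⌉₊ : ℝ) ≤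
      CT * (⌈(N : ℝ) ^ (1 - g)⌉₊ : ℝ) + 1 := (Nat.ceil_lt_add_one (by positivity)).le
  have e5 : (1 : ℝ) ≤ (R : ℝ) ^ (1 - g) := Real.one_le_rpow hRr (by linarith)
  have e6 : (R : ℝ) ^ (1 - g / 2) = (R : ℝ) ^ (g / 2) * (R : ℝ) ^ (1 - g) := by
    rw [← Real.rpow_add hRp]
    congr 1
    ring
  constructor
  · rw [e6]
    calc _ ≤ CT * (2 * (R : ℝ) ^ (1 - g)) + 1 := by
          refine e4.trans (add_le_add (mul_le_mul_of_nonneg_left e3 hCT.le) le_rfl)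
      _ ≤ (2 * CT + 1) * (R : ℝ) ^ (1 - g) := by nlinarith
      _ ≤ _ := mul_le_mul_of_nonneg_right g1 (by positivity)
  · have e7 : (R : ℝ) ^ (1 - g / 2) * (R : ℝ) ^ (g / 2) = R := by
      rw [← Real.rpow_add hRp]
      have : 1 - g / 2 + g / 2 = 1 := by ring
      rw [this, Real.rpow_one]
    have e8 : 0 < (R : ℝ) ^ (1 - g / 2) := by positivity
    rw [div_le_iff₀ hc] at g2
    nlinarith

end Vale.Agent.P155.NT34
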