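import Vale.Agent.P155.NT34.VBb

/-!
# P155, NT: the visit bound at macroscopic scales (2)
-/

namespace Vale.Agent.P155.NT34

open Vale.Agent.P155 G45 G S743 T802 T905 J Finset NT NT802 NT276 NT743 NT905 H12 Function E4 HT

/-- the distance to the complement is Lipschitz -/
theorem dF_lip {O : Set Pt} (hO : O.Finite) (x y : Pt) : dF O x ≤ dn x y + dF O y := by
  obtain ⟨z, hz, hzd⟩ := G45.exists_dF (exists_notMem hO) y
  have h1 := G45.dF_le hz (x := x)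
  have h2 := G45.dn_tri x y z
  omega

/-- the ratio of the scales -/
theorem ratio_pow {c γf β : ℝ} {R r n L : ℕ} (hc : 0 < c) (hβ : 0 < β) (hβf : β ≤ γf)
    (hR : 1 ≤ R) (hL : 1 ≤ L) (hn : 1 ≤ n) (hcr : c * R ≤ r) (hnr : L * n ≤ 2 * r) :
    (((L * n : ℕ) : ℝ) / ((2 * r : ℕ) : ℝ)) ^ γf ≤ (L / (2 * c)) ^ β * ((n : ℝ) / R) ^ β := by
  have hRp : (0 : ℝ) < R := by exact_mod_cast hR
  have hL0 : (0 : ℝ) < L := by exact_mod_cast hL
  have hn0 : (0 : ℝ) < n := by exact_mod_cast hn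
  have hrp : (0 : ℝ) < r := lt_of_lt_of_le (by positivity) hcr
  have a1 : ((L * n : ℕ) : ℝ) / ((2 * r : ℕ) : ℝ) ≤ 1 := by
    rw [div_le_one (by push_cast; positivity)]
    exact_mod_cast hnr
  have a2 : ((L * n : ℕ) : ℝ) / ((2 * r : ℕ) : ℝ) ≤ L / (2 * c) * (n / R) := by
    rw [div_mul_div_comm, div_le_div_iff₀ (by push_cast; positivity) (by positivity)]
    push_cast
    have h7 : 2 * (c * R) ≤ 2 * (r : ℝ) := by linarith
    have h6 : 0 ≤ (L : ℝ) * n := by positivity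
    calc (L : ℝ) * n * (2 * c * R) = L * n * (2 * (c * R)) := by ring
      _ ≤ L * n * (2 * r) := mul_le_mul_of_nonneg_left h7 h6
  have a0 : 0 < ((L * n : ℕ) : ℝ) / ((2 * r : ℕ) : ℝ) := by
    push_cast
    positivity
  calc (((L * n : ℕ) : ℝ) / ((2 * r : ℕ) : ℝ)) ^ γf
      ≤ (((L * n : ℕ) : ℝ) / ((2 * r : ℕ) : ℝ)) ^ β :=
        Real.rpow_le_rpow_of_exponent_ge a0 a1 hβf
    _ ≤ (L / (2 * c) * (n / R)) ^ β := Real.rpow_le_rpow a0.le a2 hβ.le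
    _ = _ := Real.mul_rpow (by positivity) (by positivity)

theorem strip_dn {q y : Pt} {xS : ℤ} {r : ℕ} (hq : (16 * r : ℤ) ≤ |q.1 - xS|)
    (hy : |y.1 - xS| ≤ (8 * r : ℤ)) : 8 * r ≤ dn q y := by
  have h4 : (|q.1 - y.1| : ℤ) ≤ dn q y := by
    have := T802.dn_le_iff.1 (le_refl (dn q y))
    rw [abs_le]
    omega
  have h5 : |q.1 - xS| ≤ |q.1 - y.1| + |y.1 - xS| := by
    have := abs_add_le (q.1 - y.1) (y.1 - xS)
    simpa using this
  omega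

/-- the strip next to the line -/
theorem strip_bd : ∃ γ : ℝ, 0 < γ ∧ ∃ Cf : ℝ, 0 < Cf ∧ ∀ (c β : ℝ) (L : ℕ), 0 < c → 0 < β →
    β ≤ γ → 1 ≤ L → ∀ (R : ℕ) (T : Temp) (xS : ℤ) (τ : Stop T.V xS) (ω : Conf) (x : Conf → Pt)
    (p q : Pt) (r n s : ℕ), 1 ≤ R → c * R ≤ r → (16 * r : ℤ) ≤ |q.1 - xS| → 5 ≤ n →
    L * n ≤ 2 * r → 8 ≤ s → s ≤ 2 * r → ω ∈ DD T.V → dn q (x ω) ≤ 2 * r →
    dn p (x ω) + n ≤ L * n → p ∉ OE T (τ.E ω) → ∀ A : Finset Pt,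
    (∀ y ∈ A, |y.1 - xS| ≤ (8 * r : ℤ)) →
    ∑ y ∈ A, |gL T τ.E (fun ω => S743.bump n (x ω)) s ω y| ≤
      Cf * (L : ℝ) ^ 2 * (L / (2 * c)) ^ β * ((n : ℝ) / R) ^ β := by
  obtain ⟨γ, hγ, C, hC, h⟩ := far_bump
  refine ⟨γ, hγ, C, hC, ?_⟩
  intro c β L hc hβ hβγ hL R T xS τ ω x p q r n s hR hcr hq hn hnr hs hsr hω h2 hpx hp A hA
  have hLn : n ≤ L * n := Nat.le_mul_of_pos_left n hL
  have h1 := h T xS τ ω hω x p q n L s (2 * r) hp hn hL hpx hnr hs hsr (by omega) A (by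
    intro y hy
    have := strip_dn hq (hA y hy)
    omega)
  refine h1.trans ?_
  have h3 := ratio_pow hc hβ hβγ hR hL (by omega) hcr hnr
  calc C * (L : ℝ) ^ 2 * (((L * n : ℕ) : ℝ) / ((2 * r : ℕ) : ℝ)) ^ γ
      ≤ C * (L : ℝ) ^ 2 * ((L / (2 * c)) ^ β * ((n : ℝ) / R) ^ β) :=
        mul_le_mul_of_nonneg_left h3 (by positivity)
    _ = _ := by ring

theorem fin_a {x y a b X Y C : ℝ} (h1 : x ≤ a * Y) (h2 : y ≤ b * X) (ha : 0 ≤ a) (hb : 0 ≤ b)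
    (hX : 0 ≤ X) (hY : 0 ≤ Y) (hC : a + b ≤ C) : x + y ≤ C * (X + Y) := by
  have e1 : (a + b) * (X + Y) ≤ C * (X + Y) := mul_le_mul_of_nonneg_right hC (by positivity)
  have e2 : 0 ≤ a * X := by positivity
  have e3 : 0 ≤ b * Y := by positivity
  have e4 : (a + b) * (X + Y) = a * X + b * X + a * Y + b * Y := by ring
  linarith

theorem fin_b {x y a b X Y C : ℝ} (h1 : x ≤ a * X + b * Y) (h2 : y ≤ a * X + b * Y) (ha : 0 ≤ a)
    (hb : 0 ≤ b) (hX : 0 ≤ X) (hY : 0 ≤ Y) (hC : 2 * a + 2 * b ≤ C) : x + y ≤ C * (X + Y) := by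
  have e1 : (2 * a + 2 * b) * (X + Y) ≤ C * (X + Y) :=
    mul_le_mul_of_nonneg_right hC (by positivity)
  have e2 : 0 ≤ b * X := by positivity
  have e3 : 0 ≤ a * Y := by positivity
  have e4 : (2 * a + 2 * b) * (X + Y) = 2 * (a * X) + 2 * (b * X) + 2 * (a * Y) + 2 * (b * Y) := by
    ring
  linarith

open Classical in
/-- the terms of `v1_asm` which are not `⟨φ, H⟩`, at macroscopic scales -/
theorem vb_macro_err (hU : UnxMac) (hZ : ZoneD) {K : ℕ} (hK : 17 ≤ K) {γ : ℝ} (hγ : 0 < γ)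
    (hγ1 : γ ≤ 1) :
    ∃ am : ℝ, 0 < am ∧ ∃ e : ℝ, 0 < e ∧ ∃ β : ℝ, 0 < β ∧ ∀ c : ℝ, 0 < c → ∀ CT a : ℝ, 0 < CT →
    0 < a → a ≤ am → ∃ C : ℝ, 0 ≤ C ∧ ∃ R0 : ℕ, 1 ≤ R0 ∧ ∀ (R : ℕ) (T : Temp), R0 ≤ R →
    Skel.Fits T R → ∀ (xS : ℤ) (q : Pt) (r k n : ℕ), c * R ≤ r → r ≤ R →
    (16 * r : ℤ) ≤ |q.1 - xS| → (R : ℝ) ^ (1 - e) ≤ n → n ≤ R → 5 ≤ n →
    (5 * (K + 1) + 1) * n ≤ 2 * r → ∀ s ρ0 : ℕ, s = ⌈(R : ℝ) ^ a⌉₊ →
    ρ0 = ⌈(R : ℝ) ^ (1 - γ ^ 2 / 1024)⌉₊ → 8 ≤ s → s ^ 2 + 1 ≤ ρ0 →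
    8 * ρ0 + 16 ≤ (5 * (K + 1) + 1) * n → (5 * (K + 1) + 1) * n ≤ R →
    ∀ (S : Conf → Prop) (x : Conf → Pt) (hx : At (tE T.V xS q r k) x),
    (∀ ω ∈ DD T.V, S ω → (tE T.V xS q r k).N ω < Tm.M T.V xS ω ∧ dn q (x ω) ≤ 2 * r ∧
      (K + 1) * n ≤ dF (OE T ((tE T.V xS q r k).toStop.E ω)) (x ω) ∧
      dF (OE T ((tE T.V xS q r k).toStop.E ω)) (x ω) ≤ 5 * (K + 1) * n) →
    Ex T.V (fun ω => if S ω then
      farL (tE T.V xS q r k).toStop (fun ω => S743.bump n (x ω)) s R (0, 0) ρ0 ω +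
      zoneS (tE T.V xS q r k).toStop (fun ω => S743.bump n (x ω)) s R (0, 0) (CT * ρ0) ω else 0) ≤
      C * ((R : ℝ) ^ (-β) + ((n : ℝ) / R) ^ β) ∧
    Ex T.V (fun ω => if S ω then
      UnS (tE T.V xS q r k).toStop (fun ω => S743.bump n (x ω)) s ω +
      UnS (tV hx (3 * n)).toStop (fun ω => S743.bump n (x ω)) s ω else 0) ≤
      C * ((R : ℝ) ^ (-β) + ((n : ℝ) / R) ^ β) := by
  obtain ⟨am1, ham1, e1, he1, c1, hc1, hunx⟩ := hU
  obtain ⟨c2, hc2, e2, he2, hzone⟩ := hZ (γ ^ 2 / 2048) (by positivity)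
  obtain ⟨γf, hγf, Cf, hCf, hstr⟩ := strip_bd
  obtain ⟨L, hL⟩ : ∃ L : ℕ, L = 5 * (K + 1) + 1 := ⟨_, rfl⟩
  rw [← hL]
  have hL1 : 1 ≤ L := by omega
  have hL0 : (0 : ℝ) < L := by exact_mod_cast hL1
  obtain ⟨β, hβdef⟩ : ∃ β : ℝ, β = min (min c1 c2) γf := ⟨_, rfl⟩
  have hβ : 0 < β := by rw [hβdef]; exact lt_min (lt_min hc1 hc2) hγf
  have hβ1 : β ≤ c1 := by rw [hβdef]; exact (min_le_left _ _).trans (min_le_left _ _)
  have hβ2 : β ≤ c2 := by rw [hβdef]; exact (min_le_left _ _).trans (min_le_right _ _)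
  have hβ3 : β ≤ γf := by rw [hβdef]; exact min_le_right _ _
  refine ⟨min am1 c2 / 4, by
    have := lt_min ham1 hc2
    linarith, min e1 e2, lt_min he1 he2, β, hβ, ?_⟩
  intro c hc CT a hCT ha haam
  have ha1 : 4 * a ≤ am1 := by
    have := min_le_left am1 c2
    linarith
  have ha2 : 4 * a ≤ c2 := by
    have := min_le_right am1 c2
    linarith
  obtain ⟨C0u, hC0u⟩ : ∃ C0u : ℝ, C0u = 2000000 * ((L : ℝ) + 1) ^ 3 := ⟨_, rfl⟩
  have hC0u0 : 0 ≤ C0u := by rw [hC0u]; positivity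
  obtain ⟨Cu, hCu, R1, hR1, hunx⟩ := hunx C0u hC0u0
  obtain ⟨Cz, hCz, hzone⟩ := hzone 16000000 (by norm_num)
  obtain ⟨R2, hR2, hs1⟩ := s_num ha ha1
  obtain ⟨R3, hR3, hs2⟩ := s_num ha ha2
  have hg1 : γ ^ 2 / 1024 ≤ 1 := by nlinarith
  obtain ⟨R4, hR4, hh⟩ := h_num (g := γ ^ 2 / 1024) (CT := CT) (c := 7 * c) (by positivity) hg1
    hCT (by positivity)
  obtain ⟨Cs, hCs⟩ : ∃ Cs : ℝ, Cs = Cf * (L : ℝ) ^ 2 * (L / (2 * c)) ^ β := ⟨_, rfl⟩
  have hCs0 : 0 ≤ Cs := by rw [hCs]; positivity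
  refine ⟨Cs + Cz + 2 * Cu + 256 * C0u * Cs, by positivity, max (max R1 R2) (max R3 R4),
    hR1.trans ((le_max_left _ _).trans (le_max_left _ _)), ?_⟩
  intro R T hR hfit xS q r k n hcr hrR hq hn hnR hn5 hnr s ρ0 hs hρ s1 s4 s5 s6 S x hx hS
  have hRR1 : R1 ≤ R := ((le_max_left _ _).trans (le_max_left _ _)).trans hR
  have hRR2 : R2 ≤ R := ((le_max_right _ _).trans (le_max_left _ _)).trans hR
  have hRR3 : R3 ≤ R := ((le_max_left _ _).trans (le_max_right _ _)).trans hR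
  have hRR4 : R4 ≤ R := ((le_max_right _ _).trans (le_max_right _ _)).trans hR
  have hRn : 1 ≤ R := hR1.trans hRR1
  have hRr : (1 : ℝ) ≤ R := by exact_mod_cast hRn
  have hRp : (0 : ℝ) < R := by linarith
  have hn0 : (0 : ℝ) < n := by
    have : 0 < n := by omega
    exact_mod_cast this
  have hLn : n ≤ L * n := Nat.le_mul_of_pos_left n hL1
  have hr0 : 1 ≤ r := by omega
  have hrp : (0 : ℝ) < r := by exact_mod_cast hr0
  have hKn : (K + 1) * n = K * n + n := by ring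
  have hK17 : 17 * n ≤ K * n := Nat.mul_le_mul_right _ hK
  have hL5 : L * n = 5 * (K + 1) * n + n := by rw [hL]; ring
  have t1 := (hs1 R hRR2).1
  have t2 := (hs2 R hRR3).2
  rw [← hs] at t1 t2
  obtain ⟨t3, t4⟩ := hh R R hRR4 le_rfl hRn
  rw [← hρ] at t3
  have e1024 : γ ^ 2 / 1024 / 2 = γ ^ 2 / 2048 := by ring
  rw [e1024] at t3 t4
  have hss : s ≤ s ^ 2 := by
    rw [sq]
    exact Nat.le_mul_of_pos_left s (by omega)
  have hs2r : s ≤ 2 * r := by omega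
  have hRc1 : (R : ℝ) ^ (-c1) ≤ (R : ℝ) ^ (-β) := rpow_le_of_le hRr hβ1
  have hRc2 : (R : ℝ) ^ (-c2) ≤ (R : ℝ) ^ (-β) := rpow_le_of_le hRr hβ2
  have hnβ : 0 ≤ ((n : ℝ) / R) ^ β := by positivity
  have hRβ : 0 ≤ (R : ℝ) ^ (-β) := by positivity
  -- the nearest face which is not free
  choose p hp1 hp2 using fun ω : Conf => G45.exists_dF
    (exists_notMem (oe_finite T ((tE T.V xS q r k).toStop.E ω))) (x ω)
  have hpx : ∀ ω ∈ DD T.V, S ω → dn (p ω) (x ω) + n ≤ L * n := by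
    intro ω hω hSω
    obtain ⟨-, -, -, h4⟩ := hS ω hω hSω
    rw [G45.dn_comm, hp2]
    omega
  -- a strip
  have hstrip : ∀ (τ : Stop T.V xS) (ω : Conf), ω ∈ DD T.V → S ω → p ω ∉ OE T (τ.E ω) →
      ∀ A : Finset Pt, (∀ y ∈ A, |y.1 - xS| ≤ (8 * r : ℤ)) →
      ∑ y ∈ A, |gL T τ.E (fun ω => S743.bump n (x ω)) s ω y| ≤ Cs * ((n : ℝ) / R) ^ β := by
    intro τ ω hω hSω hp A hA
    rw [hCs]
    exact hstr c β L hc hβ hβ3 hL1 R T xS τ ω x (p ω) q r n s hRn hcr hq hn5 hnr s1 hs2r hω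
      (hS ω hω hSω).2.1 (hpx ω hω hSω) hp A hA
  have hbox0 : ∀ (τ : Stop T.V xS) (ω : Conf) (y : Pt), y ∈ OE T (τ.E ω) →
      y ∈ box ((0 : ℤ), (0 : ℤ)) R := fun τ ω y hy => by
    have := hfit hy.1
    exact_mod_cast this
  constructor
  · rw [Ex_dom_add]
    have f1 : Ex T.V (fun ω => if S ω then
        farL (tE T.V xS q r k).toStop (fun ω => S743.bump n (x ω)) s R (0, 0) ρ0 ω else 0) ≤
        Cs * ((n : ℝ) / R) ^ β := by
      refine Ex_dom_const (by positivity) fun ω hω hSω => ?_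
      refine hstrip (tE T.V xS q r k).toStop ω hω hSω (hp1 ω) _ ?_
      intro y hy
      rw [Finset.mem_filter, Set.Finite.mem_toFinset] at hy
      rcases hy.2 with h5 | h5
      · exact absurd (hbox0 _ ω y hy.1) h5
      · omega
    have f2 : Ex T.V (fun ω => if S ω then
        zoneS (tE T.V xS q r k).toStop (fun ω => S743.bump n (x ω)) s R (0, 0) (CT * ρ0) ω
        else 0) ≤ Cz * (R : ℝ) ^ (-c2) := by
      refine hzone R T hRn hfit s (s ^ 2) ⌈CT * (ρ0 : ℝ)⌉₊ n s1 hss (by omega) t2 t3 ?_ (by omega)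
        ?_ xS (tE T.V xS q r k).toStop S (fun ω => S743.bump n (x ω)) _ ?_
      · have h6 : (⌈CT * (ρ0 : ℝ)⌉₊ : ℝ) ≤ R := by
          refine t3.trans ?_
          calc (R : ℝ) ^ (1 - γ ^ 2 / 2048) ≤ (R : ℝ) ^ (1 : ℝ) :=
                Real.rpow_le_rpow_of_exponent_le hRr (by
                  have : 0 < γ ^ 2 / 2048 := by positivity
                  linarith)
            _ = R := Real.rpow_one _
        exact_mod_cast h6
      · exact (Real.rpow_le_rpow_of_exponent_le hRr (by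
          have := min_le_right e1 e2
          linarith)).trans hn
      · intro ω hω hSω
        obtain ⟨g1, g2, g3, g4⟩ := hS ω hω hSω
        refine ⟨tE_new hω hr0 hq g1, ?_, ?_, ?_, ?_⟩
        · intro z
          obtain ⟨v, hv, hzv⟩ := NT902.exc_diam hq g1 z
          refine ⟨v, hv, fun hc2 => ?_⟩
          have h6 : (dn z v : ℝ) ≤ (⌈CT * (ρ0 : ℝ)⌉₊ : ℝ) := by
            exact_mod_cast mem_box_dn905.1 hc2
          have h7 : ((7 * r : ℕ) : ℝ) ≤ dn z v := by exact_mod_cast hzv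
          push_cast at h7
          linarith
        · intro y
          rw [abs_of_nonneg (S743.bump_nonneg n (x ω) y)]
          exact S743.bump_le hn5 (x ω) y
        · intro y hy
          by_contra hc2
          have h6 := mem_box_dn905.1 (S743.bump_supp hn5 hc2)
          refine hy (hbox0 (tE T.V xS q r k).toStop ω y ?_)
          by_contra hc3
          have h7 := G45.dF_le hc3 (x := x ω)
          omega
        · intro y hy
          rw [Finset.mem_filter] at hy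
          obtain ⟨-, h6, v, hv, h7⟩ := hy
          refine ⟨?_, v, hv, mem_box_dn905.1 h7⟩
          have : (dF T.faceSet y : ℝ) ≤ (⌈CT * (ρ0 : ℝ)⌉₊ : ℝ) := h6.le.trans (Nat.le_ceil _)
          exact_mod_cast this
    have e6 : 0 ≤ 256 * C0u * Cs := by positivity
    exact fin_a f1 (f2.trans (mul_le_mul_of_nonneg_left hRc2 hCz)) hCs0 hCz hRβ hnβ (by linarith)
  · rw [Ex_dom_add]
    have key : ∀ τ : Stop T.V xS, (∀ ω ∈ DD T.V, S ω → τ.New ω ∧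
        OE T (τ.E ω) ⊆ OE T ((tE T.V xS q r k).toStop.E ω) ∧
        ∀ y, S743.bump n (x ω) y ≠ 0 → n ≤ dF (OE T (τ.E ω)) y) →
        Ex T.V (fun ω => if S ω then UnS τ (fun ω => S743.bump n (x ω)) s ω else 0) ≤
          Cu * (R : ℝ) ^ (-β) + 128 * C0u * (Cs * ((n : ℝ) / R) ^ β) := by
      intro τ hτ
      have h1 := hunx R T hRR1 hfit n s ((Real.rpow_le_rpow_of_exponent_le hRr (by
          have := min_le_left e1 e2
          linarith)).trans hn) hnR s1 t1 xS τ S (fun ω => S743.bump n (x ω))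
        (fun ω hω hSω => ⟨(hτ ω hω hSω).1, ⟨p ω, fun h => hp1 ω ((hτ ω hω hSω).2.1 h),
          fun y => by
            rw [hC0u]
            exact bump_dens2 hn5 (hpx ω hω hSω) y⟩, (hτ ω hω hSω).2.2⟩)
      refine h1.trans (add_le_add (mul_le_mul_of_nonneg_left hRc1 hCu) ?_)
      refine mul_le_mul_of_nonneg_left ?_ (by positivity)
      refine Ex_dom_const (by positivity) fun ω hω hSω => ?_
      refine hstrip τ ω hω hSω (fun h => hp1 ω ((hτ ω hω hSω).2.1 h)) _ ?_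
      intro y hy
      have := (Finset.mem_filter.1 hy).2
      omega
    have u1 := key (tE T.V xS q r k).toStop (fun ω hω hSω => ⟨tE_new hω hr0 hq (hS ω hω hSω).1,
      subset_rfl, fun y hy => by
        obtain ⟨g1, g2, g3, g4⟩ := hS ω hω hSω
        have h6 := mem_box_dn905.1 (S743.bump_supp hn5 hy)
        have h7 := dF_lip (oe_finite T ((tE T.V xS q r k).toStop.E ω)) (x ω) y
        omega⟩)
    have u2 := key (tV hx (3 * n)).toStop (fun ω hω hSω => by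
      obtain ⟨g1, g2, g3, g4⟩ := hS ω hω hSω
      refine ⟨(tV_facts hω hr0 hq g1).2.1, NT802.OE_anti (Tm.En_mono tE_le_tV), fun y hy => ?_⟩
      have h6 := mem_box_dn905.1 (S743.bump_supp hn5 hy)
      exact tV_dF (hx := hx) hω hr0 hq g1 (by omega) (by omega))
    rw [← mul_assoc] at u1 u2
    refine fin_b u1 u2 hCu (by positivity) hRβ hnβ ?_
    have e6 : 2 * (128 * C0u * Cs) = 256 * C0u * Cs := by ring
    linarith

end Vale.Agent.P155.NT34
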