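import Vale.Agent.P155.NT34.VBc

/-!
# P155, NT: the visit bound at macroscopic scales (3)
-/

namespace Vale.Agent.P155.NT34

open Vale.Agent.P155 G45 G S743 T802 T905 J Finset NT NT802 NT276 NT743 NT905 H12 Function E4 HT

/-- the scale `4 r` is at most `R` -/
theorem four_le' {T : Temp} {xS : ℤ} {ω : Conf} {q : Pt} {r k R : ℕ} (hω : ω ∈ DD T.V)
    (hfit : Skel.Fits T R) (hr : 1 ≤ r) (hx : (16 * r : ℤ) ≤ |q.1 - xS|)
    (hk : (tE T.V xS q r k).N ω < Tm.M T.V xS ω) : 4 * r ≤ R := by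
  have h0 := NT802.fst_mem (Tm.M T.V xS ω) (fun n => Tm.p T.V xS ω n ∈ box q (2 * r))
    ((Tm.exiT T.V xS q (2 * r) (4 * r) k).N ω)
  have h00 : (tE T.V xS q r k).N ω = NT802.fst (Tm.M T.V xS ω)
    (fun n => Tm.p T.V xS ω n ∈ box q (2 * r)) ((Tm.exiT T.V xS q (2 * r) (4 * r) k).N ω) := rfl
  rw [← h00] at h0
  have h1 := mem_box_dn905.1 (h0.2.resolve_right (by omega))
  have h2 := J.mem_V_box hfit (Tm.p_mem hω hk)
  have h3 := (walk hω xS).valid _ hk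
  have h4 := J.mem_V_box hfit h3.1
  rw [mem_box_coord] at h2 h4
  rw [T802.dn_le_iff] at h1
  simp only at h2 h4
  push_cast at h1 h2 h4
  rw [le_abs] at hx
  omega

theorem Gb_nonneg {T : Temp} {xS : ℤ} {q : Pt} {r k : ℕ} {b : Bool} {ω : Conf} (y : Pt) :
    0 ≤ NT733.Gb T xS q r k b ω y := by
  have hH := (tE T.V xS q r k).toStop.Hf_spec ω
  unfold NT733.Gb
  split_ifs
  · exact hH.nonneg y
  · have := hH.le_one y
    linarith

/-- the hypotheses of `v1_asm` for the standard bump, the beginning of the excursion and the first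
visit -/
theorem setup {T : Temp} {xS : ℤ} {q : Pt} {r k n K : ℕ} (hr : 1 ≤ r)
    (hq : (16 * r : ℤ) ≤ |q.1 - xS|) (hK : 17 ≤ K) (hn5 : 5 ≤ n) {S : Conf → Prop}
    {x : Conf → Pt} (hS : At (tE T.V xS q r k) S) (hx : At (tE T.V xS q r k) x)
    (hdom : ∀ ω ∈ DD T.V, S ω → (tE T.V xS q r k).N ω < Tm.M T.V xS ω ∧
      (K + 1) * n ≤ dF (OE T ((tE T.V xS q r k).toStop.E ω)) (x ω) ∧
      dF (OE T ((tE T.V xS q r k).toStop.E ω)) (x ω) ≤ 5 * (K + 1) * n) : ∃ p : Conf → Pt,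
    FMs (tE T.V xS q r k).toStop S (fun ω => S743.bump n (x ω)) ∧
    FMs (tV hx (3 * n)).toStop S (fun ω => S743.bump n (x ω)) ∧
    (∀ ω ∈ DD T.V, S ω → (tV hx (3 * n)).toStop.t ω = (tE T.V xS q r k).toStop.t ω ∧
      (tE T.V xS q r k).toStop.i ω ≤ (tV hx (3 * n)).toStop.i ω) ∧
    (∀ ω ∈ DD T.V, S ω → p ω ∉ OE T ((tE T.V xS q r k).toStop.E ω) ∧
      IsBump (p ω) ((5 * (K + 1) + 1) * n)
        (16000000 * ((5 * (K + 1) + 1 : ℕ) : ℝ) ^ 6 / (((5 * (K + 1) + 1) * n : ℕ) : ℝ) ^ 2)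
        (S743.bump n (x ω))) ∧
    (∀ ω ∈ DD T.V, S ω → ∀ y, S743.bump n (x ω) y ≠ 0 →
      y ∈ OE T ((tV hx (3 * n)).toStop.E ω)) ∧
    (∀ ω ∈ DD T.V, S ω →
      ∑ y ∈ (oe_finite T ((tE T.V xS q r k).toStop.E ω)).toFinset, S743.bump n (x ω) y = 1) := by
  have hlt : ∀ ω ∈ DD T.V, S ω → (tE T.V xS q r k).N ω < Tm.M T.V xS ω :=
    fun ω hω hSω => (hdom ω hω hSω).1
  have hKn : (K + 1) * n = K * n + n := by ring
  have hK17 : 17 * n ≤ K * n := Nat.mul_le_mul_right _ hK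
  have hL5 : (5 * (K + 1) + 1) * n = 5 * (K + 1) * n + n := by ring
  choose p hp1 hp2 using fun ω : Conf => G45.exists_dF
    (exists_notMem (oe_finite T ((tE T.V xS q r k).toStop.E ω))) (x ω)
  refine ⟨p, fms_E hx hS n hr hq hlt, fms_V hx hS n (3 * n) hr hq hlt, ?_, ?_, ?_, ?_⟩
  · intro ω hω hSω
    exact (tV_facts hω hr hq (hlt ω hω hSω)).2.2.2
  · intro ω hω hSω
    obtain ⟨g1, g2, g3⟩ := hdom ω hω hSω
    refine ⟨hp1 ω, bump_off hn5 (by omega) ?_⟩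
    rw [G45.dn_comm, hp2]
    omega
  · intro ω hω hSω y hy
    obtain ⟨g1, g2, g3⟩ := hdom ω hω hSω
    have h6 := mem_box_dn905.1 (S743.bump_supp hn5 hy)
    refine tV_free hω hr hq g1 (by omega) ?_ (by omega)
    by_contra hc
    have h7 := G45.dF_le hc (x := x ω)
    omega
  · intro ω hω hSω
    obtain ⟨g1, g2, g3⟩ := hdom ω hω hSω
    exact bump_one hn5 (by omega)

/-- **the visit bound at macroscopic scales** -/
theorem vb_mac (hU : UnxMac) (hZ : ZoneD) {K : ℕ} {cv : ℝ} (hK : 17 ≤ K) (hcv : 0 < cv)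
    (hV : VisLe K cv) : VBMac K := by
  classical
  obtain ⟨AH, hAH, hhit⟩ := hit_le
  obtain ⟨γ, hγ, hγ1, hv1⟩ := v1_asm
  obtain ⟨am, ham, e0, he0, β0, hβ0, herr⟩ := vb_macro_err hU hZ hK hγ hγ1
  obtain ⟨e, he⟩ : ∃ e : ℝ, e = min (min e0 (γ ^ 2 / 8192)) (1 / 2) := ⟨_, rfl⟩
  have he00 : 0 < e := by rw [he]; exact lt_min (lt_min he0 (by positivity)) (by norm_num)
  have hee0 : e ≤ e0 := by rw [he]; exact (min_le_left _ _).trans (min_le_left _ _)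
  have heγ : e ≤ γ ^ 2 / 8192 := by rw [he]; exact (min_le_left _ _).trans (min_le_right _ _)
  have he2 : e ≤ 1 / 2 := by rw [he]; exact min_le_right _ _
  refine ⟨e, he00, by linarith, ?_⟩
  intro c hc
  obtain ⟨L, hL⟩ : ∃ L : ℕ, L = 5 * (K + 1) + 1 := ⟨_, rfl⟩
  have hL1 : 1 ≤ L := by omega
  have hL0 : (0 : ℝ) < L := by exact_mod_cast hL1
  obtain ⟨a, ha, haam, CT, hCT, c1, hc1, C1, hC1, R1, hR1, hv1⟩ :=
    hv1 (1 / 2) (16000000 * (L : ℝ) ^ 6) am 1 1 (by norm_num) (by positivity) ham one_pos le_rfl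
  obtain ⟨C2, hC2, R2, hR2, herr⟩ := herr c hc CT a hCT ha haam
  obtain ⟨R3, hR3, h400⟩ := pow_ge_ev (a := 1 / 2) (by norm_num) 400
  obtain ⟨β, hβdef⟩ : ∃ β : ℝ, β = min (min c1 1) β0 := ⟨_, rfl⟩
  have hβ : 0 < β := by rw [hβdef]; exact lt_min (lt_min hc1 one_pos) hβ0
  have hβ1 : β ≤ c1 := by rw [hβdef]; exact (min_le_left _ _).trans (min_le_left _ _)
  have hβ2 : β ≤ 1 := by rw [hβdef]; exact (min_le_left _ _).trans (min_le_right _ _)
  have hβ3 : β ≤ β0 := by rw [hβdef]; exact min_le_right _ _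
  refine ⟨cv⁻¹ * (C1 * AH), by positivity, β, hβ,
    cv⁻¹ * (C1 * (2 + 2 * C2)) + (L / (2 * c)) ^ β, by positivity,
    max (max R1 R2) R3, ?_⟩
  intro R hR T hfit xS q r k n hcr hrR hq hn hnR' b S x hS hx hdom
  have hRR1 : R1 ≤ R := ((le_max_left _ _).trans (le_max_left _ _)).trans hR
  have hRR2 : R2 ≤ R := ((le_max_right _ _).trans (le_max_left _ _)).trans hR
  have hRR3 : R3 ≤ R := (le_max_right _ _).trans hR
  have hRn : 1 ≤ R := hR1.trans hRR1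
  have hRr : (1 : ℝ) ≤ R := by exact_mod_cast hRn
  have hRp : (0 : ℝ) < R := by linarith
  have hnR : n ≤ R := by
    rw [Real.rpow_one] at hnR'
    exact_mod_cast hnR'
  have hn400 : 400 ≤ n := by
    have h1 : (400 : ℝ) ≤ n := (h400 R hRR3).trans ((Real.rpow_le_rpow_of_exponent_le hRr
      (by linarith)).trans hn)
    exact_mod_cast h1
  have hn0 : (0 : ℝ) < n := by
    have : 0 < n := by omega
    exact_mod_cast this
  have hG0 : 0 ≤ Ex T.V (fun ω => if S ω then NT733.Gb T xS q r k b ω (x ω) else 0) :=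
    H12.Ex_nonneg fun ω _ => by
      split_ifs
      · exact Gb_nonneg _
      · exact le_rfl
  have hRβ : 0 ≤ (R : ℝ) ^ (-β) := by positivity
  have hnβ : 0 ≤ ((n : ℝ) / R) ^ β := by positivity
  by_cases hex : ∃ ω ∈ DD T.V, S ω
  swap
  · refine (Ex_dom_const (c := 0) le_rfl fun ω hω hSω => absurd ⟨ω, hω, hSω⟩ hex).trans ?_
    positivity
  have hL5 : L * n = (5 * (K + 1) + 1) * n := by rw [hL]
  by_cases hLn : L * n ≤ 2 * r
  swap
  · -- trivial case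
    have h1 : Ex T.V (fun ω => if S ω then
        (if Visited T xS q r k x (3 * n) ω then (1 : ℝ) else 0) else 0) ≤ 1 :=
      Ex_dom_const zero_le_one fun ω _ _ => by split_ifs <;> norm_num
    have h2 : (1 : ℝ) ≤ (L / (2 * c)) ^ β * ((n : ℝ) / R) ^ β := by
      rw [← Real.mul_rpow (by positivity) (by positivity)]
      apply Real.one_le_rpow _ hβ.le
      rw [div_mul_div_comm, one_le_div (by positivity)]
      have h3 : ((2 * r : ℕ) : ℝ) ≤ ((L * n : ℕ) : ℝ) := by exact_mod_cast (not_le.1 hLn).le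
      push_cast at h3
      nlinarith
    have h3 : 0 ≤ cv⁻¹ * (C1 * AH) *
        Ex T.V (fun ω => if S ω then NT733.Gb T xS q r k b ω (x ω) else 0) := by positivity
    have h4 : 0 ≤ cv⁻¹ * (C1 * (2 + 2 * C2)) * ((R : ℝ) ^ (-β) + ((n : ℝ) / R) ^ β) := by
      positivity
    have h5 : 0 ≤ (L / (2 * c)) ^ β * (R : ℝ) ^ (-β) := by positivity
    have e6 : (cv⁻¹ * (C1 * (2 + 2 * C2)) + (L / (2 * c)) ^ β) *
        ((R : ℝ) ^ (-β) + ((n : ℝ) / R) ^ β) =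
        cv⁻¹ * (C1 * (2 + 2 * C2)) * ((R : ℝ) ^ (-β) + ((n : ℝ) / R) ^ β) +
        (L / (2 * c)) ^ β * (R : ℝ) ^ (-β) + (L / (2 * c)) ^ β * ((n : ℝ) / R) ^ β := by ring
    rw [e6]
    linarith
  have hr : 1 ≤ r := by
    have : n ≤ L * n := Nat.le_mul_of_pos_left n hL1
    omega
  have h4r : 4 * r ≤ R := by
    obtain ⟨ω, hω, hSω⟩ := hex
    exact four_le' hω hfit hr hq (hdom ω hω hSω).1
  have hLR : L * n ≤ R := by omega
  -- `v1_asm`
  have hnum1 : (R : ℝ) ^ ((1 : ℝ) / 2) ≤ ((L * n : ℕ) : ℝ) := by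
    have h1 : (R : ℝ) ^ ((1 : ℝ) / 2) ≤ n :=
      (Real.rpow_le_rpow_of_exponent_le hRr (by linarith)).trans hn
    refine h1.trans ?_
    exact_mod_cast Nat.le_mul_of_pos_left n hL1
  have hnum2 : (R : ℝ) ≤ 1 * ((L * n : ℕ) : ℝ) ^ (1 + γ ^ 2 / 4096) := by
    rw [one_mul]
    have h1 : (R : ℝ) ^ (1 - e) ≤ ((L * n : ℕ) : ℝ) := by
      refine hn.trans ?_
      exact_mod_cast Nat.le_mul_of_pos_left n hL1
    calc (R : ℝ) = (R : ℝ) ^ (1 : ℝ) := (Real.rpow_one _).symm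
      _ ≤ (R : ℝ) ^ ((1 - e) * (1 + γ ^ 2 / 4096)) :=
          Real.rpow_le_rpow_of_exponent_le hRr (by nlinarith)
      _ = ((R : ℝ) ^ (1 - e)) ^ (1 + γ ^ 2 / 4096) := Real.rpow_mul hRp.le _ _
      _ ≤ _ := Real.rpow_le_rpow (by positivity) h1 (by positivity)
  obtain ⟨hnums, -, hdrop⟩ := hv1 R (L * n) R T hRR1 hfit hnum1 hLR le_rfl hnum2
    ⌈(R : ℝ) ^ a⌉₊ ⌈(R : ℝ) ^ (1 - γ ^ 2 / 1024)⌉₊ rfl rfl
  obtain ⟨s1, s4, s5, s6, -, -⟩ := hnums
  obtain ⟨s, hs⟩ : ∃ s : ℕ, s = ⌈(R : ℝ) ^ a⌉₊ := ⟨_, rfl⟩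
  obtain ⟨ρ0, hρ⟩ : ∃ ρ0 : ℕ, ρ0 = ⌈(R : ℝ) ^ (1 - γ ^ 2 / 1024)⌉₊ := ⟨_, rfl⟩
  rw [← hs, ← hρ] at hdrop s4
  rw [← hs] at s1
  rw [← hρ] at s5
  obtain ⟨E1, E2⟩ := herr R T hRR2 hfit xS q r k n hcr hrR hq
    ((Real.rpow_le_rpow_of_exponent_le hRr (by linarith)).trans hn) hnR (by omega)
    (by rw [← hL]; exact hLn) s ρ0 hs hρ s1 s4 (by rw [← hL]; exact s5) (by rw [← hL]; exact hLR)
    S x hx (fun ω hω hSω => ⟨(hdom ω hω hSω).1, (hdom ω hω hSω).2.1, (hdom ω hω hSω).2.2.2⟩)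
  have hdom' : ∀ ω ∈ DD T.V, S ω → (tE T.V xS q r k).N ω < Tm.M T.V xS ω ∧
      (K + 1) * n ≤ dF (OE T ((tE T.V xS q r k).toStop.E ω)) (x ω) ∧
      dF (OE T ((tE T.V xS q r k).toStop.E ω)) (x ω) ≤ 5 * (K + 1) * n :=
    fun ω hω hSω => ⟨(hdom ω hω hSω).1, (hdom ω hω hSω).2.2.2⟩
  obtain ⟨p, p1, p2, p3, p4, p5, p6⟩ := setup (n := n) hr hq hK (by omega) hS hx hdom'
  rw [← hL] at p4
  obtain ⟨d1, d2⟩ := hdrop xS (tE T.V xS q r k).toStop (tV hx (3 * n)).toStop S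
    (fun ω => S743.bump n (x ω)) p (0, 0) p1 p2 p3 p4 p5
    (fun ω _ _ y => S743.bump_nonneg n (x ω) y)
  have d3 := d2 1 zero_le_one le_rfl p6
  have hKn : (K + 1) * n = K * n + n := by ring
  have hK17 : 17 * n ≤ K * n := Nat.mul_le_mul_right _ hK
  have hO : ∀ ω, OE T ((tE T.V xS q r k).toStop.E ω) = ON T xS ω q r k := by
    intro ω
    rw [Tm.GTime.toStop_E, tE_N]
    rfl
  have hitb : ∀ ω ∈ DD T.V, S ω →
      ∑ y ∈ (oe_finite T ((tE T.V xS q r k).toStop.E ω)).toFinset, S743.bump n (x ω) y *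
      (if b then (tE T.V xS q r k).toStop.Hf ω y else 1 - (tE T.V xS q r k).toStop.Hf ω y) ≤
      AH * NT733.Gb T xS q r k b ω (x ω) := by
    intro ω hω hSω
    refine hhit T xS q r k b ω x n (by omega) ?_
    have := (hdom' ω hω hSω).2.1
    rw [hO] at this
    omega
  obtain ⟨D, hD⟩ : ∃ D : ℝ, D = Ex T.V (fun ω => if S ω then
    dropE (tE T.V xS q r k).toStop (tV hx (3 * n)).toStop (fun ω => S743.bump n (x ω)) ω else 0) :=
    ⟨_, rfl⟩
  obtain ⟨G, hG⟩ : ∃ G : ℝ, G = Ex T.V (fun ω => if S ω then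
    NT733.Gb T xS q r k b ω (x ω) else 0) := ⟨_, rfl⟩
  rw [← hG] at hG0 ⊢
  obtain ⟨X, hX⟩ : ∃ X : ℝ, X = (R : ℝ) ^ (-β) + ((n : ℝ) / R) ^ β := ⟨_, rfl⟩
  have hPr0 := Vale.Agent.P155.E.Pr_nonneg T.V S
  have hPr1 := H12.Pr_le_one T.V S
  have hnR1 : (n : ℝ) / R ≤ 1 := by
    rw [div_le_one hRp]
    exact_mod_cast hnR
  have hX1 : (R : ℝ) ^ (-β0) + ((n : ℝ) / R) ^ β0 ≤ X := by
    rw [hX]
    exact add_le_add (rpow_le_of_le hRr hβ3)
      (Real.rpow_le_rpow_of_exponent_ge (by positivity) hnR1 hβ3)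
  have hX2 : (R : ℝ) ^ (-c1) * Pr T.V S ≤ X := by
    rw [hX]
    have h1 : (R : ℝ) ^ (-c1) ≤ (R : ℝ) ^ (-β) := rpow_le_of_le hRr hβ1
    have h2 : (R : ℝ) ^ (-c1) * Pr T.V S ≤ (R : ℝ) ^ (-c1) :=
      mul_le_of_le_one_right (by positivity) hPr1
    linarith
  have hX3 : (R : ℝ) ^ (-(1 : ℝ)) ≤ X := by
    rw [hX]
    have h1 : (R : ℝ) ^ (-(1 : ℝ)) ≤ (R : ℝ) ^ (-β) := rpow_le_of_le hRr hβ2
    linarith
  have E1' := E1.trans (mul_le_mul_of_nonneg_left hX1 hC2)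
  have E2' := E2.trans (mul_le_mul_of_nonneg_left hX1 hC2)
  have hDle : D ≤ C1 * (AH * G + (2 + 2 * C2) * X) := by
    have hGm : ∀ f : Conf → ℝ, (∀ ω ∈ DD T.V, S ω → f ω ≤ AH * NT733.Gb T xS q r k b ω (x ω)) →
        Ex T.V (fun ω => if S ω then f ω else 0) ≤ AH * G := by
      intro f hf
      rw [hG, ← Ex_dom_mul]
      exact Ex_dom_mono hf
    cases b
    · have h1 := hGm (hitE' (tE T.V xS q r k).toStop (fun ω => S743.bump n (x ω)))
        (fun ω hω hSω => by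
          have := hitb ω hω hSω
          unfold hitE'
          simpa using this)
      rw [← hD] at d3
      refine d3.trans (mul_le_mul_of_nonneg_left ?_ hC1)
      have e7 : (2 + 2 * C2) * X = X + X + C2 * X + C2 * X := by ring
      rw [e7]
      linarith
    · have h1 := hGm (hitE (tE T.V xS q r k).toStop (fun ω => S743.bump n (x ω)))
        (fun ω hω hSω => by
          have := hitb ω hω hSω
          unfold hitE
          simpa using this)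
      rw [← hD] at d1
      refine d1.trans (mul_le_mul_of_nonneg_left ?_ hC1)
      have e7 : (2 + 2 * C2) * X = X + X + C2 * X + C2 * X := by ring
      rw [e7]
      linarith
  have hvis := hV T xS q r k x hx n S hr hq hn400 (fun ω hω hSω => ⟨(hdom' ω hω hSω).1, by
    have := (hdom' ω hω hSω).2.1
    omega⟩)
  rw [← hD] at hvis
  have hX0 : 0 ≤ X := by rw [hX]; positivity
  rw [← hX]
  have h8 : Ex T.V (fun ω => if S ω then
      (if Visited T xS q r k x (3 * n) ω then (1 : ℝ) else 0) else 0) ≤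
      cv⁻¹ * (C1 * (AH * G + (2 + 2 * C2) * X)) := by
    rw [inv_mul_eq_div, le_div_iff₀ hcv]
    linarith
  refine h8.trans ?_
  have h9 : 0 ≤ (L / (2 * c)) ^ β * X := by positivity
  have e8 : cv⁻¹ * (C1 * (AH * G + (2 + 2 * C2) * X)) + (L / (2 * c)) ^ β * X =
      cv⁻¹ * (C1 * AH) * G + (cv⁻¹ * (C1 * (2 + 2 * C2)) + (L / (2 * c)) ^ β) * X := by ring
  linarith

end Vale.Agent.P155.NT34
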