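import Vale.Agent.P155.NT34.VBd

/-!
# P155, NT: the visit bound at all scales from the two regimes
-/

namespace Vale.Agent.P155.NT34

open Vale.Agent.P155 G45 G S743 T802 T905 J Finset NT NT802 NT276 NT743 NT905 H12 Function E4 HT

theorem vbp2_aux {A A1 A2 C C1 C2 G x β β1 R y : ℝ} (hG : 0 ≤ G) (hA : A1 + A2 = A)
    (hA2 : 0 ≤ A2) (hC1 : 0 ≤ C1) (hC : C1 + C2 = C) (hC2 : 0 ≤ C2) (hR : 1 ≤ R) (hβ : β ≤ β1)
    (hy0 : 0 < y) (hy1 : y ≤ 1)
    (h : x ≤ A1 * G + C1 * (R ^ (-β1) + y ^ β1)) : x ≤ A * G + C * (R ^ (-β) + y ^ β) := by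
  have h1 : R ^ (-β1) ≤ R ^ (-β) := rpow_le_of_le hR hβ
  have h2 : y ^ β1 ≤ y ^ β := Real.rpow_le_rpow_of_exponent_ge hy0 hy1 hβ
  have hR0 : 0 < R := by linarith
  have h3 : C1 * (R ^ (-β1) + y ^ β1) ≤ C1 * (R ^ (-β) + y ^ β) :=
    mul_le_mul_of_nonneg_left (by linarith) hC1
  have h4 : 0 ≤ A2 * G := by positivity
  have h5 : 0 ≤ C2 * (R ^ (-β) + y ^ β) := by positivity
  rw [← hA, ← hC]
  have e1 : (A1 + A2) * G + (C1 + C2) * (R ^ (-β) + y ^ β) =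
      A1 * G + C1 * (R ^ (-β) + y ^ β) + A2 * G + C2 * (R ^ (-β) + y ^ β) := by ring
  linarith

open Classical in
/-- **VBP2 from the two regimes** -/
theorem vbp2_of {K : ℕ} (hK : 2 ≤ K + 1) (h1 : VBMac K) (h2 : VBMes K) : VBP2 := by
  obtain ⟨e, he, he1, h1⟩ := h1
  refine ⟨K + 1, hK, ?_⟩
  intro c a0 θ hc ha0 hθ
  obtain ⟨A1, hA1, β1, hβ1, C1, hC1, R1, h1⟩ := h1 c hc
  obtain ⟨A2, hA2, β2, hβ2, C2, hC2, R2, h2⟩ := h2 e he he1 c a0 θ hc ha0 hθ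
  refine ⟨A1 + A2, by positivity, min β1 β2, lt_min hβ1 hβ2, C1 + C2, by positivity,
    max 1 (max R1 R2), ?_⟩
  intro R hR T hfit xS q r k n hcr hrR hq hn hnR b S x hS hx hdom
  have hRn : 1 ≤ R := (le_max_left _ _).trans hR
  have hRR1 : R1 ≤ R := (le_max_left _ _).trans ((le_max_right _ _).trans hR)
  have hRR2 : R2 ≤ R := (le_max_right _ _).trans ((le_max_right _ _).trans hR)
  have hRr : (1 : ℝ) ≤ R := by exact_mod_cast hRn
  have hRp : (0 : ℝ) < R := by linarith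
  have hn0 : (0 : ℝ) < n := lt_of_lt_of_le (by positivity) hn
  have hnR' : (n : ℝ) ≤ R := by exact_mod_cast hnR
  have hG : 0 ≤ Ex T.V (fun ω => if S ω then NT733.Gb T xS q r k b ω (x ω) else 0) :=
    H12.Ex_nonneg fun ω _ => by
      split_ifs
      · exact Gb_nonneg _
      · exact le_rfl
  have hS' : At (tE T.V xS q r k) S := ⟨hS.onE, hS.uns⟩
  have hx' : At (tE T.V xS q r k) x := ⟨hx.onE, hx.uns⟩
  have hO : ∀ ω, OE T ((tE T.V xS q r k).toStop.E ω) = ON T xS ω q r k := by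
    intro ω
    rw [Tm.GTime.toStop_E, tE_N]
    rfl
  have hle : Ex T.V (fun ω => if S ω then
      (if NT733.VisN T xS ω q r k (x ω) n then (1 : ℝ) else 0) else 0) ≤
      Ex T.V (fun ω => if S ω then
        (if Visited T xS q r k x (3 * n) ω then (1 : ℝ) else 0) else 0) := by
    refine Ex_dom_mono fun ω hω hSω => ?_
    by_cases h3 : NT733.VisN T xS ω q r k (x ω) n
    · have h4 : Visited T xS q r k x (3 * n) ω := by
        obtain ⟨m, m1, m2, m3⟩ := h3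
        refine ⟨m, m1, m2, ?_⟩
        rw [mem_box_dn905] at m3 ⊢
        omega
      rw [if_pos h3, if_pos h4]
    · rw [if_neg h3]
      split_ifs <;> norm_num
  refine hle.trans ?_
  have hy0 : 0 < (n : ℝ) / R := by positivity
  have hy1 : (n : ℝ) / R ≤ 1 := by rw [div_le_one hRp]; exact hnR'
  have hdomE : ∀ ω ∈ DD T.V, S ω → (tE T.V xS q r k).N ω < Tm.M T.V xS ω ∧ dn q (x ω) ≤ 2 * r ∧
      θ * R ≤ dF T.faceSet (x ω) ∧
      (K + 1) * n ≤ dF (OE T ((tE T.V xS q r k).toStop.E ω)) (x ω) ∧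
      dF (OE T ((tE T.V xS q r k).toStop.E ω)) (x ω) ≤ 5 * (K + 1) * n := by
    intro ω hω hSω
    obtain ⟨g1, g2, g3, g4, g5⟩ := hdom ω hω hSω
    refine ⟨?_, g2, g3, ?_, ?_⟩
    · rw [tE_N]
      exact g1
    · rw [hO]
      exact g4
    · rw [hO]
      exact g5
  by_cases hreg : (R : ℝ) ^ (1 - e) ≤ n
  · have h5 := h1 R hRR1 T hfit xS q r k n hcr hrR hq hreg (by rw [Real.rpow_one]; exact hnR') b
      S x hS' hx' (fun ω hω hSω => by
        obtain ⟨g1, g2, g3, g4⟩ := hdomE ω hω hSω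
        exact ⟨g1, g2, by rw [zero_mul]; positivity, g4⟩)
    exact vbp2_aux hG rfl hA2 hC1 rfl hC2 hRr (min_le_left _ _) hy0 hy1 h5
  · have h5 := h2 R hRR2 T hfit xS q r k n hcr hrR hq hn (not_le.1 hreg).le b S x hS' hx' hdomE
    exact vbp2_aux hG (add_comm _ _) hA1 hC2 (add_comm _ _) hC1 hRr (min_le_right _ _) hy0 hy1 h5

end Vale.Agent.P155.NT34
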