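import Vale.Agent.P155.NT34.LowP
import Vale.Agent.P155.NT211.New
import Vale.Agent.P155.NT276.DropBump
import Vale.Agent.P155.NT276.VBDef

/-!
# P155, NT: the first visit of a box during an excursion, and the energy drop
-/

namespace Vale.Agent.P155.NT34

open Vale.Agent.P155 G45 G S743 T802 T905 J Finset NT NT802 NT276 NT743 NT905 H12 Function

/-- a property of the tip with a parameter which is determined at the time `τ` -/
theorem adapted_at {V : Finset Pt} {xS : ℤ} {τ : Tm.GTime V xS} {α : Type*} {x : Conf → α}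
    (hx : At τ x) (Q : α → Pt → Prop) :
    Tm.Adapted τ (fun ω n => Q (x ω) (Tm.p V xS ω n)) where
  uns ω hω ω' hω' hu n hn hM := by
    rw [hx.uns ω hω ω' hω' hu, Tm.p_uns hω hω' hu hM]
  det ω hω ω' hω' n hn hM h := by
    rw [hx.det ω hω ω' hω' (h.mono (Tm.En_mono hn)), Tm.p_onE hω hω' h le_rfl]

section

variable {T : Temp} {xS : ℤ} {q : Pt} {r k : ℕ} {x : Conf → Pt}

/-- the first visit of `box (x ω) m` during the excursion `k` (its end if there is no visit) -/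
noncomputable def tV (hx : At (tE T.V xS q r k) x) (m : ℕ) : Tm.GTime T.V xS :=
  Tm.GTime.first (tE T.V xS q r k) (Tm.exiT T.V xS q (2 * r) (4 * r) (k + 1))
    (fun ω _ => Tm.entT_le_exiT T.V xS q (2 * r) (4 * r) k ω)
    (fun ω n => Tm.p T.V xS ω n ∈ box (x ω) m) (adapted_at hx (fun y v => v ∈ box y m))

variable {hx : At (tE T.V xS q r k) x} {m : ℕ} {ω : Conf}

theorem tE_le_tV : (tE T.V xS q r k).N ω ≤ (tV hx m).N ω := (NT802.fst_mem _ _ _).1

theorem tV_le_exi : (tV hx m).N ω ≤ (Tm.exiT T.V xS q (2 * r) (4 * r) (k + 1)).N ω :=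
  NT802.fst_le (Tm.entT_le_exiT _ _ _ _ _ _ _)

/-- the time of the first visit is a time of the same loop -/
theorem tV_facts (hω : ω ∈ DD T.V) (hr : 1 ≤ r) (hq : (16 * r : ℤ) ≤ |q.1 - xS|)
    (hk : (tE T.V xS q r k).N ω < Tm.M T.V xS ω) :
    (tV hx m).N ω < Tm.M T.V xS ω ∧ (tV hx m).toStop.New ω ∧
      (tV hx m).toStop.L ω = (tE T.V xS q r k).toStop.L ω ∧
      (tV hx m).toStop.t ω = (tE T.V xS q r k).toStop.t ω ∧
      (tE T.V xS q r k).toStop.i ω ≤ (tV hx m).toStop.i ω := by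
  obtain ⟨h1, h2⟩ := NT905.exc_loop hω hr hq hk
  have h3 := h2 _ (tE_le_tV (hx := hx) (m := m)) tV_le_exi
  have h4 := lt_of_le_of_lt (tV_le_exi (hx := hx) (m := m)) h1
  have hle := tE_le_tV (hx := hx) (m := m) (ω := ω)
  refine ⟨h4, ?_, ?_, ?_, ?_⟩
  · refine new_of_valid hω h4 ?_
    rw [h3]
    exact (tE_new hω hr hq hk).1
  · unfold Stop.L
    rw [Tm.GTime.toStop_t, Tm.GTime.toStop_t, h3]
  · rw [Tm.GTime.toStop_t, Tm.GTime.toStop_t, h3]
  · obtain ⟨j, hj⟩ : ∃ j, (tV hx m).N ω = (tE T.V xS q r k).N ω + j :=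
      ⟨(tV hx m).N ω - (tE T.V xS q r k).N ω, by omega⟩
    have h5 := NT211.exc_run hω hr hq hk j (by
      rw [← hj]
      exact tV_le_exi)
    rw [← hj] at h5
    rw [Tm.GTime.toStop_i, Tm.GTime.toStop_i, h5]
    simp only
    omega

/-- no visit before the first one -/
theorem tV_first {n : ℕ} (h1 : (tE T.V xS q r k).N ω ≤ n) (h2 : n < (tV hx m).N ω) :
    Tm.p T.V xS ω n ∉ box (x ω) m :=
  (NT802.not_of_lt (N := (Tm.exiT T.V xS q (2 * r) (4 * r) (k + 1)).N ω)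
    (P := fun n => Tm.p T.V xS ω n ∈ box (x ω) m) h1 h2).1

/-- the tip during the excursion moves by steps of length one -/
theorem exc_adj (hω : ω ∈ DD T.V) (hr : 1 ≤ r) (hq : (16 * r : ℤ) ≤ |q.1 - xS|)
    (hk : (tE T.V xS q r k).N ω < Tm.M T.V xS ω) {n : ℕ} (h1 : (tE T.V xS q r k).N ω ≤ n)
    (h2 : n < (Tm.exiT T.V xS q (2 * r) (4 * r) (k + 1)).N ω) :
    Adj (Tm.p T.V xS ω n) (Tm.p T.V xS ω (n + 1)) := by
  obtain ⟨hsV, hsE, -⟩ := (walk hω xS).valid _ hk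
  have hM := (NT905.exc_loop hω hr hq hk).1
  obtain ⟨j, hj⟩ : ∃ j, n = (tE T.V xS q r k).N ω + j := ⟨n - (tE T.V xS q r k).N ω, by omega⟩
  subst hj
  have h3 := NT211.exc_run hω hr hq hk j (by omega)
  have h4 := NT211.exc_run hω hr hq hk (j + 1) (by omega)
  have hval := (walk hω xS).valid ((tE T.V xS q r k).N ω + j) (by omega)
  rw [h3] at hval
  have hadj := go_adj' hω hsV (i := (Tm.tm T.V xS ω ((tE T.V xS q r k).N ω)).2 + j) hval.2.2
  unfold Tm.p
  rw [add_assoc, h3, h4]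
  exact hadj

/-- at the first visit (or at the end of the excursion) all points of the excursion are at distance
at least `m` of `x` -/
theorem tV_dn (hω : ω ∈ DD T.V) (hr : 1 ≤ r) (hq : (16 * r : ℤ) ≤ |q.1 - xS|)
    (hk : (tE T.V xS q r k).N ω < Tm.M T.V xS ω)
    (hd : m < dF (OE T ((tE T.V xS q r k).toStop.E ω)) (x ω)) {n : ℕ}
    (h1 : (tE T.V xS q r k).N ω ≤ n) (h2 : n ≤ (tV hx m).N ω) :
    m ≤ dn (x ω) (Tm.p T.V xS ω n) := by
  rcases h2.lt_or_eq with h3 | h3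
  · have := tV_first h1 h3
    rw [mem_box_dn905] at this
    omega
  · rcases h1.lt_or_eq with h4 | h4
    · have h5 := tV_first (hx := hx) (m := m) (ω := ω) (n := n - 1) (by omega) (by omega)
      rw [mem_box_dn905] at h5
      have h6 := exc_adj hω hr hq hk (n := n - 1) (by omega) (by
        have := tV_le_exi (hx := hx) (m := m) (ω := ω)
        omega)
      rw [show n - 1 + 1 = n by omega] at h6
      have h7 := NT426.dn_of_adj h6
      have h8 := G45.dn_tri (x ω) (Tm.p T.V xS ω n) (Tm.p T.V xS ω (n - 1))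
      rw [G45.dn_comm (Tm.p T.V xS ω n)] at h8
      omega
    · have h5 : Tm.p T.V xS ω n ∉ OE T ((tE T.V xS q r k).toStop.E ω) :=
        NT802.not_free (Tm.p_mem_En h4.ge)
      have := G45.dF_le h5 (x := x ω)
      omega

/-- the points which are free at the beginning and at distance at most `m - 2` of `x` are free at
the first visit -/
theorem tV_free (hω : ω ∈ DD T.V) (hr : 1 ≤ r) (hq : (16 * r : ℤ) ≤ |q.1 - xS|)
    (hk : (tE T.V xS q r k).N ω < Tm.M T.V xS ω)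
    (hd : m < dF (OE T ((tE T.V xS q r k).toStop.E ω)) (x ω)) {y : Pt}
    (hy : y ∈ OE T ((tE T.V xS q r k).toStop.E ω)) (hxy : dn (x ω) y + 2 ≤ m) :
    y ∈ OE T ((tV hx m).toStop.E ω) := by
  refine ⟨hy.1, ?_⟩
  rintro ⟨w, hwy, hw⟩
  have hM := (NT905.exc_loop hω hr hq hk).1
  have hle := tE_le_tV (hx := hx) (m := m) (ω := ω)
  have hle2 := tV_le_exi (hx := hx) (m := m) (ω := ω)
  obtain ⟨j0, hm⟩ : ∃ j0, (tV hx m).N ω = (tE T.V xS q r k).N ω + j0 :=
    ⟨(tV hx m).N ω - (tE T.V xS q r k).N ω, by omega⟩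
  have hrun := NT211.exc_run hω hr hq hk
  have hw1 : w ∉ (tE T.V xS q r k).toStop.E ω := fun h1 => hy.2 ⟨w, hwy, h1⟩
  have hw2 : w ∈ Eti xS ω (Tm.tm T.V xS ω ((tE T.V xS q r k).N ω)).1
      ((Tm.tm T.V xS ω ((tE T.V xS q r k).N ω)).2 + j0) := by
    have h1 : (tV hx m).toStop.E ω = Tm.En T.V xS ω ((tV hx m).N ω) := rfl
    rw [h1, hm] at hw
    unfold Tm.En at hw
    rw [hrun j0 (by omega)] at hw
    exact hw
  obtain ⟨j, hjm, hjw⟩ : ∃ j, j ≤ j0 ∧ w = Tm.p T.V xS ω ((tE T.V xS q r k).N ω + j) := by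
    rcases hw2 with h1 | ⟨i, hi, h1⟩
    · exact absurd (Or.inl h1) hw1
    · rcases Nat.lt_or_ge (Tm.tm T.V xS ω ((tE T.V xS q r k).N ω)).2 i with h2 | h2
      · refine ⟨i - (Tm.tm T.V xS ω ((tE T.V xS q r k).N ω)).2, by omega, ?_⟩
        unfold Tm.p
        rw [hrun _ (by omega), h1]
        congr 1
        simp only
        omega
      · exact absurd (Or.inr ⟨i, h2, h1⟩) hw1
  have h3 := tV_dn (hx := hx) hω hr hq hk hd (n := (tE T.V xS q r k).N ω + j) (by omega)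
    (by omega)
  rw [← hjw] at h3
  have hwp : dn y w ≤ 1 := by
    have h1 : w ∈ T802.corners y := hwy
    simp only [T802.corners, mem_insert, mem_singleton] at h1
    rw [T802.dn_le_iff]
    push_cast
    rcases h1 with rfl | rfl | rfl | rfl <;> simp only <;> omega
  have h4 := G45.dn_tri (x ω) w y
  rw [G45.dn_comm w y] at h4
  have h5 := G45.dn_tri (x ω) y w
  omega

/-- distances to the free faces at the first visit -/
theorem tV_dF (hω : ω ∈ DD T.V) (hr : 1 ≤ r) (hq : (16 * r : ℤ) ≤ |q.1 - xS|)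
    (hk : (tE T.V xS q r k).N ω < Tm.M T.V xS ω)
    (hd : m < dF (OE T ((tE T.V xS q r k).toStop.E ω)) (x ω)) {y : Pt} {a : ℕ}
    (hxy : dn (x ω) y + a + 1 ≤ m) : a ≤ dF (OE T ((tV hx m).toStop.E ω)) y := by
  obtain ⟨z, hz, hzd⟩ := G45.exists_dF (G45.exists_notMem (oe_finite T ((tV hx m).toStop.E ω))) y
  rw [← hzd]
  by_contra hc
  have h1 := G45.dn_tri (x ω) y z
  have h1' := G45.dn_tri (x ω) z y
  refine hz (tV_free hω hr hq hk hd ?_ (by omega))
  by_contra hc2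
  have := G45.dF_le hc2 (x := x ω)
  omega

/-- a visit of the excursion -/
def Visited (T : Temp) (xS : ℤ) (q : Pt) (r k : ℕ) (x : Conf → Pt) (m : ℕ) (ω : Conf) : Prop :=
  ∃ n, eN T xS ω q r k ≤ n ∧ n < xN T xS ω q r k ∧ gN T xS ω n ∈ box (x ω) m

theorem visited_iff (hx : At (tE T.V xS q r k) x) : Visited T xS q r k x m ω →
    (tV hx m).N ω < (Tm.exiT T.V xS q (2 * r) (4 * r) (k + 1)).N ω ∧
      Tm.p T.V xS ω ((tV hx m).N ω) ∈ box (x ω) m := by
  rintro ⟨n, h1, h2, h3⟩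
  have h4 : (tV hx m).N ω ≤ n := by
    refine NT802.fst_min ?_ (Or.inl h3)
    rw [tE_N]
    exact h1
  have h5 : n < (Tm.exiT T.V xS q (2 * r) (4 * r) (k + 1)).N ω := by
    rw [Tm.exiT_N]
    exact h2
  refine ⟨by omega, ?_⟩
  have h6 := (NT802.fst_mem ((Tm.exiT T.V xS q (2 * r) (4 * r) (k + 1)).N ω)
    (fun n => Tm.p T.V xS ω n ∈ box (x ω) m) ((tE T.V xS q r k).N ω)).2
  have h7 : (tV hx m).N ω = NT802.fst ((Tm.exiT T.V xS q (2 * r) (4 * r) (k + 1)).N ω)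
    (fun n => Tm.p T.V xS ω n ∈ box (x ω) m) ((tE T.V xS q r k).N ω) := rfl
  rw [← h7] at h6
  exact h6.resolve_right (by omega)

/-- **the energy drop at a visit** -/
theorem drop_visit : ∃ K : ℕ, 17 ≤ K ∧ ∃ c : ℝ, 0 < c ∧ ∀ (T : Temp) (xS : ℤ) (q : Pt) (r k : ℕ)
    (x : Conf → Pt) (hx : At (tE T.V xS q r k) x) (κ : ℕ) (ω : Conf), ω ∈ DD T.V → 1 ≤ r →
    (16 * r : ℤ) ≤ |q.1 - xS| → (tE T.V xS q r k).N ω < Tm.M T.V xS ω → 400 ≤ κ →
    K * κ < dF (OE T ((tE T.V xS q r k).toStop.E ω)) (x ω) →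
    0 ≤ pair (S743.bump κ (x ω)) (pot (OE T ((tE T.V xS q r k).toStop.E ω)) (S743.bump κ (x ω))) -
      pair (S743.bump κ (x ω)) (pot (OE T ((tV hx (3 * κ)).toStop.E ω)) (S743.bump κ (x ω))) ∧
    (Visited T xS q r k x (3 * κ) ω → c ≤
      pair (S743.bump κ (x ω)) (pot (OE T ((tE T.V xS q r k).toStop.E ω)) (S743.bump κ (x ω))) -
      pair (S743.bump κ (x ω)) (pot (OE T ((tV hx (3 * κ)).toStop.E ω)) (S743.bump κ (x ω)))) := by
  obtain ⟨K, hK16, c, hc, hdrop⟩ := drop_bump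
  refine ⟨K + 1, by omega, c, hc, ?_⟩
  intro T xS q r k x hx κ ω hω hr hq hk hκ hd
  have hle := tE_le_tV (hx := hx) (m := 3 * κ) (ω := ω)
  have hsub : OE T ((tV hx (3 * κ)).toStop.E ω) ⊆ OE T ((tE T.V xS q r k).toStop.E ω) :=
    NT802.OE_anti (Tm.En_mono hle)
  have hu1 := pot_spec (oe_finite T ((tE T.V xS q r k).toStop.E ω)) (S743.bump κ (x ω))
  have hu2 := pot_spec (oe_finite T ((tV hx (3 * κ)).toStop.E ω)) (S743.bump κ (x ω))
  refine ⟨?_, fun hv => ?_⟩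
  · have := pair_mono (oe_finite T ((tE T.V xS q r k).toStop.E ω)) hsub
      (fun y _ => S743.bump_nonneg κ (x ω) y) hu1 hu2
    linarith
  · obtain ⟨h1, h2⟩ := visited_iff hx hv
    rw [mem_box_dn905] at h2
    have hK1 : (K + 1) * κ = K * κ + κ := by ring
    refine hdrop _ _ (oe_finite T _) hsub (x ω) κ _ _ hκ ?_ hu1 hu2 ?_
    · intro y hy
      by_contra hc2
      have := G45.dF_le hc2 (x := x ω)
      omega
    · intro x' hx' a ha1 ha2
      have h3 : Tm.p T.V xS ω ((tE T.V xS q r k).N ω) ∉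
          OE T ((tE T.V xS q r k).toStop.E ω) := NT802.not_free (Tm.p_mem_En le_rfl)
      have h4 := G45.dF_le h3 (x := x ω)
      have h5 := G45.dn_tri (x ω) x' (Tm.p T.V xS ω ((tE T.V xS q r k).N ω))
      have h6 := G45.dn_tri x' (x ω) (Tm.p T.V xS ω ((tV hx (3 * κ)).N ω))
      rw [G45.dn_comm x' (x ω)] at h6
      obtain ⟨i, hi1, hi2, hi3⟩ := ring_hit (g := fun n => Tm.p T.V xS ω n) hle
        (fun i h7 h8 => by
          exact (NT426.dn_of_adj (exc_adj hω hr hq hk h7 (by omega))).le) x' (r := a)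
        (by omega) (by omega)
      exact ⟨_, NT802.not_free (Tm.p_mem_En hi2), hi3⟩

end

open Classical in
/-- **the visit bound from the energy difference** -/
theorem visit_le : ∃ K : ℕ, 17 ≤ K ∧ ∃ c : ℝ, 0 < c ∧ ∀ (T : Temp) (xS : ℤ) (q : Pt) (r k : ℕ)
    (x : Conf → Pt) (hx : At (tE T.V xS q r k) x) (κ : ℕ) (Dom : Conf → Prop), 1 ≤ r →
    (16 * r : ℤ) ≤ |q.1 - xS| → 400 ≤ κ →
    (∀ ω ∈ DD T.V, Dom ω → (tE T.V xS q r k).N ω < Tm.M T.V xS ω ∧
      K * κ < dF (OE T ((tE T.V xS q r k).toStop.E ω)) (x ω)) →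
    c * Ex T.V (fun ω => if Dom ω then (if Visited T xS q r k x (3 * κ) ω then (1 : ℝ) else 0)
      else 0) ≤
    Ex T.V (fun ω => if Dom ω then
      (pair (S743.bump κ (x ω)) (pot (OE T ((tE T.V xS q r k).toStop.E ω)) (S743.bump κ (x ω))) -
      pair (S743.bump κ (x ω)) (pot (OE T ((tV hx (3 * κ)).toStop.E ω)) (S743.bump κ (x ω))))
      else 0) := by
  obtain ⟨K, hK, c, hc, hd⟩ := drop_visit
  refine ⟨K, hK, c, hc, ?_⟩
  intro T xS q r k x hx κ Dom hr hq hκ hD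
  unfold Ex
  rw [smul_eq_mul, smul_eq_mul, ← mul_assoc, mul_comm c, mul_assoc, Finset.mul_sum]
  refine mul_le_mul_of_nonneg_left (Finset.sum_le_sum fun ω hω => ?_) (by positivity)
  by_cases h : Dom ω
  · rw [if_pos h, if_pos h]
    obtain ⟨h1, h2⟩ := hd T xS q r k x hx κ ω hω hr hq (hD ω hω h).1 hκ (hD ω hω h).2
    split_ifs with h3
    · rw [mul_one]
      exact h2 h3
    · rw [mul_zero]
      exact h1
  · rw [if_neg h, if_neg h, mul_zero]

/-- the hypotheses of the first moment theorems, at the beginning of the excursion -/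
theorem fms_E {T : Temp} {xS : ℤ} {q : Pt} {r k : ℕ} {x : Conf → Pt}
    (hx : At (tE T.V xS q r k) x) {Dom : Conf → Prop} (hD : At (tE T.V xS q r k) Dom) (κ : ℕ)
    (hr : 1 ≤ r) (hq : (16 * r : ℤ) ≤ |q.1 - xS|)
    (hlt : ∀ ω ∈ DD T.V, Dom ω → (tE T.V xS q r k).N ω < Tm.M T.V xS ω) :
    FMs (tE T.V xS q r k).toStop Dom (fun ω => S743.bump κ (x ω)) :=
  fms_of_at (fun _ _ => le_rfl) hD (hx.comp₁ (fun y => S743.bump κ y))
    (fun ω hω hd => tE_new hω hr hq (hlt ω hω hd))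

/-- the hypotheses of the first moment theorems, at the first visit -/
theorem fms_V {T : Temp} {xS : ℤ} {q : Pt} {r k : ℕ} {x : Conf → Pt}
    (hx : At (tE T.V xS q r k) x) {Dom : Conf → Prop} (hD : At (tE T.V xS q r k) Dom) (κ m : ℕ)
    (hr : 1 ≤ r) (hq : (16 * r : ℤ) ≤ |q.1 - xS|)
    (hlt : ∀ ω ∈ DD T.V, Dom ω → (tE T.V xS q r k).N ω < Tm.M T.V xS ω) :
    FMs (tV hx m).toStop Dom (fun ω => S743.bump κ (x ω)) :=
  fms_of_at (fun _ _ => tE_le_tV) hD (hx.comp₁ (fun y => S743.bump κ y))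
    (fun ω hω hd => (tV_facts hω hr hq (hlt ω hω hd)).2.1)

/-- the standard bump as a bump around another point -/
theorem bump_off {κ L : ℕ} {x p : Pt} (hκ : 5 ≤ κ) (hL : 1 ≤ L) (hp : dn p x + κ ≤ L * κ) :
    IsBump p (L * κ) (16000000 * (L : ℝ) ^ 6 / ((L * κ : ℕ) : ℝ) ^ 2) (S743.bump κ x) := by
  have h := bump_scale hL (by omega) (by norm_num) (S743.bump_isBump hκ x)
  refine ⟨?_, h.2⟩
  intro y hy
  by_contra hc
  have h1 := S743.bump_supp hκ hc
  rw [mem_box_dn905] at h1 hy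
  have h2 := G45.dn_tri p x y
  omega

/-- **Harnack** for the harmonic measures at the beginning of the excursion -/
theorem gb_harnack : ∃ A : ℝ, 1 ≤ A ∧ ∀ (T : Temp) (xS : ℤ) (q : Pt) (r k : ℕ) (b : Bool)
    (ω : Conf) (x : Pt) (κ : ℕ), 5 ≤ κ → 2 * κ < dF (ON T xS ω q r k) x →
    ∑ y ∈ box x κ, S743.bump κ x y * Gb T xS q r k b ω y ≤ A * Gb T xS q r k b ω x := by
  obtain ⟨β, hβ, hSD, -⟩ := G1.decay
  obtain ⟨A, hA, hh⟩ := G45.harnack hβ (by norm_num) hSD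
  refine ⟨A, hA, ?_⟩
  intro T xS q r k b ω x κ hκ hd
  have hH := (tE T.V xS q r k).toStop.Hf_spec ω
  have hO : OE T ((tE T.V xS q r k).toStop.E ω) = ON T xS ω q r k := by
    rw [Tm.GTime.toStop_E, tE_N]
    rfl
  have h0 : ∀ y, 0 ≤ Gb T xS q r k b ω y := by
    intro y
    unfold Gb
    split_ifs
    · have := hH.le_one y
      linarith
    · exact hH.nonneg y
  have hl : ∀ y, dn x y < 2 * κ → lap (Gb T xS q r k b ω) y = 0 := by
    intro y hy
    have h1 : y ∈ OE T ((tE T.V xS q r k).toStop.E ω) := by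
      by_contra hc
      rw [hO] at hc
      have := G45.dF_le hc (x := x)
      omega
    have h2 := hH.1 y h1
    unfold Gb lap at *
    split_ifs
    · linarith
    · exact h2
  calc ∑ y ∈ box x κ, S743.bump κ x y * Gb T xS q r k b ω y
      ≤ ∑ y ∈ box x κ, S743.bump κ x y * (A * Gb T xS q r k b ω x) := by
        refine Finset.sum_le_sum fun y hy => ?_
        refine mul_le_mul_of_nonneg_left ?_ (S743.bump_nonneg κ x y)
        exact hh x κ _ (fun y _ => h0 y) hl y x (mem_box_dn905.1 hy) (by rw [G45.dn_self]; omega)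
    _ = A * Gb T xS q r k b ω x := by
        rw [← Finset.sum_mul, S743.bump_sum hκ x (Finset.Subset.refl _), one_mul]

end Vale.Agent.P155.NT34
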