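import Vale.Agent.P155.NT34.Ev

/-!
# P155, NT: the edge set modulo two of a lattice walk
-/

namespace Vale.Agent.P155.NT34

open Finset Vale.Agent.P155.T802

open Classical in
/-- the edge `{u, v}` as a set of vertical edges -/
noncomputable def eV (u v w : Pt) : ZMod 2 :=
  if (u = w ∧ v = (w.1, w.2 + 1)) ∨ (v = w ∧ u = (w.1, w.2 + 1)) then 1 else 0

open Classical in
/-- the edge `{u, v}` as a set of horizontal edges -/
noncomputable def eH (u v w : Pt) : ZMod 2 :=
  if (u = w ∧ v = (w.1 + 1, w.2)) ∨ (v = w ∧ u = (w.1 + 1, w.2)) then 1 else 0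

open Classical in
noncomputable def dl (u w : Pt) : ZMod 2 := if w = u then 1 else 0

theorem deg_edge {u v : Pt} (h : Adj u v) (w : Pt) :
    eV u v w + eV u v (w.1, w.2 - 1) + eH u v w + eH u v (w.1 - 1, w.2) = dl u w + dl v w := by
  obtain ⟨x, y⟩ := u
  obtain ⟨s, t⟩ := w
  have h' := mem_nbrs.2 h
  simp only [nbrs, mem_insert, mem_singleton] at h'
  unfold eV eH dl
  rcases h' with rfl | rfl | rfl | rfl
  · simp only [Prod.mk.injEq]
    rw [if_neg (by omega), if_neg (by omega)]
    by_cases h1 : s = x ∧ t = y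
    · rw [if_pos (by omega), if_neg (by omega), if_pos (by omega), if_neg (by omega)]; simp
    · by_cases h2 : s = x + 1 ∧ t = y
      · rw [if_neg (by omega), if_pos (by omega), if_neg (by omega), if_pos (by omega)]; simp
      · rw [if_neg (by omega), if_neg (by omega), if_neg (by omega), if_neg (by omega)]; simp
  · simp only [Prod.mk.injEq]
    rw [if_neg (by omega), if_neg (by omega)]
    by_cases h1 : s = x ∧ t = y
    · rw [if_neg (by omega), if_pos (by omega), if_pos (by omega), if_neg (by omega)]; simp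
    · by_cases h2 : s = x - 1 ∧ t = y
      · rw [if_pos (by omega), if_neg (by omega), if_neg (by omega), if_pos (by omega)]; simp
      · rw [if_neg (by omega), if_neg (by omega), if_neg (by omega), if_neg (by omega)]; simp
  · simp only [Prod.mk.injEq]
    rw [if_neg (by omega : ¬ ((x = s ∧ y = t) ∧ x = s + 1 ∧ y + 1 = t ∨ _)),
      if_neg (by omega : ¬ ((x = s - 1 ∧ y = t) ∧ _ ∨ _))]
    by_cases h1 : s = x ∧ t = y
    · rw [if_pos (by omega), if_neg (by omega), if_pos (by omega), if_neg (by omega)]; simp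
    · by_cases h2 : s = x ∧ t = y + 1
      · rw [if_neg (by omega), if_pos (by omega), if_neg (by omega), if_pos (by omega)]; simp
      · rw [if_neg (by omega), if_neg (by omega), if_neg (by omega), if_neg (by omega)]; simp
  · simp only [Prod.mk.injEq]
    rw [if_neg (by omega : ¬ ((x = s ∧ y = t) ∧ x = s + 1 ∧ y - 1 = t ∨ _)),
      if_neg (by omega : ¬ ((x = s - 1 ∧ y = t) ∧ _ ∨ _))]
    by_cases h1 : s = x ∧ t = y
    · rw [if_neg (by omega), if_pos (by omega), if_pos (by omega), if_neg (by omega)]; simp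
    · by_cases h2 : s = x ∧ t = y - 1
      · rw [if_pos (by omega), if_neg (by omega), if_neg (by omega), if_pos (by omega)]; simp
      · rw [if_neg (by omega), if_neg (by omega), if_neg (by omega), if_neg (by omega)]; simp

open Classical in
/-- value of one edge at another -/
theorem ev_edge {u v p n : Pt} (h : Adj u v) (hp : Adj p n) :
    ev (eV u v) (eH u v) p n = if (p = u ∧ n = v) ∨ (p = v ∧ n = u) then 1 else 0 := by
  obtain ⟨x, y⟩ := p
  obtain ⟨s, t⟩ := u
  have h' := mem_nbrs.2 h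
  simp only [nbrs, mem_insert, mem_singleton] at h'
  have h'' := mem_nbrs.2 hp
  simp only [nbrs, mem_insert, mem_singleton] at h''
  have key : ∀ (P Q : Prop) [Decidable P] [Decidable Q], (P ↔ Q) →
      (if P then (1 : ZMod 2) else 0) = if Q then 1 else 0 := by
    intro P Q _ _ h
    by_cases hP : P
    · rw [if_pos hP, if_pos (h.1 hP)]
    · rw [if_neg hP, if_neg (fun hQ => hP (h.2 hQ))]
  rcases h'' with rfl | rfl | rfl | rfl
  · rw [ev_right]
    unfold eH
    refine key _ _ ?_
    rcases h' with rfl | rfl | rfl | rfl <;> simp only [Prod.mk.injEq] <;> constructor <;>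
      intro h <;> omega
  · rw [ev_left]
    unfold eH
    refine key _ _ ?_
    rcases h' with rfl | rfl | rfl | rfl <;> simp only [Prod.mk.injEq] <;> constructor <;>
      intro h <;> omega
  · rw [ev_up]
    unfold eV
    refine key _ _ ?_
    rcases h' with rfl | rfl | rfl | rfl <;> simp only [Prod.mk.injEq] <;> constructor <;>
      intro h <;> omega
  · rw [ev_down]
    unfold eV
    refine key _ _ ?_
    rcases h' with rfl | rfl | rfl | rfl <;> simp only [Prod.mk.injEq] <;> constructor <;>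
      intro h <;> omega

/-- the vertical edges of the walk `x 0, …, x n` -/
noncomputable def chV (x : ℕ → Pt) (n : ℕ) (w : Pt) : ZMod 2 :=
  ∑ i ∈ range n, eV (x i) (x (i + 1)) w

/-- the horizontal edges of the walk `x 0, …, x n` -/
noncomputable def chH (x : ℕ → Pt) (n : ℕ) (w : Pt) : ZMod 2 :=
  ∑ i ∈ range n, eH (x i) (x (i + 1)) w

/-- `x 0, …, x n` is a walk -/
def IsWalk (x : ℕ → Pt) (n : ℕ) : Prop := ∀ i, i < n → Adj (x i) (x (i + 1))

theorem deg_walk {x : ℕ → Pt} {n : ℕ} (h : IsWalk x n) (w : Pt) :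
    chV x n w + chV x n (w.1, w.2 - 1) + chH x n w + chH x n (w.1 - 1, w.2) =
      dl (x 0) w + dl (x n) w := by
  induction n with
  | zero => simp [chV, chH, z2]
  | succ n ih =>
    have ih' := ih (fun i hi => h i (by omega))
    have h1 := deg_edge (h n (by omega)) w
    unfold chV chH at ih' ⊢
    simp only [sum_range_succ]
    have e : ∀ a1 a2 a3 a4 b1 b2 b3 b4 : ZMod 2, a1 + b1 + (a2 + b2) + (a3 + b3) + (a4 + b4) =
        (a1 + a2 + a3 + a4) + (b1 + b2 + b3 + b4) := by intros; ring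
    rw [e, ih', h1]
    have e2 : ∀ p q r : ZMod 2, p + q + (q + r) = p + r := by decide
    exact e2 _ _ _

theorem eV_ne {u v w : Pt} (h : eV u v w ≠ 0) :
    (u = w ∧ v = (w.1, w.2 + 1)) ∨ (v = w ∧ u = (w.1, w.2 + 1)) := by
  by_contra hn
  exact h (if_neg hn)

theorem eH_ne {u v w : Pt} (h : eH u v w ≠ 0) :
    (u = w ∧ v = (w.1 + 1, w.2)) ∨ (v = w ∧ u = (w.1 + 1, w.2)) := by
  by_contra hn
  exact h (if_neg hn)

theorem chV_ne {x : ℕ → Pt} {n : ℕ} {w : Pt} (h : chV x n w ≠ 0) :
    ∃ i ≤ n, ∃ j ≤ n, x i = w ∧ x j = (w.1, w.2 + 1) := by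
  obtain ⟨i, hi, h1⟩ := exists_ne_zero_of_sum_ne_zero h
  rw [mem_range] at hi
  rcases eV_ne h1 with ⟨h2, h3⟩ | ⟨h2, h3⟩
  · exact ⟨i, hi.le, i + 1, hi, h2, h3⟩
  · exact ⟨i + 1, hi, i, hi.le, h2, h3⟩

theorem chH_ne {x : ℕ → Pt} {n : ℕ} {w : Pt} (h : chH x n w ≠ 0) :
    ∃ i ≤ n, ∃ j ≤ n, x i = w ∧ x j = (w.1 + 1, w.2) := by
  obtain ⟨i, hi, h1⟩ := exists_ne_zero_of_sum_ne_zero h
  rw [mem_range] at hi
  rcases eH_ne h1 with ⟨h2, h3⟩ | ⟨h2, h3⟩
  · exact ⟨i, hi.le, i + 1, hi, h2, h3⟩
  · exact ⟨i + 1, hi, i, hi.le, h2, h3⟩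

/-- a walk in a box -/
theorem inBox_walk {x : ℕ → Pt} {n : ℕ} {z : Pt} {r : ℕ} (h : ∀ i ≤ n, x i ∈ box z r) :
    InBox z r (chV x n) (chH x n) where
  ver := by
    intro v hv
    obtain ⟨i, hi, j, hj, h1, h2⟩ := chV_ne hv
    exact ⟨h1 ▸ h i hi, h2 ▸ h j hj⟩
  hor := by
    intro v hv
    obtain ⟨i, hi, j, hj, h1, h2⟩ := chH_ne hv
    exact ⟨h1 ▸ h i hi, h2 ▸ h j hj⟩

theorem inBox_add {a b c d : Pt → ZMod 2} {z : Pt} {r : ℕ} (h : InBox z r a b)
    (h' : InBox z r c d) : InBox z r (fun v => a v + c v) (fun v => b v + d v) where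
  ver := by
    intro v hv
    by_cases h1 : a v = 0
    · refine h'.ver v (fun h2 => hv ?_)
      simp only [h1, h2, add_zero]
    · exact h.ver v h1
  hor := by
    intro v hv
    by_cases h1 : b v = 0
    · refine h'.hor v (fun h2 => hv ?_)
      simp only [h1, h2, add_zero]
    · exact h.hor v h1

/-- an even edge set, if the support is in a box and the degrees vanish -/
theorem even_of_inBox {a b : Pt → ZMod 2} {z : Pt} {r : ℕ} (h : InBox z r a b)
    (he : ∀ v : Pt, a v + a (v.1, v.2 - 1) + b v + b (v.1 - 1, v.2) = 0) : EvenSet a b where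
  bd := by
    refine ⟨z.1 - r, fun v hv => ⟨?_, ?_⟩⟩
    · by_contra h0
      have := (mem_box.1 (h.ver v h0).1).1.1
      omega
    · by_contra h0
      have := (mem_box.1 (h.hor v h0).1).1.1
      omega
  even := he

open Classical in
theorem ev_walk {x : ℕ → Pt} {n : ℕ} (h : IsWalk x n) {p q : Pt} (hp : Adj p q) :
    ev (chV x n) (chH x n) p q = ∑ i ∈ range n,
      if (p = x i ∧ q = x (i + 1)) ∨ (p = x (i + 1) ∧ q = x i) then 1 else 0 := by
  induction n with
  | zero =>
    have e1 : chV x 0 = fun _ => 0 := by funext w; simp [chV]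
    have e2 : chH x 0 = fun _ => 0 := by funext w; simp [chH]
    rw [e1, e2, range_zero, sum_empty]
    unfold ev
    split_ifs <;> rfl
  | succ n ih =>
    have ih' := ih (fun i hi => h i (by omega))
    have e1 : chV x (n + 1) = fun w => chV x n w + eV (x n) (x (n + 1)) w := by
      funext w; simp [chV, sum_range_succ]
    have e2 : chH x (n + 1) = fun w => chH x n w + eH (x n) (x (n + 1)) w := by
      funext w; simp [chH, sum_range_succ]
    rw [e1, e2, ev_add, ih', ev_edge (h n (by omega)) hp, sum_range_succ]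

/-- no value at an edge one of whose ends is not on the walk -/
theorem ev_walk_zero {x : ℕ → Pt} {n : ℕ} (h : IsWalk x n) {p q : Pt} (hp : Adj p q)
    (hx : ∀ i ≤ n, x i ≠ p) : ev (chV x n) (chH x n) p q = 0 := by
  classical
  rw [ev_walk h hp]
  refine sum_eq_zero fun i hi => if_neg ?_
  rw [mem_range] at hi
  rintro (⟨h1, -⟩ | ⟨h1, -⟩)
  · exact hx i hi.le h1.symm
  · exact hx (i + 1) hi h1.symm

end Vale.Agent.P155.NT34
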