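import Vale.Agent.P155.NT34.XDef
import Vale.Agent.P155.T211Q.SignCov
import Vale.Agent.P155.A.InLoop
import Vale.Agent.P155.H12.Inputs
import Vale.Agent.P155.H12.Basic

/-!
# P155, necessity of the outer condition, block D3: second moment of the height against a bump
-/

namespace Vale.Agent.P155.NT34

open Finset SW HT T211Q H12

variable {V : Finset Pt} {ω : Conf}

/-- a loop which cuts a box comes close to it -/
theorem cuts_meets (hω : ω ∈ DD V) {L : Set Pt} (hL : L ∈ Loops ω) {z : Pt} {m : ℕ}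
    (h : Cuts ω L z m) : ∃ v ∈ L, v ∈ box z (m + 1) := by
  obtain ⟨⟨x, hx, hsx⟩, y, hy, hsy⟩ := h
  by_contra hcon
  push Not at hcon
  have h1 := H12.surr_const l_step hω hL z m hcon x hx
  have h2 := H12.surr_const l_step hω hL z m hcon y hy
  exact hsy (h2.1 (h1.2 hsx))

/-- a loop in a box surrounds no cell outside the box -/
theorem not_surr_off (hω : ω ∈ DD V) {L : Set Pt} (hL : L ∈ Loops ω) {x : Pt} {r : ℕ}
    (hLb : ∀ v ∈ L, v ∈ box x r) {f : Pt} (hs : surr ω L f) : f ∈ box x r := by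
  by_contra hf
  have hfin := A1.strict_finite hω hL
  have key : ∀ e1 e2 : ℤ, |e1| + |e2| = 1 →
      (∀ k : ℕ, (f.1 + k * e1, f.2 + k * e2) ∉ box x r) → False := by
    intro e1 e2 he hfar
    have hnotC : ∀ k : ℕ, ((f.1 + k * e1, f.2 + k * e2) : Pt) ∉ L := fun k hk =>
      hfar k (hLb _ hk)
    have hall : ∀ k : ℕ, surr ω L (f.1 + k * e1, f.2 + k * e2) := by
      intro k
      induction k with
      | zero => simpa using hs
      | succ k ih =>
        refine (A1.surr_adj hω hL ?_ (hnotC k) (hnotC (k + 1))).1 ih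
        unfold Adj
        simp only
        have a1 : f.1 + (k : ℤ) * e1 - (f.1 + ((k + 1 : ℕ) : ℤ) * e1) = - e1 := by push_cast; ring
        have a2 : f.2 + (k : ℤ) * e2 - (f.2 + ((k + 1 : ℕ) : ℤ) * e2) = - e2 := by push_cast; ring
        rw [a1, a2, abs_neg, abs_neg]
        exact he
    have hinj : Function.Injective (fun k : ℕ => ((f.1 + k * e1, f.2 + k * e2) : Pt)) := by
      intro k l hkl
      simp only [Prod.mk.injEq, add_right_inj] at hkl
      have : e1 ≠ 0 ∨ e2 ≠ 0 := by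
        by_contra hcon
        push Not at hcon
        rw [hcon.1, hcon.2] at he
        simp at he
      rcases this with h | h
      · exact_mod_cast mul_right_cancel₀ h hkl.1
      · exact_mod_cast mul_right_cancel₀ h hkl.2
    exact Set.infinite_range_of_injective hinj (hfin.subset (by
      rintro _ ⟨k, rfl⟩
      exact ⟨hnotC k, hall k⟩))
  rw [mem_box] at hf
  have h3 : f.1 < x.1 - r ∨ x.1 + r < f.1 ∨ f.2 < x.2 - r ∨ x.2 + r < f.2 := by omega
  rcases h3 with h3 | h3 | h3 | h3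
  · apply key (-1) 0 (by norm_num)
    intro k h
    rw [mem_box] at h
    simp only at h
    omega
  · apply key 1 0 (by norm_num)
    intro k h
    rw [mem_box] at h
    simp only at h
    omega
  · apply key 0 (-1) (by norm_num)
    intro k h
    rw [mem_box] at h
    simp only at h
    omega
  · apply key 0 1 (by norm_num)
    intro k h
    rw [mem_box] at h
    simp only at h
    omega

/-- cells surrounded by a loop of diameter at most `e` are close to each other -/
theorem surr_close (hω : ω ∈ DD V) {L : Set Pt} (hL : L ∈ Loops ω) {e : ℕ}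
    (he : ∀ v ∈ L, ∀ w ∈ L, dn v w ≤ e) {x y : Pt} (hx : surr ω L x) (hy : surr ω L y) :
    y ∈ box x (2 * e) := by
  have hne : L.Nonempty := by
    obtain ⟨v, _, rfl⟩ := hL
    exact ⟨v, Relation.ReflTransGen.refl⟩
  obtain ⟨v, hv⟩ := hne
  have hb : ∀ w ∈ L, w ∈ box v e := fun w hw => dn_le_iff.1 (he v hv w hw)
  have h1 := not_surr_off hω hL hb hx
  have h2 := not_surr_off hω hL hb hy
  rw [mem_box] at *
  push_cast
  omega

open Classical in
/-- the deterministic bound -/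
theorem same_sum_le (hω : ω ∈ DD V) {z : Pt} {m e k : ℕ} {M : ℝ} {φ : Pt → ℝ}
    (hφ : ∀ x, |φ x| ≤ M) (h0 : ∑ x ∈ box z m, φ x = 0)
    (hc : ∀ L ∈ Loops ω, Cuts ω L z m → ∀ v ∈ L, ∀ w ∈ L, dn v w ≤ e) :
    ∑ x ∈ box z m, ∑ y ∈ box z m, φ x * φ y * (if SameLev k ω x y then 1 else 0) ≤
      M ^ 2 * (2 * m + 1) ^ 2 * (4 * e + 1) ^ 2 := by
  have hM : 0 ≤ M := (abs_nonneg _).trans (hφ z)
  have hcard : ∀ (x : Pt) (r : ℕ), ((box x r).card : ℝ) = (2 * r + 1) ^ 2 := by
    intro x r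
    unfold box
    rw [Finset.card_product, Int.card_Icc, Int.card_Icc]
    have e1 : (x.1 + r + 1 - (x.1 - r)).toNat = 2 * r + 1 := by omega
    have e2 : (x.2 + r + 1 - (x.2 - r)).toNat = 2 * r + 1 := by omega
    rw [e1, e2]
    push_cast
    ring
  have hx : ∀ x ∈ box z m, ∑ y ∈ box z m, φ x * φ y * (if SameLev k ω x y then 1 else 0) ≤
      M ^ 2 * (4 * e + 1) ^ 2 := by
    intro x hxm
    by_cases hex : ∃ A ∈ Loops ω, level ω A = k ∧ surr ω A x
    · obtain ⟨A, hA, hl, hsx⟩ := hex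
      have huniq : ∀ y, SameLev k ω x y ↔ surr ω A y := by
        intro y
        constructor
        · rintro ⟨B, hB, hlB, hBx, hBy⟩
          have : B = A := (L.laminar hω).lev_inj hB hA hBx hsx (by
            rw [← L.level_eq, ← L.level_eq, hlB, hl])
          rw [← this]
          exact hBy
        · intro h
          exact ⟨A, hA, hl, hsx, h⟩
      simp only [huniq]
      by_cases hcut : ∃ y ∈ box z m, ¬ surr ω A y
      · have hd := hc A hA ⟨⟨x, hxm, hsx⟩, hcut⟩
        calc ∑ y ∈ box z m, φ x * φ y * (if surr ω A y then 1 else 0)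
            ≤ ∑ y ∈ box z m, (if y ∈ box x (2 * e) then M ^ 2 else 0) := by
              refine Finset.sum_le_sum fun y _ => ?_
              by_cases hy : surr ω A y
              · rw [if_pos hy, if_pos (surr_close hω hA hd hsx hy), mul_one]
                calc φ x * φ y ≤ |φ x * φ y| := le_abs_self _
                  _ = |φ x| * |φ y| := abs_mul _ _
                  _ ≤ M * M := mul_le_mul (hφ x) (hφ y) (abs_nonneg _) hM
                  _ = M ^ 2 := by ring
              · rw [if_neg hy, mul_zero]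
                split_ifs <;> positivity
          _ ≤ ((box x (2 * e)).card : ℝ) * M ^ 2 := by
              rw [← Finset.sum_filter, Finset.sum_const, nsmul_eq_mul]
              refine mul_le_mul_of_nonneg_right ?_ (by positivity)
              exact_mod_cast Finset.card_le_card fun y hy => (Finset.mem_filter.1 hy).2
          _ = M ^ 2 * (4 * e + 1) ^ 2 := by
              rw [hcard]
              push_cast
              ring
      · push Not at hcut
        have : ∑ y ∈ box z m, φ x * φ y * (if surr ω A y then 1 else 0) =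
            φ x * ∑ y ∈ box z m, φ y := by
          rw [Finset.mul_sum]
          refine Finset.sum_congr rfl fun y hy => ?_
          rw [if_pos (hcut y hy), mul_one]
        rw [this, h0, mul_zero]
        positivity
    · have : ∑ y ∈ box z m, φ x * φ y * (if SameLev k ω x y then 1 else 0) = 0 := by
        refine Finset.sum_eq_zero fun y _ => ?_
        rw [if_neg, mul_zero]
        rintro ⟨A, hA, hl, hAx, -⟩
        exact hex ⟨A, hA, hl, hAx⟩
      rw [this]
      positivity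
  calc ∑ x ∈ box z m, ∑ y ∈ box z m, φ x * φ y * (if SameLev k ω x y then 1 else 0)
      ≤ ∑ _x ∈ box z m, M ^ 2 * (4 * e + 1) ^ 2 := Finset.sum_le_sum hx
    _ = M ^ 2 * (2 * m + 1) ^ 2 * (4 * e + 1) ^ 2 := by
        rw [Finset.sum_const, nsmul_eq_mul, hcard]
        ring

open Classical in
/-- second moment of one level -/
theorem ex_level_sq {z : Pt} {m e k : ℕ} {M : ℝ} {φ : Pt → ℝ} {g : Conf → ℝ}
    (hφ : ∀ x, |φ x| ≤ M) (h0 : ∑ x ∈ box z m, φ x = 0)
    (hg0 : ∀ ω ∈ DD V, 0 ≤ g ω) (hg1 : ∀ ω ∈ DD V, g ω ≤ 1)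
    (hg : ∀ ω ∈ DD V, ∀ S, g (swapOn S ω) = g ω)
    (hc : ∀ ω ∈ DD V, g ω ≠ 0 → ∀ L ∈ Loops ω, Cuts ω L z m → ∀ v ∈ L, ∀ w ∈ L, dn v w ≤ e) :
    Ex V (fun ω => g ω * (∑ x ∈ box z m, φ x * (ic k ω x : ℝ)) ^ 2) ≤
      M ^ 2 * (2 * m + 1) ^ 2 * (4 * e + 1) ^ 2 := by
  have hexp : Ex V (fun ω => g ω * (∑ x ∈ box z m, φ x * (ic k ω x : ℝ)) ^ 2) =
      Ex V (fun ω => g ω * ∑ x ∈ box z m, ∑ y ∈ box z m,
        φ x * φ y * (if SameLev (k + 1) ω x y then 1 else 0)) := by
    have e1 : ∀ ω, g ω * (∑ x ∈ box z m, φ x * (ic k ω x : ℝ)) ^ 2 =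
        ∑ x ∈ box z m, ∑ y ∈ box z m, φ x * φ y * (g ω * ((ic k ω x : ℝ) * ic k ω y)) := by
      intro ω
      rw [sq, Finset.sum_mul_sum, Finset.mul_sum]
      refine Finset.sum_congr rfl fun x _ => ?_
      rw [Finset.mul_sum]
      refine Finset.sum_congr rfl fun y _ => ?_
      ring
    have e2 : ∀ ω, g ω * ∑ x ∈ box z m, ∑ y ∈ box z m,
        φ x * φ y * (if SameLev (k + 1) ω x y then 1 else 0) =
        ∑ x ∈ box z m, ∑ y ∈ box z m, φ x * φ y *
          (g ω * (if SameLev (k + 1) ω x y then 1 else 0)) := by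
      intro ω
      rw [Finset.mul_sum]
      refine Finset.sum_congr rfl fun x _ => ?_
      rw [Finset.mul_sum]
      refine Finset.sum_congr rfl fun y _ => ?_
      ring
    simp only [e1, e2]
    rw [Ex_sum, Ex_sum]
    refine Finset.sum_congr rfl fun x _ => ?_
    rw [Ex_sum, Ex_sum]
    refine Finset.sum_congr rfl fun y _ => ?_
    rw [Ex_mul, Ex_mul, ex_cov k x y g hg]
  rw [hexp]
  refine Ex_const_le (by positivity) fun ω hω => ?_
  by_cases hgz : g ω = 0
  · rw [hgz, zero_mul]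
    positivity
  · have h1 := same_sum_le (k := k + 1) hω hφ h0 (hc ω hω hgz)
    have h2 := hg0 ω hω
    have h3 := hg1 ω hω
    have h4 : 0 ≤ M ^ 2 * (2 * (m : ℝ) + 1) ^ 2 * (4 * e + 1) ^ 2 := by positivity
    nlinarith

/-- **second moment of the height against a mean zero function in a box**, on an event where the
loops which cut the box are small -/
theorem ex_height_sq {z : Pt} {m e k : ℕ} {M : ℝ} {φ : Pt → ℝ} {g : Conf → ℝ}
    (hφ : ∀ x, |φ x| ≤ M) (hs : ∀ x, x ∉ box z m → φ x = 0) (h0 : ∑ᶠ x, φ x = 0)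
    (hg0 : ∀ ω ∈ DD V, 0 ≤ g ω) (hg1 : ∀ ω ∈ DD V, g ω ≤ 1)
    (hg : ∀ ω ∈ DD V, ∀ S, g (swapOn S ω) = g ω)
    (hc : ∀ ω ∈ DD V, g ω ≠ 0 → ∀ L ∈ Loops ω, Cuts ω L z m → ∀ v ∈ L, ∀ w ∈ L, dn v w ≤ e) :
    Ex V (fun ω => g ω * (∑ᶠ x, φ x * ((hk k ω x : ℝ) - hk 0 ω x)) ^ 2) ≤
      k ^ 2 * (M ^ 2 * (2 * m + 1) ^ 2 * (4 * e + 1) ^ 2) := by
  have h0' : ∑ x ∈ box z m, φ x = 0 := by
    rw [← h0]
    symm
    refine finsum_eq_sum_of_support_subset _ fun x hx => ?_
    by_contra h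
    exact hx (hs x (by simpa using h))
  have hX : ∀ ω, ∑ᶠ x, φ x * ((hk k ω x : ℝ) - hk 0 ω x) =
      ∑ j ∈ Finset.range k, ∑ x ∈ box z m, φ x * (ic j ω x : ℝ) := by
    intro ω
    rw [finsum_eq_sum_of_support_subset (s := box z m) _ (by
      intro x hx
      by_contra h
      exact hx (by
        have := hs x (by simpa using h)
        simp only [this, zero_mul])), Finset.sum_comm]
    refine Finset.sum_congr rfl fun x _ => ?_
    rw [← Finset.mul_sum]
    congr 1
    have := Finset.sum_range_sub (fun j => (hk j ω x : ℝ)) k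
    rw [← this]
    refine Finset.sum_congr rfl fun j _ => ?_
    unfold ic
    push_cast
    ring
  calc Ex V (fun ω => g ω * (∑ᶠ x, φ x * ((hk k ω x : ℝ) - hk 0 ω x)) ^ 2)
      ≤ Ex V (fun ω => ∑ j ∈ Finset.range k,
          (k : ℝ) * (g ω * (∑ x ∈ box z m, φ x * (ic j ω x : ℝ)) ^ 2)) := by
        refine Ex_mono fun ω hω => ?_
        rw [hX, ← Finset.mul_sum, ← Finset.mul_sum]
        have h1 := sq_sum_le_card_mul_sum_sq (s := Finset.range k)
          (f := fun j => ∑ x ∈ box z m, φ x * (ic j ω x : ℝ))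
        rw [Finset.card_range] at h1
        have h2 := mul_le_mul_of_nonneg_left h1 (hg0 ω hω)
        refine h2.trans (le_of_eq ?_)
        ring
    _ = ∑ j ∈ Finset.range k,
          (k : ℝ) * Ex V (fun ω => g ω * (∑ x ∈ box z m, φ x * (ic j ω x : ℝ)) ^ 2) := by
        rw [Ex_sum]
        exact Finset.sum_congr rfl fun j _ => Ex_mul _ _
    _ ≤ ∑ _j ∈ Finset.range k, (k : ℝ) * (M ^ 2 * (2 * m + 1) ^ 2 * (4 * e + 1) ^ 2) := by
        refine Finset.sum_le_sum fun j _ => ?_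
        exact mul_le_mul_of_nonneg_left (ex_level_sq hφ h0' hg0 hg1 hg hc) (by positivity)
    _ = k ^ 2 * (M ^ 2 * (2 * m + 1) ^ 2 * (4 * e + 1) ^ 2) := by
        rw [Finset.sum_const, Finset.card_range, nsmul_eq_mul]
        ring

open Classical in
/-- **D3** -/
theorem d3 {C0 : ℝ} {R e m k : ℕ} (T : Temp) {φ : Pt → ℝ} {z : Pt} (hR : 1 ≤ R) (hm : m ≤ R)
    (hφ : ∀ x, |φ x| ≤ C0 / R ^ 2) (hs : ∀ x, x ∉ box z m → φ x = 0) (h0 : ∑ᶠ x, φ x = 0) :
    Ex T.V (fun ω => (if GoodX k z m e ω then (1 : ℝ) else 0) *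
      (∑ᶠ x, φ x * ((hk k ω x : ℝ) - hk 0 ω x)) ^ 2) ≤
      144 * C0 ^ 2 * k ^ 2 * (e + 1) ^ 2 / R ^ 2 := by
  have hRr : (1 : ℝ) ≤ R := by exact_mod_cast hR
  have hmr : (m : ℝ) ≤ R := by exact_mod_cast hm
  have hR0 : (0 : ℝ) < R := by linarith
  refine (ex_height_sq (m := m) (e := e) hφ hs h0 (fun ω _ => ?_) (fun ω _ => ?_) (fun ω _ S => ?_)
    (fun ω _ h => ?_)).trans ?_
  · split_ifs <;> norm_num
  · split_ifs <;> norm_num
  · rw [goodX_swap]
  · by_cases hg : GoodX k z m e ω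
    · exact hg.1
    · exact absurd (if_neg hg) h
  · have h1 : (2 * (m : ℝ) + 1) ^ 2 ≤ 9 * R ^ 2 := by
      have h3 : (0 : ℝ) ≤ m := Nat.cast_nonneg _
      nlinarith
    have h2 : (4 * (e : ℝ) + 1) ^ 2 ≤ 16 * (e + 1) ^ 2 := by
      have h3 : (0 : ℝ) ≤ e := Nat.cast_nonneg _
      nlinarith
    have h4 : (C0 / (R : ℝ) ^ 2) ^ 2 * (2 * m + 1) ^ 2 * (4 * e + 1) ^ 2 ≤
        (C0 / (R : ℝ) ^ 2) ^ 2 * (9 * R ^ 2) * (16 * (e + 1) ^ 2) := by
      refine mul_le_mul (mul_le_mul_of_nonneg_left h1 (by positivity)) h2 (by positivity)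
        (by positivity)
    refine (mul_le_mul_of_nonneg_left h4 (by positivity)).trans (le_of_eq ?_)
    field_simp
    ring

end Vale.Agent.P155.NT34
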