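import Vale.Agent.P155.NT34.XD3
import Vale.Agent.P155.NO801.Def

/-!
# P155, necessity of the outer condition, block D3, literal form
-/

namespace Vale.Agent.P155.NT34

open Finset SW HT T211Q H12

theorem d3' : NO801.D3 := by
  classical
  refine ⟨144, by norm_num, ?_⟩
  intro C0 R e T φ z m k _ hR _ hm hφ hs h0
  refine le_trans (le_of_eq ?_) (NT34.d3 T hR hm hφ hs h0)
  congr 1

end Vale.Agent.P155.NT34
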