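import Vale.Agent.P155.HT426.Sym

/-!
# P155, necessity of the outer condition: the good event at a box (vocabulary)
-/

namespace Vale.Agent.P155.NT34

open Finset SW HT

/-- the loop surrounds some cells of the box, but not all of them -/
def Cuts (ω : Conf) (L : Set Pt) (z : Pt) (m : ℕ) : Prop :=
  (∃ x ∈ box z m, surr ω L x) ∧ ∃ y ∈ box z m, ¬ surr ω L y

/-- the good event: loops which cut the box have diameter at most `e`, and less than `k` loops
surround the whole box -/
def GoodX (k : ℕ) (z : Pt) (m e : ℕ) (ω : Conf) : Prop :=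
  (∀ L ∈ Loops ω, Cuts ω L z m → ∀ v ∈ L, ∀ w ∈ L, dn v w ≤ e) ∧
    Set.ncard {L | L ∈ Loops ω ∧ ∀ x ∈ box z m, surr ω L x} < k

theorem cuts_swap (S : Set Pt) (ω : Conf) (L : Set Pt) (z : Pt) (m : ℕ) :
    Cuts (swapOn S ω) L z m ↔ Cuts ω L z m := by
  unfold Cuts
  rw [surr_swap]

theorem goodX_swap (S : Set Pt) (ω : Conf) (k : ℕ) (z : Pt) (m e : ℕ) :
    GoodX k z m e (swapOn S ω) ↔ GoodX k z m e ω := by
  unfold GoodX
  simp only [loops_swap, cuts_swap, surr_swap]

end Vale.Agent.P155.NT34
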