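import Vale.Agent.P155.NT34.YSc
import Vale.Agent.P155.U.Iface

/-!
# P155 (R), block R4: the conformal radius

`CR z U = sup |f' 0|` over the holomorphic maps `f` of the unit disc into `U` with `f 0 = z`.
-/

namespace Vale.Agent.P155.NT34.Y

open Set Metric Topology Filter TopologicalSpace MeasureTheory

/-- The conformal radius of `U` at `z`. -/
noncomputable def CR (z : ℂ) (U : Set ℂ) : ℝ :=
  sSup {r | ∃ f : ℂ → ℂ, DifferentiableOn ℂ f (ball 0 1) ∧ MapsTo f (ball 0 1) U ∧ f 0 = z ∧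
    r = ‖deriv f 0‖}

variable {z : ℂ} {U : Set ℂ}

theorem cr_nonempty (hz : z ∈ U) : {r | ∃ f : ℂ → ℂ, DifferentiableOn ℂ f (ball 0 1) ∧
    MapsTo f (ball 0 1) U ∧ f 0 = z ∧ r = ‖deriv f 0‖}.Nonempty :=
  ⟨‖deriv (fun _ : ℂ => z) 0‖, fun _ => z, differentiableOn_const z, fun _ _ => hz, rfl, rfl⟩

theorem cr_le_of {R : ℝ} (hU : U ⊆ ball z R) {f : ℂ → ℂ}
    (hf : DifferentiableOn ℂ f (ball 0 1)) (hm : MapsTo f (ball 0 1) U) (h0 : f 0 = z) :
    ‖deriv f 0‖ ≤ R := by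
  have hR : 0 < R := by
    have h1 : f 0 ∈ ball z R := hU (hm (mem_ball_self one_pos))
    rw [h0, mem_ball, dist_self] at h1
    exact h1
  have h2 : MapsTo f (ball 0 1) (closedBall (f 0) R) := by
    rw [h0]
    exact fun w hw => ball_subset_closedBall (hU (hm hw))
  have := Complex.norm_deriv_le_div_of_mapsTo_ball hf h2 one_pos
  simpa using this

theorem cr_bdd {R : ℝ} (hU : U ⊆ ball z R) : BddAbove {r | ∃ f : ℂ → ℂ,
    DifferentiableOn ℂ f (ball 0 1) ∧ MapsTo f (ball 0 1) U ∧ f 0 = z ∧ r = ‖deriv f 0‖} := by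
  refine ⟨R, ?_⟩
  rintro _ ⟨f, h1, h2, h3, rfl⟩
  exact cr_le_of hU h1 h2 h3

theorem exists_ball (hb : Bornology.IsBounded U) (z : ℂ) : ∃ R, U ⊆ ball z R := by
  obtain ⟨R, hR⟩ := hb.subset_ball z
  exact ⟨R, hR⟩

theorem CR_le {R : ℝ} (hR : 0 ≤ R) (hU : U ⊆ ball z R) : CR z U ≤ R := by
  refine Real.sSup_le ?_ hR
  rintro _ ⟨f, h1, h2, h3, rfl⟩
  exact cr_le_of hU h1 h2 h3

theorem le_CR (hb : Bornology.IsBounded U) {f : ℂ → ℂ} (hf : DifferentiableOn ℂ f (ball 0 1))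
    (hm : MapsTo f (ball 0 1) U) (h0 : f 0 = z) : ‖deriv f 0‖ ≤ CR z U := by
  obtain ⟨R, hR⟩ := exists_ball hb z
  exact le_csSup (cr_bdd hR) ⟨f, hf, hm, h0, rfl⟩

theorem CR_ge (hb : Bornology.IsBounded U) {r : ℝ} (hr : 0 ≤ r) (h : ball z r ⊆ U) :
    r ≤ CR z U := by
  rcases hr.eq_or_lt with e | hr
  · rw [← e]
    refine Real.sSup_nonneg ?_
    rintro _ ⟨f, h1, h2, h3, rfl⟩
    exact norm_nonneg _
  have hd : HasDerivAt (fun w : ℂ => z + r * w) (r : ℂ) 0 := by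
    simpa using ((hasDerivAt_id (0 : ℂ)).const_mul (r : ℂ)).const_add z
  have h1 := le_CR (z := z) hb (f := fun w => z + r * w)
    (by fun_prop) (by
      intro w hw
      apply h
      rw [mem_ball_zero_iff] at hw
      rw [mem_ball, dist_eq_norm]
      simp only [add_sub_cancel_left, norm_mul, Complex.norm_real, Real.norm_eq_abs,
        abs_of_pos hr]
      nlinarith) (by simp)
  rw [hd.deriv] at h1
  simpa [abs_of_pos hr] using h1

theorem CR_nonneg : 0 ≤ CR z U := by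
  refine Real.sSup_nonneg ?_
  rintro _ ⟨f, h1, h2, h3, rfl⟩
  exact norm_nonneg _

theorem CR_pos (hb : Bornology.IsBounded U) (hU : IsOpen U) (hz : z ∈ U) : 0 < CR z U := by
  obtain ⟨r, hr, h⟩ := Metric.isOpen_iff.1 hU z hz
  exact hr.trans_le (CR_ge hb hr.le h)

theorem CR_mono {U' : Set ℂ} (hb : Bornology.IsBounded U') (hz : z ∈ U) (h : U ⊆ U') :
    CR z U ≤ CR z U' := by
  obtain ⟨R, hR⟩ := exists_ball hb z
  refine csSup_le_csSup (cr_bdd hR) (cr_nonempty hz) ?_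
  rintro _ ⟨f, h1, h2, h3, rfl⟩
  exact ⟨f, h1, fun w hw => h (h2 hw), h3, rfl⟩

/-- Only the component containing `z` matters. -/
theorem CR_comp (V : Set ℂ) : CR z (connectedComponentIn V z) = CR z V := by
  unfold CR
  congr 1
  ext r
  constructor
  · rintro ⟨f, h1, h2, h3, rfl⟩
    exact ⟨f, h1, fun w hw => connectedComponentIn_subset _ _ (h2 hw), h3, rfl⟩
  · rintro ⟨f, h1, h2, h3, rfl⟩
    refine ⟨f, h1, ?_, h3, rfl⟩
    have hc : IsPreconnected (f '' ball 0 1) :=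
      (convex_ball (0 : ℂ) 1).isPreconnected.image _ h1.continuousOn
    have hz : z ∈ f '' ball 0 1 := ⟨0, mem_ball_self one_pos, h3⟩
    have := hc.subset_connectedComponentIn hz (image_subset_iff.2 h2)
    exact fun w hw => this ⟨w, hw, rfl⟩

/-- The Riemann map. -/
theorem exists_riemann (hU : IsOpen U) (hR : P153.TOP.RMT.RDom U) (hne : U ≠ univ)
    (hz : z ∈ U) : ∃ f g : ℂ → ℂ, DifferentiableOn ℂ f (ball 0 1) ∧ DifferentiableOn ℂ g U ∧
      MapsTo f (ball 0 1) U ∧ MapsTo g U (ball 0 1) ∧ (∀ w ∈ ball (0 : ℂ) 1, g (f w) = w) ∧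
      (∀ w ∈ U, f (g w) = w) ∧ f 0 = z ∧ g z = 0 ∧ (∀ w ∈ ball (0 : ℂ) 1, deriv f w ≠ 0) ∧
      (∀ w ∈ U, deriv g w ≠ 0) := by
  obtain ⟨g, h1, h2, h3, h4, h5⟩ := P153.TOP.RMT.exists_onto_disc hU hR hne hz
  have hsd : ∀ w ∈ U, HasStrictDerivAt g (deriv g w) w := fun w hw =>
    (h1.analyticOnNhd hU w hw).hasStrictDerivAt
  set f : ℂ → ℂ := Function.invFunOn g U with hf
  have hfU : ∀ w ∈ ball (0 : ℂ) 1, f w ∈ U ∧ g (f w) = w := by
    intro w hw
    rw [← h3] at hw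
    exact ⟨Function.invFunOn_mem hw, Function.invFunOn_eq hw⟩
  have hcont : ∀ w ∈ ball (0 : ℂ) 1, ContinuousAt f w := by
    intro w hw
    obtain ⟨hz, hgz⟩ := hfU w hw
    rw [ContinuousAt, Filter.tendsto_def]
    intro s hs
    have h6 : g '' (s ∩ U) ∈ 𝓝 (g (f w)) := by
      rw [← (hsd _ hz).map_nhds_eq (h4 _ hz)]
      exact image_mem_map (inter_mem hs (hU.mem_nhds hz))
    rw [hgz] at h6
    filter_upwards [h6] with y hy
    obtain ⟨x, ⟨hxs, hxU⟩, rfl⟩ := hy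
    have hy' : g x ∈ ball (0 : ℂ) 1 := by rw [← h3]; exact mem_image_of_mem _ hxU
    have := h2 (hfU _ hy').1 hxU (hfU _ hy').2
    show f (g x) ∈ s
    rw [this]; exact hxs
  have hder : ∀ w ∈ ball (0 : ℂ) 1, HasStrictDerivAt f (deriv g (f w))⁻¹ w := by
    intro w hw
    obtain ⟨hz, hgz⟩ := hfU w hw
    refine HasStrictDerivAt.of_local_left_inverse (hcont w hw) (hsd _ hz) (h4 _ hz) ?_
    filter_upwards [isOpen_ball.mem_nhds hw] with y hy
    exact (hfU y hy).2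
  have hfg : ∀ w ∈ U, f (g w) = w := by
    intro w hw
    have hy' : g w ∈ ball (0 : ℂ) 1 := by rw [← h3]; exact mem_image_of_mem _ hw
    exact h2 (hfU _ hy').1 hw (hfU _ hy').2
  refine ⟨f, g, fun w hw => (hder w hw).hasDerivAt.differentiableAt.differentiableWithinAt, h1,
    fun w hw => (hfU w hw).1, fun w hw => by rw [← h3]; exact mem_image_of_mem _ hw,
    fun w hw => (hfU w hw).2, hfg, ?_, h5, ?_, h4⟩
  · rw [← h5]; exact hfg z hz
  · intro w hw
    rw [(hder w hw).hasDerivAt.deriv]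
    exact inv_ne_zero (h4 _ (hfU w hw).1)

/-- The conformal radius from the Riemann map. -/
theorem CR_eq (hU : IsOpen U) (hb : Bornology.IsBounded U) {f g : ℂ → ℂ}
    (hf : DifferentiableOn ℂ f (ball 0 1))
    (hg : DifferentiableOn ℂ g U) (hfm : MapsTo f (ball 0 1) U) (hgm : MapsTo g U (ball 0 1))
    (hgf : ∀ w ∈ ball (0 : ℂ) 1, g (f w) = w) (h0 : f 0 = z) :
    CR z U = ‖deriv f 0‖ := by
  have hz : z ∈ U := h0 ▸ hfm (mem_ball_self one_pos)
  have hfd : HasDerivAt f (deriv f 0) 0 :=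
    (hf.differentiableAt (isOpen_ball.mem_nhds (mem_ball_self one_pos))).hasDerivAt
  have hgd : HasDerivAt g (deriv g z) z := (hg.differentiableAt (hU.mem_nhds hz)).hasDerivAt
  have hgz : g z = 0 := by rw [← h0]; exact hgf 0 (mem_ball_self one_pos)
  have hprod : deriv g z * deriv f 0 = 1 := by
    have h1 : HasDerivAt (fun w => g (f w)) (deriv g z * deriv f 0) 0 := by
      have hgd' : HasDerivAt g (deriv g z) (f 0) := by rw [h0]; exact hgd
      exact hgd'.comp 0 hfd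
    have h2 : HasDerivAt (fun w => g (f w)) 1 0 := by
      refine (hasDerivAt_id (0 : ℂ)).congr_of_eventuallyEq ?_
      filter_upwards [isOpen_ball.mem_nhds (mem_ball_self (x := (0 : ℂ)) one_pos)] with w hw
      exact hgf w hw
    exact h1.unique h2
  have hn : ‖deriv g z‖ * ‖deriv f 0‖ = 1 := by rw [← norm_mul, hprod, norm_one]
  have hg0 : 0 < ‖deriv g z‖ := by
    rw [norm_pos_iff]
    rintro e
    rw [e, zero_mul] at hprod
    exact zero_ne_one hprod
  refine le_antisymm ?_ (le_CR hb hf hfm h0)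
  refine csSup_le (cr_nonempty hz) ?_
  rintro _ ⟨h, k1, k2, k3, rfl⟩
  have hhd : HasDerivAt h (deriv h 0) 0 :=
    (k1.differentiableAt (isOpen_ball.mem_nhds (mem_ball_self one_pos))).hasDerivAt
  have hgh : HasDerivAt (fun w => g (h w)) (deriv g z * deriv h 0) 0 := by
    have hgd' : HasDerivAt g (deriv g z) (h 0) := by rw [k3]; exact hgd
    exact hgd'.comp 0 hhd
  have h3 : DifferentiableOn ℂ (fun w => g (h w)) (ball 0 1) := hg.comp k1 k2
  have h4 : MapsTo (fun w => g (h w)) (ball 0 1) (closedBall ((fun w => g (h w)) 0) 1) := by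
    intro w hw
    have : g (h 0) = 0 := by rw [k3, hgz]
    simp only [this]
    exact ball_subset_closedBall (hgm (k2 hw))
  have h5 := Complex.norm_deriv_le_div_of_mapsTo_ball h3 h4 one_pos
  rw [hgh.deriv, norm_mul] at h5
  have h6 : ‖deriv g z‖ * ‖deriv h 0‖ ≤ ‖deriv g z‖ * ‖deriv f 0‖ := by
    rw [hn]; simpa using h5
  exact le_of_mul_le_mul_left h6 hg0

/-! ### Semicontinuity -/

/-- Shrinking: the value is nearly attained by maps with compact image. -/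
theorem exists_compact_of_lt {r : ℝ} (hr : 0 ≤ r) (h : r < CR z U) :
    ∃ C : Set ℂ, IsCompact C ∧ C ⊆ U ∧ ∀ U' : Set ℂ, Bornology.IsBounded U' → C ⊆ U' →
      r < CR z U' := by
  have hne : {r | ∃ f : ℂ → ℂ, DifferentiableOn ℂ f (ball 0 1) ∧ MapsTo f (ball 0 1) U ∧
      f 0 = z ∧ r = ‖deriv f 0‖}.Nonempty := by
    by_contra he
    rw [Set.not_nonempty_iff_eq_empty] at he
    have : CR z U = 0 := by rw [CR, he, Real.sSup_empty]
    linarith
  obtain ⟨_, ⟨f, h1, h2, h3, rfl⟩, hf⟩ := exists_lt_of_lt_csSup hne h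
  have hfd : HasDerivAt f (deriv f 0) 0 :=
    (h1.differentiableAt (isOpen_ball.mem_nhds (mem_ball_self one_pos))).hasDerivAt
  have hd0 : 0 < ‖deriv f 0‖ := hr.trans_lt hf
  obtain ⟨ρ, hρ1, hρ2⟩ := exists_between ((div_lt_one hd0).2 hf)
  have hρ0 : 0 ≤ ρ := (div_nonneg hr hd0.le).trans hρ1.le
  rw [div_lt_iff₀ hd0] at hρ1
  have hcb : closedBall (0 : ℂ) ρ ⊆ ball 0 1 := closedBall_subset_ball hρ2
  refine ⟨f '' closedBall 0 ρ, (isCompact_closedBall _ _).image_of_continuousOn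
    (h1.continuousOn.mono hcb), ?_, ?_⟩
  · rintro _ ⟨w, hw, rfl⟩
    exact h2 (hcb hw)
  · intro U' hb' hU'
    have hmul : ∀ w ∈ ball (0 : ℂ) 1, (ρ : ℂ) * w ∈ closedBall (0 : ℂ) ρ := by
      intro w hw
      rw [mem_ball_zero_iff] at hw
      rw [mem_closedBall_zero_iff, norm_mul, Complex.norm_real, Real.norm_eq_abs,
        abs_of_nonneg hρ0]
      nlinarith [norm_nonneg w]
    have hd : HasDerivAt (fun w : ℂ => f (ρ * w)) (deriv f 0 * ρ) 0 := by
      have e1 : HasDerivAt (fun w : ℂ => (ρ : ℂ) * w) (ρ : ℂ) 0 := by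
        simpa using (hasDerivAt_id (0 : ℂ)).const_mul (ρ : ℂ)
      have e2 : HasDerivAt f (deriv f 0) ((ρ : ℂ) * 0) := by rw [mul_zero]; exact hfd
      exact e2.comp 0 e1
    have := le_CR (z := z) hb' (f := fun w => f (ρ * w))
      (h1.comp (by fun_prop) fun w hw => hcb (hmul w hw))
      (fun w hw => hU' ⟨_, hmul w hw, rfl⟩) (by simp [h3])
    rw [hd.deriv, norm_mul, Complex.norm_real, Real.norm_eq_abs, abs_of_nonneg hρ0] at this
    nlinarith

/-- **Measurability**: the conformal radius of the component of `Ω \ K` at `z` is a lower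
semicontinuous function of `K`. -/
theorem lsc_CR {Ω : Set ℂ} (hb : Bornology.IsBounded Ω) (z : ℂ) :
    LowerSemicontinuous (fun K : NonemptyCompacts ℂ => CR z (Ω \ K)) := by
  intro K r hr
  rcases lt_or_ge r 0 with h | h
  · exact Eventually.of_forall fun K' => h.trans_le CR_nonneg
  obtain ⟨C, hC, hCU, hC'⟩ := exists_compact_of_lt h hr
  have ho : IsOpen {K' : NonemptyCompacts ℂ | (K' : Set ℂ) ⊆ Cᶜ} :=
    NonemptyCompacts.isOpen_subsets_of_isOpen hC.isClosed.isOpen_compl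
  have hK : K ∈ {K' : NonemptyCompacts ℂ | (K' : Set ℂ) ⊆ Cᶜ} := fun x hx hxC => (hCU hxC).2 hx
  filter_upwards [ho.mem_nhds hK] with K' hK'
  exact hC' _ (hb.subset sdiff_subset) fun x hx => ⟨(hCU hx).1, fun hxK => hK' hxK hx⟩

theorem measurable_CR {Ω : Set ℂ} (hb : Bornology.IsBounded Ω) (z : ℂ) :
    Measurable (fun K : NonemptyCompacts ℂ => CR z (Ω \ K)) :=
  (lsc_CR hb z).measurable

end Vale.Agent.P155.NT34.Y
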