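import Vale.Agent.P155.NT34.YHSC

/-!
# P155 (I): the plane is unicoherent; boundaries of holes are connected
-/

namespace Vale.Agent.P155.NT34.Y

open Set Metric Topology Filter TopologicalSpace MeasureTheory

/-- **The plane is unicoherent.** -/
theorem unicoherent {X Y : Set ℂ} (hX : IsClosed X) (hY : IsClosed Y) (hXc : IsPreconnected X)
    (hYc : IsPreconnected Y) (h : X ∪ Y = univ) : IsPreconnected (X ∩ Y) := by
  classical
  rw [isPreconnected_closed_iff]
  rintro t t' ht ht' hs ⟨a, haXY, hat⟩ ⟨b, hbXY, hbt⟩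
  by_contra hemp
  rw [Set.not_nonempty_iff_eq_empty] at hemp
  have hd : Disjoint ((X ∩ Y) ∩ t) ((X ∩ Y) ∩ t') := by
    rw [Set.disjoint_left]
    intro x hx hx'
    have : x ∈ X ∩ Y ∩ (t ∩ t') := ⟨hx.1, hx.2, hx'.2⟩
    rw [hemp] at this
    exact this
  obtain ⟨u, huA, huB, -⟩ := exists_continuous_zero_one_of_isClosed
    ((hX.inter hY).inter ht) ((hX.inter hY).inter ht') hd
  have hua : u a = 0 := huA ⟨haXY, hat⟩
  have hub : u b = 1 := huB ⟨hbXY, hbt⟩
  set f : ℂ → ℂ := fun z => if z ∈ X then Complex.exp ((u z : ℂ) * (2 * Real.pi * Complex.I))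
    else 1 with hf
  have hfX : ∀ z ∈ X, f z = Complex.exp ((u z : ℂ) * (2 * Real.pi * Complex.I)) := by
    intro z hz
    simp only [hf, if_pos hz]
  have hfY : ∀ z ∈ Y, f z = 1 := by
    intro z hz
    by_cases hzX : z ∈ X
    · rw [hfX z hzX]
      rcases hs ⟨hzX, hz⟩ with h1 | h1
      · have : u z = 0 := huA ⟨⟨hzX, hz⟩, h1⟩
        rw [this]
        simp
      · have : u z = 1 := huB ⟨⟨hzX, hz⟩, h1⟩
        rw [this]
        simp [Complex.exp_two_pi_mul_I]
    · simp only [hf, if_neg hzX]
  have hfc : Continuous f := by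
    rw [← continuousOn_univ, ← h]
    refine ContinuousOn.union_of_isClosed ?_ ?_ hX hY
    · refine ContinuousOn.congr (f := fun z => Complex.exp ((u z : ℂ) *
        (2 * Real.pi * Complex.I))) ?_ hfX
      exact Continuous.continuousOn (by fun_prop)
    · exact continuousOn_const.congr hfY
  have hf0 : ∀ z, f z ≠ 0 := by
    intro z
    simp only [hf]
    split_ifs
    · exact Complex.exp_ne_zero _
    · exact one_ne_zero
  obtain ⟨F, hF, hF'⟩ := P153.TOP.hasLogOn_of_convex (convex_univ (𝕜 := ℝ) (E := ℂ)) f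
    hfc.continuousOn fun z _ => hf0 z
  have h1 := P153.TOP.log_diff_const hYc (hF.mono (subset_univ _))
    (continuousOn_const (c := (0 : ℂ))) (fun x hx => by
      rw [hF' x (mem_univ _), hfY x hx, Complex.exp_zero]) haXY.2 hbXY.2
  have h2 := P153.TOP.log_diff_const hXc (hF.mono (subset_univ _))
    (G := fun z => (u z : ℂ) * (2 * Real.pi * Complex.I))
    (Continuous.continuousOn (by fun_prop)) (fun x hx => by
      rw [hF' x (mem_univ _), hfX x hx]) haXY.1 hbXY.1
  simp only [hua, hub] at h2
  simp only [sub_zero] at h1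
  rw [h1] at h2
  push_cast at h2
  have h3 : (2 * Real.pi * Complex.I : ℂ) = 0 := by linear_combination h2
  exact Complex.two_pi_I_ne_zero h3

/-- The boundary of a bounded open connected set with preconnected complement is connected. -/
theorem frontier_connected {V : Set ℂ} (hV : IsOpen V) (hb : Bornology.IsBounded V)
    (hc : IsConnected V) (hcc : IsPreconnected Vᶜ) : IsConnected (frontier V) := by
  have e : frontier V = closure V ∩ Vᶜ := by
    rw [hV.frontier_eq]
    rfl
  constructor
  · have hne : V ≠ univ := by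
      rintro rfl
      exact NormedSpace.unbounded_univ ℝ ℂ hb
    by_contra hemp
    rw [Set.not_nonempty_iff_eq_empty] at hemp
    have hclopen : IsClopen V := ⟨isClosed_of_closure_subset (by
      intro x hx
      by_contra h
      have : x ∈ frontier V := by rw [hV.frontier_eq]; exact ⟨hx, h⟩
      rw [hemp] at this
      exact this), hV⟩
    rcases isClopen_iff.1 hclopen with h | h
    · exact hc.nonempty.ne_empty h
    · exact hne h
  · rw [e]
    refine unicoherent isClosed_closure hV.isClosed_compl hc.isPreconnected.closure hcc ?_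
    rw [← univ_subset_iff, ← union_compl_self V]
    exact union_subset_union subset_closure subset_rfl

/-- The boundary of a hole is connected. -/
theorem hole_frontier_connected {Ω : Set ℂ} (hΩ : IsOpen Ω) (hb : Bornology.IsBounded Ω)
    {K : Set ℂ} (hK : IsClosed K) (hKc : IsPreconnected K) (hf : frontier Ω ⊆ K) {V : Set ℂ}
    (hV : Q1.IsHole Ω K V) : IsConnected (frontier V) := by
  obtain ⟨z, hz, rfl⟩ := hV
  exact frontier_connected (comp_open hΩ hK) (hb.subset (comp_sub.trans sdiff_subset))
    (comp_conn hz) (comp_compl_preconn hΩ hK hKc hf hz)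

/-- The complement of a simply connected hole is connected; boundary inside `K`. -/
theorem hole_facts {Ω : Set ℂ} (hΩ : IsOpen Ω) (hb : Bornology.IsBounded Ω)
    {K : Set ℂ} (hK : IsClosed K) (hKc : IsPreconnected K) (hf : frontier Ω ⊆ K) {V : Set ℂ}
    (hV : Q1.IsHole Ω K V) : IsOpen V ∧ IsConnected V ∧ V ⊆ Ω \ K ∧ frontier V ⊆ K ∧
      IsPreconnected Vᶜ ∧ IsConnected (frontier V) ∧ IsSimplyConnected V ∧
      Bornology.IsBounded V ∧ IsOpen ((Ω \ K) \ V) := by
  have h := hole_frontier_connected hΩ hb hK hKc hf hV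
  obtain ⟨z, hz, rfl⟩ := hV
  refine ⟨comp_open hΩ hK, comp_conn hz, comp_sub, frontier_comp_sub hΩ hK hf,
    comp_compl_preconn hΩ hK hKc hf hz, h, comp_simplyConnected hΩ hb hK hKc hf hz,
    hb.subset (comp_sub.trans sdiff_subset), ?_⟩
  have e : (Ω \ K) \ connectedComponentIn (Ω \ K) z =
      (Ω \ K) \ closure (connectedComponentIn (Ω \ K) z) := by
    ext x
    constructor
    · rintro ⟨hx, hx'⟩
      refine ⟨hx, fun hc => hx' ?_⟩
      by_contra hn
      have h1 : x ∈ frontier (connectedComponentIn (Ω \ K) z) := by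
        rw [(comp_open hΩ hK).frontier_eq]
        exact ⟨hc, hn⟩
      exact hx.2 (frontier_comp_sub hΩ hK hf h1)
    · rintro ⟨hx, hx'⟩
      exact ⟨hx, fun h => hx' (subset_closure h)⟩
  rw [e]
  exact (hΩ.sdiff hK).sdiff isClosed_closure

end Vale.Agent.P155.NT34.Y
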