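import Vale.Agent.P155.NT34.YSc
import Vale.Agent.P155.NO801.YI

/-!
# P155 (I): holes of carpets are simply connected
-/

namespace Vale.Agent.P155.NT34.Y

open Set Metric Topology Filter TopologicalSpace MeasureTheory

theorem hsc : NO801.Y.HSC := by
  intro Ω K V hΩ hb hK hf hV
  obtain ⟨z, hz, rfl⟩ := hV
  exact comp_simplyConnected hΩ hb K.isCompact.isClosed hK.isPreconnected hf hz

end Vale.Agent.P155.NT34.Y
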