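import Vale.Agent.P155.NT34.YSc
import Vale.Agent.P155.NT924.YDef
import Vale.Agent.P155.U.Sub

/-!
# P155 (R): the block R1d
-/

namespace Vale.Agent.P155.NT34.Y

open Set Metric Topology Filter TopologicalSpace MeasureTheory

theorem closure_comp_inter {O : Set ℂ} (hO : IsOpen O) {z : ℂ} :
    closure (connectedComponentIn O z) ∩ O ⊆ connectedComponentIn O z := by
  rintro x ⟨hx, hxO⟩
  by_contra h
  have h1 : x ∈ frontier (connectedComponentIn O z) := by
    rw [hO.connectedComponentIn.frontier_eq]
    exact ⟨hx, h⟩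
  have h2 := frontier_comp hO h1
  rw [hO.frontier_eq] at h2
  exact h2.2 hxO

theorem ind_near {O : Set ℂ} (hO : IsOpen O) {z : ℂ} {v : ℂ → ℝ} (hv : IsTest O v) (x : ℂ) :
    (x ∈ connectedComponentIn O z ∧
      (connectedComponentIn O z).indicator v =ᶠ[𝓝 x] v) ∨
    (x ∉ connectedComponentIn O z ∧
      (connectedComponentIn O z).indicator v =ᶠ[𝓝 x] fun _ => 0) := by
  by_cases hx : x ∈ connectedComponentIn O z
  · left
    refine ⟨hx, ?_⟩
    filter_upwards [hO.connectedComponentIn.mem_nhds hx] with y hy
    exact indicator_of_mem hy v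
  · right
    refine ⟨hx, ?_⟩
    by_cases hc : x ∈ closure (connectedComponentIn O z)
    · have hxO : x ∉ O := fun h => hx (closure_comp_inter hO ⟨hc, h⟩)
      have hxs : x ∉ tsupport v := fun h => hxO (hv.2.2 h)
      have := (isClosed_tsupport v).isOpen_compl.mem_nhds hxs
      filter_upwards [this] with y hy
      have : v y = 0 := image_eq_zero_of_notMem_tsupport hy
      by_cases hyU : y ∈ connectedComponentIn O z
      · rw [indicator_of_mem hyU, this]
      · rw [indicator_of_notMem hyU]
    · filter_upwards [isClosed_closure.isOpen_compl.mem_nhds hc] with y hy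
      exact indicator_of_notMem (fun h => hy (subset_closure h)) v

theorem isTest_ind {O : Set ℂ} (hO : IsOpen O) {z : ℂ} {v : ℂ → ℝ} (hv : IsTest O v) :
    IsTest (connectedComponentIn O z) ((connectedComponentIn O z).indicator v) := by
  have hsub : Function.support ((connectedComponentIn O z).indicator v) ⊆
      connectedComponentIn O z ∩ Function.support v := by
    rw [support_indicator]
  refine ⟨?_, hv.2.1.mono (hsub.trans inter_subset_right), ?_⟩
  · rw [contDiff_iff_contDiffAt]
    intro x
    rcases ind_near hO (z := z) hv x with ⟨_, h⟩ | ⟨_, h⟩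
    · exact hv.1.contDiffAt.congr_of_eventuallyEq h
    · exact contDiffAt_const.congr_of_eventuallyEq h
  · intro x hx
    have h1 : x ∈ closure (connectedComponentIn O z) :=
      closure_mono (hsub.trans inter_subset_left) hx
    have h2 : x ∈ tsupport v := closure_mono (hsub.trans inter_subset_right) hx
    exact closure_comp_inter hO ⟨h1, hv.2.2 h2⟩

theorem fderiv_ind {O : Set ℂ} (hO : IsOpen O) {z : ℂ} {v : ℂ → ℝ} (hv : IsTest O v) (x : ℂ) :
    ‖fderiv ℝ ((connectedComponentIn O z).indicator v) x‖ ^ 2 ≤ ‖fderiv ℝ v x‖ ^ 2 := by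
  rcases ind_near hO (z := z) hv x with ⟨_, h⟩ | ⟨_, h⟩
  · rw [h.fderiv_eq]
  · rw [h.fderiv_eq]
    simp

theorem r1d : YD.R1d := by
  intro O z φ hO hb _ hφ
  obtain ⟨M, hM⟩ := hφ.1.continuous.bounded_above_of_compact_support hφ.2.1
  have hM' : ∀ x, |φ x| ≤ M := fun x => by
    have := hM x
    rwa [Real.norm_eq_abs] at this
  have hφm : AEStronglyMeasurable φ := hφ.1.continuous.aestronglyMeasurable
  have hUO : connectedComponentIn O z ⊆ O := connectedComponentIn_subset _ _
  apply le_antisymm
  · apply P155.U.greenEnergy_le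
    intro v hv
    have hv1 := isTest_ind hO (z := z) hv
    have h1 := P155.U.dval_le (hb.subset hUO) hφm hM' hv1
    have h2 : ∫ x, φ x * (connectedComponentIn O z).indicator v x = ∫ x, φ x * v x := by
      congr 1
      funext x
      by_cases hx : x ∈ connectedComponentIn O z
      · rw [indicator_of_mem hx]
      · rw [indicator_of_notMem hx, P155.U.test_zero hφ hx]
        simp
    have h3 : ∫ x, ‖fderiv ℝ ((connectedComponentIn O z).indicator v) x‖ ^ 2 ≤
        ∫ x, ‖fderiv ℝ v x‖ ^ 2 :=
      integral_mono (P155.U.test_sq hv1) (P155.U.test_sq hv) fun x => fderiv_ind hO hv x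
    rw [h2] at h1
    linarith
  · exact P155.U.greenEnergy_mono hUO hb hφm hM'

end Vale.Agent.P155.NT34.Y
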