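import Vale.Agent.P155.NT34.YCR
import Vale.Agent.P155.NT924.YDef

/-!
# P155 (R): the blocks R5 and R6
-/

namespace Vale.Agent.P155.NT34.Y

open Set Metric Topology Filter TopologicalSpace MeasureTheory

theorem crad_eq (U : Set ℂ) (z : ℂ) : YD.crad U z = CR z U := rfl

theorem r5 : YD.R5 := by
  intro Ω z _ hb
  have : (fun K : NonemptyCompacts ℂ => YD.crad (YD.hole Ω K z) z) =
      fun K : NonemptyCompacts ℂ => CR z (Ω \ K) := by
    funext K
    rw [crad_eq, YD.hole, CR_comp]
  rw [this]
  exact lsc_CR hb z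

theorem r6 : YD.R6 := by
  intro Ω z K hΩ hb _ hK hKc hf hz
  have hf' : frontier Ω ⊆ K := by
    rcases hf with h | h
    · rw [h]
    · exact h
  have h := comp_simplyConnected hΩ hb hK.isClosed hKc.isPreconnected hf' hz
  exact ⟨h, h⟩

end Vale.Agent.P155.NT34.Y
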