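import Vale.Agent.P155.NT613.YR7
import Vale.Agent.P155.Y877.R1
import Vale.Agent.P155.NT733.YR4
import Vale.Agent.P155.NT34.YR1d
import Vale.Agent.P155.NT34.YR56

/-!
# P155 (R): the conformal radii of nested CLE₄
-/

namespace Vale.Agent.P155.NT34.Y

/-- **(R)**: the law of the log conformal radii. -/
theorem rgoal : YD.RGoal := NT613.r7 Y877.r1 r1d NT733.r4 r5 r6

end Vale.Agent.P155.NT34.Y
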