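import Vale.Agent.P153.R2.L1.Rmt

/-!
# P155 (R), block R4: the components of `Ω \ K` are simply connected

`Ω` open bounded, `K` compact connected with `frontier Ω ⊆ K`.
-/

namespace Vale.Agent.P155.NT34.Y

open Set Metric Topology Filter

/-- The first point of a segment on the boundary of an open set. -/
theorem seg_hit {U : Set ℂ} (hU : IsOpen U) {w p : ℂ} (hw : w ∉ U) (hp : p ∈ U) :
    ∃ S : Set ℂ, IsPreconnected S ∧ w ∈ S ∧ S ⊆ Uᶜ ∧ (S ∩ frontier U).Nonempty := by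
  set γ : ℝ → ℂ := fun t => w + t * (p - w) with hγ
  have hγc : Continuous γ := by fun_prop
  have h0 : γ 0 = w := by simp [hγ]
  have h1 : γ 1 = p := by simp [hγ]
  set T : Set ℝ := {t | 0 ≤ t ∧ γ t ∈ U} with hT
  have hTne : T.Nonempty := ⟨1, by simp [hT, h1, hp]⟩
  have hTb : BddBelow T := ⟨0, fun t ht => ht.1⟩
  set t0 := sInf T with ht0
  have ht00 : 0 ≤ t0 := le_csInf hTne fun t ht => ht.1
  have hlt : ∀ t, 0 ≤ t → t < t0 → γ t ∉ U := by
    intro t ht htt h
    exact absurd (csInf_le hTb (show t ∈ T from ⟨ht, h⟩)) (not_le.2 htt)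
  have hnot : γ t0 ∉ U := by
    intro h
    rcases ht00.eq_or_lt with e | e
    · rw [← e, h0] at h
      exact hw h
    · have hev : ∀ᶠ t in 𝓝 t0, γ t ∈ U := hγc.continuousAt.eventually (hU.mem_nhds h)
      obtain ⟨l, hl, hl2⟩ := (hev.filter_mono (nhdsWithin_le_nhds (s := Iio t0))).and
        ((Ioo_mem_nhdsLT e)) |>.exists
      exact hlt l hl2.1.le hl2.2 hl
  have hcl : γ t0 ∈ closure U := by
    have h2 : t0 ∈ closure T := csInf_mem_closure hTne hTb
    have h3 : T ⊆ γ ⁻¹' closure U := fun t ht => subset_closure ht.2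
    exact closure_minimal h3 (isClosed_closure.preimage hγc) h2
  refine ⟨γ '' Icc 0 t0, isPreconnected_Icc.image _ hγc.continuousOn,
    ⟨0, ⟨le_rfl, ht00⟩, h0⟩, ?_, ⟨γ t0, ⟨t0, ⟨ht00, le_rfl⟩, rfl⟩, ?_⟩⟩
  · rintro _ ⟨t, ht, rfl⟩
    rcases ht.2.eq_or_lt with e | e
    · rw [e]; exact hnot
    · exact hlt t ht.1 e
  · rw [hU.frontier_eq]
    exact ⟨hcl, hnot⟩

/-- The complement of an open set whose boundary lies in a connected set in the complement. -/
theorem compl_preconn {K U : Set ℂ} (hK : IsPreconnected K) (hU : IsOpen U) (hne : U.Nonempty)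
    (hfr : frontier U ⊆ K) (hd : K ⊆ Uᶜ) : IsPreconnected Uᶜ := by
  obtain ⟨p, hp⟩ := hne
  rcases Set.eq_empty_or_nonempty Uᶜ with e | ⟨w0, hw0⟩
  · rw [e]; exact isPreconnected_empty
  obtain ⟨S0, hS0, hw0S, hS0U, k0, hk0S, hk0⟩ := seg_hit hU hw0 hp
  refine isPreconnected_of_forall k0 fun w hw => ?_
  obtain ⟨S, hS, hwS, hSU, k, hkS, hk⟩ := seg_hit hU hw hp
  refine ⟨S ∪ K, union_subset hSU hd, Or.inr (hfr hk0), Or.inl hwS, ?_⟩
  exact hS.union k hkS (hfr hk) hK

section comp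

variable {Ω K : Set ℂ} {z : ℂ}

/-- The component. -/
theorem comp_open (hΩ : IsOpen Ω) (hK : IsClosed K) :
    IsOpen (connectedComponentIn (Ω \ K) z) :=
  (hΩ.sdiff hK).connectedComponentIn

theorem comp_sub : connectedComponentIn (Ω \ K) z ⊆ Ω \ K := connectedComponentIn_subset _ _

/-- A boundary point of a component is not in the open set. -/
theorem frontier_comp {V : Set ℂ} (hV : IsOpen V) :
    frontier (connectedComponentIn V z) ⊆ frontier V := by
  intro x hx
  rw [hV.connectedComponentIn.frontier_eq] at hx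
  rw [hV.frontier_eq]
  refine ⟨closure_mono (connectedComponentIn_subset _ _) hx.1, fun hxV => hx.2 ?_⟩
  have hW : connectedComponentIn V x ∈ 𝓝 x :=
    hV.connectedComponentIn.mem_nhds (mem_connectedComponentIn hxV)
  obtain ⟨y, hyW, hyU⟩ := mem_closure_iff_nhds.1 hx.1 _ hW
  have e1 := connectedComponentIn_eq hyW
  have e2 := connectedComponentIn_eq hyU
  rw [e2, ← e1]
  exact mem_connectedComponentIn hxV

theorem frontier_sdiff (hΩ : IsOpen Ω) (hK : IsClosed K) (hf : frontier Ω ⊆ K) :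
    frontier (Ω \ K) ⊆ K := by
  intro x hx
  rw [(hΩ.sdiff hK).frontier_eq] at hx
  by_contra hxK
  have h1 : x ∉ Ω := fun h => hx.2 ⟨h, hxK⟩
  have h2 : x ∈ closure Ω := closure_mono sdiff_subset hx.1
  exact hxK (hf (by rw [hΩ.frontier_eq]; exact ⟨h2, h1⟩))

theorem frontier_comp_sub (hΩ : IsOpen Ω) (hK : IsClosed K) (hf : frontier Ω ⊆ K) :
    frontier (connectedComponentIn (Ω \ K) z) ⊆ K :=
  (frontier_comp (hΩ.sdiff hK)).trans (frontier_sdiff hΩ hK hf)

theorem comp_compl_preconn (hΩ : IsOpen Ω) (hK : IsClosed K) (hKc : IsPreconnected K)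
    (hf : frontier Ω ⊆ K) (hz : z ∈ Ω \ K) :
    IsPreconnected (connectedComponentIn (Ω \ K) z)ᶜ :=
  compl_preconn hKc (comp_open hΩ hK) ⟨z, mem_connectedComponentIn hz⟩
    (frontier_comp_sub hΩ hK hf) fun _ hx hx' => (comp_sub hx').2 hx

theorem comp_noBdd (hΩ : IsOpen Ω) (hb : Bornology.IsBounded Ω) (hK : IsClosed K)
    (hKc : IsPreconnected K) (hf : frontier Ω ⊆ K) (hz : z ∈ Ω \ K) :
    ∀ w ∉ connectedComponentIn (Ω \ K) z, ∃ C : Set ℂ, IsPreconnected C ∧ w ∈ C ∧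
      C ⊆ (connectedComponentIn (Ω \ K) z)ᶜ ∧ ¬ Bornology.IsBounded C := by
  intro w hw
  refine ⟨_, comp_compl_preconn hΩ hK hKc hf hz, hw, subset_rfl, fun hB => ?_⟩
  have h1 : Bornology.IsBounded (connectedComponentIn (Ω \ K) z) :=
    hb.subset (comp_sub.trans sdiff_subset)
  have h2 := h1.union hB
  rw [union_compl_self] at h2
  exact NormedSpace.unbounded_univ ℝ ℂ h2

theorem comp_ne_univ (hb : Bornology.IsBounded Ω) : connectedComponentIn (Ω \ K) z ≠ univ := by
  intro h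
  have h1 : Bornology.IsBounded (connectedComponentIn (Ω \ K) z) :=
    hb.subset (comp_sub.trans sdiff_subset)
  rw [h] at h1
  exact NormedSpace.unbounded_univ ℝ ℂ h1

theorem comp_conn (hz : z ∈ Ω \ K) : IsConnected (connectedComponentIn (Ω \ K) z) :=
  isConnected_connectedComponentIn_iff.2 hz

/-- Nonvanishing functions on a component have logarithms. -/
theorem comp_rdom (hΩ : IsOpen Ω) (hb : Bornology.IsBounded Ω) (hK : IsClosed K)
    (hKc : IsPreconnected K) (hf : frontier Ω ⊆ K) (hz : z ∈ Ω \ K) :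
    P153.TOP.RMT.RDom (connectedComponentIn (Ω \ K) z) :=
  ⟨comp_conn hz, P153.TOP.hasLogOn_of_noBdd (comp_open hΩ hK) (comp_conn hz).isPreconnected
    (comp_noBdd hΩ hb hK hKc hf hz)⟩

theorem comp_simplyConnected (hΩ : IsOpen Ω) (hb : Bornology.IsBounded Ω) (hK : IsClosed K)
    (hKc : IsPreconnected K) (hf : frontier Ω ⊆ K) (hz : z ∈ Ω \ K) :
    IsSimplyConnected (connectedComponentIn (Ω \ K) z) :=
  P153.TOP.RMT.RDom.isSimplyConnected (comp_open hΩ hK) (comp_rdom hΩ hb hK hKc hf hz)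
    (comp_ne_univ hb)

end comp

end Vale.Agent.P155.NT34.Y
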